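import Crest.Agent.R304.Wt
import Crest.Prelude.Def_Matchings
import Crest.Prelude.Def_MultiplicityCount

/-!
# Row 304: perfect matchings as edge sets and as involutions
-/

set_option autoImplicit false

namespace Crest.Agent.R304

open Finset Crest.Matchings

variable {n : ℕ}

/-- A symmetric irreflexive relation with unique partners is a perfect matching. -/
theorem exists_pm_of_rel (r : Fin n → Fin n → Prop) (hs : ∀ u v, r u v → r v u)
    (hi : ∀ u, ¬ r u u) (h : ∀ u, ∃! v, r u v) : ∃ σ : PM n, ∀ u v, σ.1 u = v ↔ r u v := by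
  choose f hf hu using h
  have key : ∀ u v, f u = v ↔ r u v := fun u v => ⟨fun e => e ▸ hf u, fun e => (hu u v e).symm⟩
  refine ⟨⟨f, fun v => (key _ _).2 (hs _ _ (hf v)), fun v e => hi v ((key _ _).1 e)⟩, key⟩

theorem pm_swap (σ : PM n) {u v : Fin n} (h : σ.1 u = v) : σ.1 v = u := h ▸ σ.2.1 u

/-- The increasing pairs of a perfect matching. -/
def pairsOf (σ : PM n) : Finset (Fin n × Fin n) := (ltPairs n).filter fun q => σ.1 q.1 = q.2

theorem mem_pairsOf {σ : PM n} {q : Fin n × Fin n} :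
    q ∈ pairsOf σ ↔ q.1 < q.2 ∧ σ.1 q.1 = q.2 := by
  simp [pairsOf, ltPairs]

theorem pairsOf_card (σ : PM n) (v : Fin n) :
    ((pairsOf σ).filter fun q => q.1 = v ∨ q.2 = v).card = 1 := by
  rw [card_eq_one]
  rcases lt_or_gt_of_ne (σ.2.2 v) with h | h
  · refine ⟨(σ.1 v, v), ?_⟩
    ext ⟨a, b⟩
    simp only [mem_filter, mem_pairsOf, mem_singleton, Prod.mk.injEq]
    constructor
    · rintro ⟨⟨h1, h2⟩, rfl | rfl⟩
      · exact absurd (h2 ▸ h) (not_lt.2 h1.le)
      · exact ⟨(pm_swap σ h2).symm, rfl⟩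
    · rintro ⟨rfl, rfl⟩
      exact ⟨⟨h, σ.2.1 _⟩, Or.inr rfl⟩
  · refine ⟨(v, σ.1 v), ?_⟩
    ext ⟨a, b⟩
    simp only [mem_filter, mem_pairsOf, mem_singleton, Prod.mk.injEq]
    constructor
    · rintro ⟨⟨h1, h2⟩, rfl | rfl⟩
      · exact ⟨rfl, h2.symm⟩
      · exact absurd ((pm_swap σ h2) ▸ h) (not_lt.2 h1.le)
    · rintro ⟨rfl, rfl⟩
      exact ⟨⟨h, rfl⟩, Or.inl rfl⟩

theorem pairsOf_inj : Function.Injective (pairsOf (n := n)) := by
  intro σ τ e
  apply Subtype.ext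
  funext v
  rcases lt_or_gt_of_ne (σ.2.2 v) with h | h
  · have h1 : (σ.1 v, v) ∈ pairsOf σ := mem_pairsOf.2 ⟨h, σ.2.1 _⟩
    rw [e] at h1
    exact (pm_swap τ (mem_pairsOf.1 h1).2).symm
  · have h1 : (v, σ.1 v) ∈ pairsOf σ := mem_pairsOf.2 ⟨h, rfl⟩
    rw [e] at h1
    exact (mem_pairsOf.1 h1).2.symm

theorem pairsOf_surj {M : Finset (Fin n × Fin n)} (hM : ∀ q ∈ M, q.1 < q.2)
    (h : ∀ v, (M.filter fun q => q.1 = v ∨ q.2 = v).card = 1) : ∃ σ, pairsOf σ = M := by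
  obtain ⟨σ, hσ⟩ := exists_pm_of_rel (fun u v => (u, v) ∈ M ∨ (v, u) ∈ M)
    (fun _ _ h => h.symm) (fun u h => by
      rcases h with h | h <;> exact lt_irrefl _ (hM _ h)) (fun u => by
      obtain ⟨⟨a, b⟩, hq⟩ := card_eq_one.1 (h u)
      have hm : ∀ q, q ∈ M ∧ (q.1 = u ∨ q.2 = u) ↔ q = (a, b) := fun q => by
        rw [← mem_singleton (a := (a, b)), ← hq, mem_filter]
      obtain ⟨h1, h2⟩ := (hm (a, b)).2 rfl
      have hab := hM _ h1
      rcases h2 with h2 | h2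
      · obtain rfl : a = u := h2
        refine ⟨b, Or.inl h1, ?_⟩
        rintro y (hy | hy)
        · exact (Prod.ext_iff.1 ((hm _).1 ⟨hy, Or.inl rfl⟩)).2
        · have := Prod.ext_iff.1 ((hm _).1 ⟨hy, Or.inr rfl⟩)
          exact absurd this.2 hab.ne
      · obtain rfl : b = u := h2
        refine ⟨a, Or.inr h1, ?_⟩
        rintro y (hy | hy)
        · have := Prod.ext_iff.1 ((hm _).1 ⟨hy, Or.inl rfl⟩)
          exact absurd this.1 hab.ne'
        · exact (Prod.ext_iff.1 ((hm _).1 ⟨hy, Or.inr rfl⟩)).1)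
  refine ⟨σ, ?_⟩
  ext ⟨a, b⟩
  rw [mem_pairsOf, hσ]
  constructor
  · rintro ⟨h1, h2 | h2⟩
    · exact h2
    · exact absurd (hM _ h2) (not_lt.2 h1.le)
  · exact fun h1 => ⟨hM _ h1, Or.inl h1⟩

theorem prod_pairsOf {R : Type} [CommMonoid R] (w : Fin n → Fin n → R) (σ : PM n) :
    ∏ q ∈ pairsOf σ, w q.1 q.2 = wt w σ.1 := by
  unfold wt
  rw [← prod_filter]
  refine prod_bij (fun q _ => q.1) ?_ ?_ ?_ ?_
  · intro q hq
    obtain ⟨h1, h2⟩ := mem_pairsOf.1 hq
    simpa [h2] using h1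
  · intro q hq q' hq' e
    refine Prod.ext e ?_
    rw [← (mem_pairsOf.1 hq).2, ← (mem_pairsOf.1 hq').2, e]
  · intro v hv
    exact ⟨(v, σ.1 v), mem_pairsOf.2 ⟨(mem_filter.1 hv).2, rfl⟩, rfl⟩
  · intro q hq
    rw [(mem_pairsOf.1 hq).2]

theorem mult_eq (w : Fin n → Fin n → ℕ) : multNumPerfectMatchings w = ZZ w := by
  unfold multNumPerfectMatchings ZZ
  symm
  refine sum_bij (fun σ _ => pairsOf σ) ?_ ?_ ?_ ?_
  · intro σ _
    exact mem_filter.2 ⟨mem_powerset.2 (filter_subset _ _), pairsOf_card σ⟩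
  · intro σ _ τ _ e
    exact pairsOf_inj e
  · intro M hM
    obtain ⟨h1, h2⟩ := mem_filter.1 hM
    obtain ⟨σ, hσ⟩ := pairsOf_surj (M := M)
      (fun q hq => by simpa [ltPairs] using mem_powerset.1 h1 hq) h2
    exact ⟨σ, mem_univ _, hσ⟩
  · intro σ _
    exact (prod_pairsOf w σ).symm

/-- The unordered pairs of a perfect matching. -/
def edgesOf (σ : PM n) : Finset (Sym2 (Fin n)) := univ.image fun v => s(v, σ.1 v)

theorem mem_edgesOf {σ : PM n} {u v : Fin n} : s(u, v) ∈ edgesOf σ ↔ σ.1 u = v := by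
  simp only [edgesOf, mem_image, mem_univ, true_and, Sym2.eq_iff]
  constructor
  · rintro ⟨a, ⟨rfl, rfl⟩ | ⟨rfl, rfl⟩⟩
    · rfl
    · exact σ.2.1 _
  · intro h
    exact ⟨u, Or.inl ⟨rfl, h⟩⟩

theorem num_eq (G : SimpleGraph (Fin n)) [DecidableRel G.Adj] :
    numPerfectMatchings G = (univ.filter fun σ : PM n => ∀ v, G.Adj v (σ.1 v)).card := by
  unfold numPerfectMatchings
  symm
  refine card_bij (fun σ _ => edgesOf σ) ?_ ?_ ?_
  · intro σ hσ
    have hσ' := (mem_filter.1 hσ).2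
    refine mem_filter.2 ⟨mem_powerset.2 ?_, fun v => ?_⟩
    · intro e he
      obtain ⟨v, -, rfl⟩ := mem_image.1 he
      simpa using hσ' v
    · rw [card_eq_one]
      refine ⟨s(v, σ.1 v), ?_⟩
      ext e
      rw [mem_filter, mem_singleton]
      constructor
      · rintro ⟨h1, h2⟩
        obtain ⟨u, rfl⟩ := Sym2.mem_iff_exists.1 h2
        rw [mem_edgesOf.1 h1]
      · rintro rfl
        exact ⟨mem_edgesOf.2 rfl, Sym2.mem_mk_left _ _⟩
  · intro σ _ τ _ e
    apply Subtype.ext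
    funext v
    have h : s(v, σ.1 v) ∈ edgesOf σ := mem_edgesOf.2 rfl
    rw [e] at h
    exact (mem_edgesOf.1 h).symm
  · intro M hM
    obtain ⟨h1, h2⟩ := mem_filter.1 hM
    have hadj : ∀ u v, s(u, v) ∈ M → G.Adj u v := fun u v h => by
      simpa using mem_powerset.1 h1 h
    obtain ⟨σ, hσ⟩ := exists_pm_of_rel (fun u v => s(u, v) ∈ M)
      (fun u v h => by rwa [Sym2.eq_swap]) (fun u h => G.irrefl (hadj _ _ h)) (fun u => by
        obtain ⟨e, he⟩ := card_eq_one.1 (h2 u)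
        have hm : ∀ q, q ∈ M ∧ u ∈ q ↔ q = e := fun q => by
          rw [← mem_singleton, ← he, mem_filter]
        obtain ⟨h3, h4⟩ := (hm e).2 rfl
        obtain ⟨v, rfl⟩ := Sym2.mem_iff_exists.1 h4
        refine ⟨v, h3, fun y hy => ?_⟩
        exact Sym2.congr_right.1 ((hm _).1 ⟨hy, Sym2.mem_mk_left _ _⟩))
    refine ⟨σ, mem_filter.2 ⟨mem_univ _, fun v => hadj _ _ ((hσ _ _).1 rfl)⟩, ?_⟩
    ext e
    induction e using Sym2.ind with
    | _ u v => rw [mem_edgesOf, hσ]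

/-- The complete graph as a multigraph with numbered edges. -/
theorem exists_ends (n : ℕ) : ∃ (k : ℕ) (ends : Fin k → Fin n × Fin n)
    (E : PM n → Finset (Fin k)), (∀ e, (ends e).1 < (ends e).2) ∧
      (∀ {R : Type} [AddCommMonoid R] (f : Fin n → Fin n → R),
        ∑ e, f (ends e).1 (ends e).2 = ∑ u, ∑ v, if u < v then f u v else 0) ∧
      Function.Injective E ∧ (∀ M, IsPerfectMatching ends M ↔ ∃ σ, E σ = M) ∧
      ∀ σ e, e ∈ E σ ↔ σ.1 (ends e).1 = (ends e).2 := by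
  obtain ⟨k, ends, hinj, hlt, hsurj⟩ : ∃ (k : ℕ) (ends : Fin k → Fin n × Fin n),
      Function.Injective ends ∧ (∀ e, (ends e).1 < (ends e).2) ∧
        ∀ q : Fin n × Fin n, q.1 < q.2 → ∃ e, ends e = q := by
    refine ⟨(ltPairs n).card, fun e => ((ltPairs n).equivFin.symm e).1,
      Subtype.val_injective.comp (Equiv.injective _), fun e => ?_, fun q hq => ?_⟩
    · exact (mem_filter.1 ((ltPairs n).equivFin.symm e).2).2
    · exact ⟨(ltPairs n).equivFin ⟨q, by simpa [ltPairs] using hq⟩, by simp⟩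
  have hmap : ∀ σ : PM n, (univ.filter fun e => σ.1 (ends e).1 = (ends e).2).map ⟨ends, hinj⟩ =
      pairsOf σ := by
    intro σ
    ext q
    simp only [mem_map, mem_filter, mem_univ, true_and, Function.Embedding.coeFn_mk, mem_pairsOf]
    constructor
    · rintro ⟨e, he, rfl⟩
      exact ⟨hlt e, he⟩
    · rintro ⟨h1, h2⟩
      obtain ⟨e, rfl⟩ := hsurj q h1
      exact ⟨e, h2, rfl⟩
  have hcard : ∀ (M : Finset (Fin k)) (v : Fin n),
      ((M.map ⟨ends, hinj⟩).filter fun q => q.1 = v ∨ q.2 = v).card =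
        (M.filter fun e => (ends e).1 = v ∨ (ends e).2 = v).card := by
    intro M v
    rw [filter_map, card_map]
    rfl
  refine ⟨k, ends, fun σ => univ.filter fun e => σ.1 (ends e).1 = (ends e).2, hlt, ?_, ?_, ?_, ?_⟩
  · intro R _ f
    rw [← Fintype.sum_prod_type' (f := fun u v => if u < v then f u v else 0), ← sum_filter]
    refine sum_bij (fun e _ => ends e) ?_ ?_ ?_ ?_
    · intro e _
      exact mem_filter.2 ⟨mem_univ _, hlt e⟩
    · intro e _ e' _ h
      exact hinj h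
    · intro q hq
      obtain ⟨e, he⟩ := hsurj q (mem_filter.1 hq).2
      exact ⟨e, mem_univ _, he⟩
    · intro e _
      rfl
  · intro σ τ e
    apply pairsOf_inj
    rw [← hmap, ← hmap]
    exact congrArg _ e
  · intro M
    constructor
    · intro hM
      obtain ⟨σ, hσ⟩ := pairsOf_surj (M := M.map ⟨ends, hinj⟩) (fun q hq => by
        obtain ⟨e, -, rfl⟩ := mem_map.1 hq
        exact hlt e) (fun v => by rw [hcard]; exact hM v)
      refine ⟨σ, map_injective ⟨ends, hinj⟩ ?_⟩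
      rw [← hσ, ← hmap]
    · rintro ⟨σ, rfl⟩ v
      rw [← hcard, hmap]
      exact pairsOf_card σ v
  · intro σ e
    simp

end Crest.Agent.R304
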