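import Crest.Agent.R304.ChaosDefs

/-!
# Row 304: an orthogonal change of basis adapted to a product law
-/

set_option autoImplicit false
set_option linter.unusedSectionVars false

namespace Crest.Agent.R304

open Finset

variable {A : Type} [Fintype A] [DecidableEq A] {N : ℕ}

/-- A symmetric orthogonal matrix whose row `o` is `√π` (a Householder reflection). -/
theorem exists_house {π : A → ℝ} (h0 : ∀ a, 0 ≤ π a) (h1 : ∑ a, π a = 1) (o : A) :
    ∃ O : A → A → ℝ, (∀ a b, O a b = O b a) ∧
      (∀ a b, ∑ c, O a c * O c b = if a = b then 1 else 0) ∧ ∀ a, O o a = √(π a) := by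
  obtain ⟨v, hv⟩ : ∃ v : A → ℝ, ∀ a, v a = (if o = a then 1 else 0) - √(π a) := ⟨_, fun _ => rfl⟩
  have hn : ∑ c, v c * v c = 2 * v o := by
    have : ∀ c, v c * v c = (if o = c then 1 - 2 * √(π c) else 0) + π c := fun c => by
      rw [hv]
      have := Real.mul_self_sqrt (h0 c)
      split_ifs <;> linarith
    simp only [this, sum_add_distrib, sum_ite_eq, mem_univ, if_true, h1]
    rw [hv, if_pos rfl]
    ring
  refine ⟨fun a b => (if a = b then 1 else 0) - v a * v b / v o, fun a b => ?_, fun a b => ?_,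
    fun a => ?_⟩
  · simp only [eq_comm (a := a), mul_comm]
  · have : ∀ c, ((if a = c then 1 else 0) - v a * v c / v o) * ((if c = b then 1 else 0) -
        v c * v b / v o) = (if a = c then (if c = b then 1 else 0) - v c * v b / v o else 0) -
          (if c = b then v a * v c / v o else 0) + v a * v b / v o ^ 2 * (v c * v c) := fun c => by
      split_ifs <;> ring
    simp only [this, sum_add_distrib, sum_sub_distrib, sum_ite_eq, sum_ite_eq', mem_univ, if_true,
      ← mul_sum, hn]
    by_cases h : v o = 0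
    · simp [h]
    · field_simp
      ring
  · by_cases h : v o = 0
    · rw [h, mul_zero, sum_eq_zero_iff_of_nonneg fun c _ => mul_self_nonneg _] at hn
      have := mul_self_eq_zero.1 (hn a (mem_univ _))
      rw [hv] at this
      simp only [h, div_zero]
      linarith
    · simp only
      rw [mul_div_cancel_left₀ _ h, hv]
      ring

/-- The tensor power of a matrix. -/
noncomputable def tens (N : ℕ) (O : A → A → ℝ) (v : (Fin N → A) → ℝ) : (Fin N → A) → ℝ :=
  fun a => ∑ x : Fin N → A, (∏ i, O (a i) (x i)) * v x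

/-- The conjugate of a matrix on pairs. -/
noncomputable def conjQ (O : A → A → ℝ) (S : A × A → A × A → ℝ) (s t : A × A) : ℝ :=
  ∑ x : A × A, ∑ y : A × A, O s.1 x.1 * O s.2 x.2 * S x y * (O y.1 t.1 * O y.2 t.2)

/-- The symmetrised kernel. -/
noncomputable def symQ (π : A → ℝ) (J : A × A → A × A → ℝ) (s t : A × A) : ℝ :=
  √(π s.1 * π s.2) * kerQ π J s t / √(π t.1 * π t.2)

variable {O : A → A → ℝ}

theorem ChaosC_norm {B : Type} [Fintype B] [DecidableEq B] {T : B → B → ℝ}
    (h : ∀ x y, ∑ a, T a x * T a y = if x = y then 1 else 0) (v : B → ℝ) :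
    ∑ a, (∑ x, T a x * v x) ^ 2 = ∑ x, v x ^ 2 := by
  calc _ = ∑ a, ∑ x, ∑ y, v x * v y * (T a x * T a y) := by
        refine sum_congr rfl fun a _ => ?_
        rw [sq, sum_mul_sum]
        exact sum_congr rfl fun x _ => sum_congr rfl fun y _ => by ring
    _ = ∑ x, ∑ y, v x * v y * ∑ a, T a x * T a y := by
        rw [sum_comm]
        refine sum_congr rfl fun x _ => ?_
        rw [sum_comm]
        simp only [mul_sum]
    _ = _ := by simp [h, sq]

theorem ChaosC_pair (hO : ∀ a b, ∑ c, O a c * O c b = if a = b then 1 else 0) (x y : A × A) :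
    ∑ t : A × A, (O x.1 t.1 * O x.2 t.2) * (O t.1 y.1 * O t.2 y.2) = if x = y then 1 else 0 := by
  have : ∀ t : A × A, (O x.1 t.1 * O x.2 t.2) * (O t.1 y.1 * O t.2 y.2) =
      (O x.1 t.1 * O t.1 y.1) * (O x.2 t.2 * O t.2 y.2) := fun t => by ring
  simp only [this]
  rw [Fintype.sum_prod_type' (fun a b => (O x.1 a * O a y.1) * (O x.2 b * O b y.2)), ← sum_mul_sum,
    hO, hO]
  simp only [Prod.ext_iff, ite_and]
  split_ifs <;> simp

theorem ChaosC_conj (O : A → A → ℝ) (S : A × A → A × A → ℝ) (w : A × A → ℝ) (s : A × A) :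
    ∑ t, conjQ O S s t * w t =
      ∑ x : A × A, O s.1 x.1 * O s.2 x.2 *
        ∑ y : A × A, S x y * ∑ t : A × A, O y.1 t.1 * O y.2 t.2 * w t := by
  simp only [conjQ, sum_mul, mul_sum]
  rw [sum_comm]
  refine sum_congr rfl fun x _ => ?_
  rw [sum_comm]
  exact sum_congr rfl fun y _ => sum_congr rfl fun t _ => by ring

theorem ChaosC_split {i j : Fin N} (hij : i ≠ j) (f : Fin N → ℝ) :
    ∏ l, f l = f i * f j * ∏ l ∈ (univ.erase i).erase j, f l := by
  rw [mul_assoc, mul_prod_erase _ _ (mem_erase.2 ⟨hij.symm, mem_univ _⟩),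
    mul_prod_erase _ _ (mem_univ i)]

theorem ChaosC_lift2 (hO : ∀ a b, ∑ c, O a c * O c b = if a = b then 1 else 0)
    (S : A × A → A × A → ℝ) (v : (Fin N → A) → ℝ) {i j : Fin N} (hij : i ≠ j) (a : Fin N → A) :
    tens N O (lift2 S i j v) a = lift2 (conjQ O S) i j (tens N O v) a := by
  have hi : ∀ (x : Fin N → A) (b : A × A),
      Function.update (Function.update x i b.1) j b.2 i = b.1 := fun x b => by
    rw [Function.update_of_ne hij, Function.update_self]
  have hr : ∀ (x : Fin N → A) (b : A × A), ∀ l ∈ (univ.erase i).erase j,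
      Function.update (Function.update x i b.1) j b.2 l = x l := fun x b l hl => by
    rw [Function.update_of_ne (mem_erase.1 hl).1,
      Function.update_of_ne (mem_erase.1 (mem_erase.1 hl).2).1]
  set R : (Fin N → A) → ℝ := fun x => ∏ l ∈ (univ.erase i).erase j, O (a l) (x l) with hR
  have h1 : lift2 (conjQ O S) i j (tens N O v) a =
      ∑ x : Fin N → A, ∑ p : A × A, O (a i) p.1 * O (a j) p.2 * S p (x i, x j) * (R x * v x) := by
    have e1 : ∀ b : A × A, tens N O v (Function.update (Function.update a i b.1) j b.2) =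
        ∑ x : Fin N → A, O b.1 (x i) * O b.2 (x j) * (R x * v x) := fun b => by
      refine sum_congr rfl fun x _ => ?_
      rw [ChaosC_split hij, hi, Function.update_self, prod_congr rfl fun l hl => by rw [hr a b l hl]]
      ring
    have e2 : ∀ y : A × A, ∑ t : A × A, O y.1 t.1 * O y.2 t.2 *
        ∑ x : Fin N → A, O t.1 (x i) * O t.2 (x j) * (R x * v x) =
        ∑ x : Fin N → A, if y = (x i, x j) then R x * v x else 0 := fun y => by
      simp only [mul_sum]
      rw [sum_comm]
      refine sum_congr rfl fun x _ => ?_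
      simp only [← mul_assoc _ _ (R x * v x)]
      rw [← sum_mul, ChaosC_pair hO y (x i, x j), ite_mul, one_mul, zero_mul]
    rw [lift2, ChaosC_conj]
    simp only [e1, e2]
    rw [sum_comm]
    refine sum_congr rfl fun p _ => ?_
    simp only [mul_sum]
    rw [sum_comm]
    refine sum_congr rfl fun x _ => ?_
    simp [mul_assoc]
  have hinv : Function.Involutive fun z : (Fin N → A) × (A × A) =>
      (Function.update (Function.update z.1 i z.2.1) j z.2.2, (z.1 i, z.1 j)) := fun z => by
    refine Prod.ext (funext fun l => ?_) (by simp only [hi, Function.update_self])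
    simp only [Function.update_apply]
    split_ifs <;> simp_all
  rw [h1, ← Fintype.sum_prod_type', ← Equiv.sum_comp hinv.toPerm, Fintype.sum_prod_type, tens]
  refine sum_congr rfl fun x _ => ?_
  rw [lift2, mul_sum]
  refine sum_congr rfl fun b _ => ?_
  simp only [Function.Involutive.coe_toPerm, hi, Function.update_self, hR]
  rw [ChaosC_split hij, prod_congr (g := fun l => O (a l)
    (Function.update (Function.update x i b.1) j b.2 l)) rfl fun l hl => by rw [hr x b l hl]]
  ring

theorem tens_norm (hs : ∀ a b, O a b = O b a)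
    (hO : ∀ a b, ∑ c, O a c * O c b = if a = b then 1 else 0) (v : (Fin N → A) → ℝ) :
    ∑ a, tens N O v a ^ 2 = ∑ x, v x ^ 2 := by
  refine ChaosC_norm (fun x y => ?_) v
  simp only [← prod_mul_distrib]
  rw [← Fintype.piFinset_univ, ← prod_univ_sum (fun _ => univ) fun i c => O c (x i) * O c (y i)]
  simp only [fun i c => hs c (x i), hO, prod_ite_zero, prod_const_one, mem_univ, forall_const,
    funext_iff]

theorem tens_liftP (hO : ∀ a b, ∑ c, O a c * O c b = if a = b then 1 else 0)
    (S : A × A → A × A → ℝ) (v : (Fin N → A) → ℝ) :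
    tens N O (liftP N S v) = liftP N (conjQ O S) (tens N O v) := by
  funext a
  have : ∀ i j, (if i = j then tens N O v a else lift2 (conjQ O S) i j (tens N O v) a) =
      ∑ x : Fin N → A, (∏ l, O (a l) (x l)) * if i = j then v x else lift2 S i j v x := fun i j => by
    split_ifs with h
    · rfl
    · rw [← ChaosC_lift2 hO S v h]; rfl
  simp only [liftP, this]
  simp only [tens, liftP, ← mul_div_assoc, ← sum_div, mul_sum]
  congr 1
  rw [sum_comm]
  exact sum_congr rfl fun i _ => sum_comm

/-- Sums of centred one-particle functions are on the first level. -/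
theorem tens_level {π : A → ℝ} (h0 : ∀ a, 0 ≤ π a) {o : A} (hs : ∀ a b, O a b = O b a)
    (hO : ∀ a b, ∑ c, O a c * O c b = if a = b then 1 else 0) (ho : ∀ a, O o a = √(π a))
    {φ : A → ℝ} (hφ : ∑ a, π a * φ a = 0) {a : Fin N → A}
    (ha : tens N O (fun x => (∏ i, √(π (x i))) * ∑ i, φ (x i)) a ≠ 0) : lev o a = 1 := by
  have e : tens N O (fun x => (∏ i, √(π (x i))) * ∑ i, φ (x i)) a =
      ∑ i, ∏ l, ∑ c, O (a l) c * √(π c) * if l = i then φ c else 1 := by
    simp only [tens, mul_sum, prod_univ_sum, Fintype.piFinset_univ]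
    rw [sum_comm]
    refine sum_congr rfl fun i _ => sum_congr rfl fun x _ => ?_
    simp only [prod_mul_distrib, prod_ite_eq', mem_univ, if_true, mul_assoc]
  rw [e] at ha
  obtain ⟨i, -, hi⟩ := exists_ne_zero_of_sum_ne_zero ha
  rw [prod_ne_zero_iff] at hi
  rw [lev, card_eq_one]
  refine ⟨i, ext fun l => ?_⟩
  have hl := hi l (mem_univ _)
  simp only [mem_filter, mem_univ, true_and, mem_singleton]
  constructor
  · intro h
    by_contra hli
    apply hl
    simp only [if_neg hli, mul_one, ← ho, hs o, hO, if_neg h]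
  · rintro rfl h
    apply hl
    simp only [h, ho, if_true, Real.mul_self_sqrt (h0 _), hφ]

theorem ChaosC_dir {B : Type} [Fintype B] {J : B → B → ℝ} (hJ : ∀ s t, J s t = J t s) (F : B → ℝ) :
    -∑ s, F s * ∑ t, J s t * (F t - F s) = (∑ s, ∑ t, J s t * (F t - F s) ^ 2) / 2 := by
  have h1 : ∑ s, ∑ t, F t * (J s t * (F s - F t)) = ∑ s, ∑ t, F s * (J s t * (F t - F s)) := by
    rw [sum_comm]
    simp only [fun s t => hJ t s]
  have h2 : ∑ s, ∑ t, J s t * (F t - F s) ^ 2 = -(∑ s, ∑ t, F t * (J s t * (F s - F t))) -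
      ∑ s, ∑ t, F s * (J s t * (F t - F s)) := by
    simp only [← sum_neg_distrib, ← sum_sub_distrib]
    exact sum_congr rfl fun s _ => sum_congr rfl fun t _ => by ring
  simp only [mul_sum]
  linarith

theorem ChaosC_symQ {π : A → ℝ} {J : A × A → A × A → ℝ} (hp : ∀ a, 0 < π a) (s t : A × A) :
    symQ π J s t = J s t / (√(π s.1 * π s.2) * √(π t.1 * π t.2)) +
      if s = t then 1 - (∑ t', J s t') / (π s.1 * π s.2) else 0 := by
  have h1 := Real.sqrt_pos.2 (mul_pos (hp s.1) (hp s.2))
  have h2 := Real.sqrt_pos.2 (mul_pos (hp t.1) (hp t.2))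
  have h3 := Real.mul_self_sqrt (mul_pos (hp s.1) (hp s.2)).le
  rw [symQ, kerQ, ← sum_div]
  split_ifs with h
  · subst h
    rw [h3, mul_div_cancel_left₀ _ h1.ne']
  · generalize π s.1 * π s.2 = p at *
    generalize √p = r at *
    subst h3
    field_simp
    ring

theorem ChaosC_symQ_apply {π : A → ℝ} {J : A × A → A × A → ℝ} (hp : ∀ a, 0 < π a)
    (F : A × A → ℝ) (s : A × A) :
    ∑ t, symQ π J s t * (√(π t.1 * π t.2) * F t) =
      √(π s.1 * π s.2) * F s + (∑ t, J s t * (F t - F s)) / √(π s.1 * π s.2) := by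
  have h1 := Real.sqrt_pos.2 (mul_pos (hp s.1) (hp s.2))
  have h3 := Real.mul_self_sqrt (mul_pos (hp s.1) (hp s.2)).le
  have e : ∀ t : A × A, J s t / (√(π s.1 * π s.2) * √(π t.1 * π t.2)) * (√(π t.1 * π t.2) * F t) =
      J s t * F t / √(π s.1 * π s.2) := fun t => by
    have h2 := Real.sqrt_pos.2 (mul_pos (hp t.1) (hp t.2))
    field_simp
  simp only [ChaosC_symQ hp, add_mul, sum_add_distrib, ite_mul, zero_mul, sum_ite_eq, mem_univ,
    if_true, e, mul_sub, sum_sub_distrib, ← sum_div, ← sum_mul]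
  generalize π s.1 * π s.2 = p at *
  generalize √p = r at *
  subst h3
  field_simp
  ring

theorem JHyp.qhyp {π : A → ℝ} {J : A × A → A × A → ℝ} {K : ℝ} (h : JHyp π J K) {o : A}
    (hs : ∀ a b, O a b = O b a) (hO : ∀ a b, ∑ c, O a c * O c b = if a = b then 1 else 0)
    (ho : ∀ a, O o a = √(π a)) : QHyp o (conjQ O (symQ π J)) K := by
  have hp := h.pos
  have hr : ∀ s : A × A, 0 < √(π s.1 * π s.2) := fun s => Real.sqrt_pos.2 (mul_pos (hp _) (hp _))
  have hr2 : ∀ s : A × A, √(π s.1 * π s.2) * √(π s.1 * π s.2) = π s.1 * π s.2 := fun s =>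
    Real.mul_self_sqrt (mul_pos (hp _) (hp _)).le
  have hS : ∀ s t, symQ π J s t = symQ π J t s := fun s t => by
    rw [ChaosC_symQ hp, ChaosC_symQ hp, h.symm s t, mul_comm]
    congr 1
    by_cases hst : s = t
    · rw [hst]
    · rw [if_neg hst, if_neg (Ne.symm hst)]
  have hU : ∀ x y : A × A, ∑ t : A × A, (O t.1 x.1 * O t.2 x.2) * (O t.1 y.1 * O t.2 y.2) =
      if x = y then 1 else 0 := fun x y => by
    simp only [fun t : A × A => hs t.1 x.1, fun t : A × A => hs t.2 x.2, ChaosC_pair hO]
  have key : ∀ w : A × A → ℝ, ∀ F : A × A → ℝ,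
      (∀ y, ∑ t : A × A, O y.1 t.1 * O y.2 t.2 * w t = √(π y.1 * π y.2) * F y) →
      ∑ s, w s ^ 2 - ∑ s, w s * ∑ t, conjQ O (symQ π J) s t * w t =
        (∑ s, ∑ t, J s t * (F t - F s) ^ 2) / 2 ∧
      ∑ s, (∑ t, conjQ O (symQ π J) s t * w t) ^ 2 ≤
        ∑ s, w s * ∑ t, conjQ O (symQ π J) s t * w t := by
    intro w F hF
    set G : A × A → ℝ := fun s => ∑ t, J s t * (F t - F s) with hG
    have a1 : ∑ s, w s ^ 2 = ∑ s, (√(π s.1 * π s.2) * F s) ^ 2 := by
      rw [← ChaosC_norm hU w]
      simp only [hF]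
    have a2 : ∑ s, (∑ t, conjQ O (symQ π J) s t * w t) ^ 2 =
        ∑ s, (√(π s.1 * π s.2) * F s + G s / √(π s.1 * π s.2)) ^ 2 := by
      simp only [ChaosC_conj, hF, ChaosC_symQ_apply hp]
      exact ChaosC_norm hU _
    have a3 : ∑ s, w s * ∑ t, conjQ O (symQ π J) s t * w t =
        ∑ s, √(π s.1 * π s.2) * F s * (√(π s.1 * π s.2) * F s + G s / √(π s.1 * π s.2)) := by
      simp only [ChaosC_conj, hF, ChaosC_symQ_apply hp]
      rw [sum_congr rfl fun s _ => mul_sum _ _ (w s), sum_comm]
      refine sum_congr rfl fun x _ => ?_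
      rw [← hF x, sum_mul]
      refine sum_congr rfl fun s _ => ?_
      rw [hs s.1, hs s.2, hF x]
      ring
    have a4 := ChaosC_dir h.symm F
    have a5 : ∑ s, G s ^ 2 / (π s.1 * π s.2) ≤ (∑ s, ∑ t, J s t * (F t - F s) ^ 2) / 2 := by
      rw [sum_div]
      refine sum_le_sum fun s _ => ?_
      have b1 : G s ^ 2 ≤ (∑ t, J s t) * ∑ t, J s t * (F t - F s) ^ 2 :=
        sum_sq_le_sum_mul_sum_of_sq_le_mul _ (fun t _ => h.nonneg s t)
          (fun t _ => mul_nonneg (h.nonneg s t) (sq_nonneg _)) fun t _ => le_of_eq (by ring)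
      have b2 : 0 ≤ ∑ t, J s t * (F t - F s) ^ 2 :=
        sum_nonneg fun t _ => mul_nonneg (h.nonneg s t) (sq_nonneg _)
      have b3 := mul_le_mul_of_nonneg_right (h.lazy s) b2
      rw [div_le_iff₀ (mul_pos (hp _) (hp _))]
      linarith
    have a6 : ∑ s, √(π s.1 * π s.2) * F s * (√(π s.1 * π s.2) * F s + G s / √(π s.1 * π s.2)) =
        ∑ s, (√(π s.1 * π s.2) * F s) ^ 2 + ∑ s, F s * G s := by
      rw [← sum_add_distrib]
      refine sum_congr rfl fun s _ => ?_
      have := hr s
      field_simp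
    have a7 : ∑ s, (√(π s.1 * π s.2) * F s + G s / √(π s.1 * π s.2)) ^ 2 =
        ∑ s, (√(π s.1 * π s.2) * F s) ^ 2 + 2 * ∑ s, F s * G s +
          ∑ s, G s ^ 2 / (π s.1 * π s.2) := by
      rw [mul_sum, ← sum_add_distrib, ← sum_add_distrib]
      refine sum_congr rfl fun s _ => ?_
      have := hr s
      have h2 := hr2 s
      generalize π s.1 * π s.2 = p at *
      generalize √p = r at *
      subst h2
      field_simp
      ring
    rw [a1, a2, a3, a6, a7]
    constructor <;> linarith
  refine ⟨fun s t => ?_, fun t => ?_, fun w => (key w (fun y =>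
    (∑ t : A × A, O y.1 t.1 * O y.2 t.2 * w t) / √(π y.1 * π y.2)) fun y =>
      (mul_div_cancel₀ _ (hr y).ne').symm).2, fun w hw => ?_⟩
  · rw [conjQ, conjQ, sum_comm]
    refine sum_congr rfl fun x _ => sum_congr rfl fun y _ => ?_
    rw [hS y x, hs s.1, hs s.2, hs t.1, hs t.2]
    ring
  · rw [if_congr eq_comm rfl rfl, ← ChaosC_pair hO (o, o) t, conjQ, sum_comm]
    refine sum_congr rfl fun y _ => ?_
    rw [← sum_mul]
    congr 1
    have := ChaosC_symQ_apply (J := J) hp (fun _ => 1) y
    simp only [mul_one, sub_self, mul_zero, sum_const_zero, zero_div, add_zero] at this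
    simp only [ho, ← Real.sqrt_mul (hp _).le, ← this]
    exact sum_congr rfl fun x _ => by rw [hS x y, mul_comm]
  · have hq : ∀ a, 0 < √(π a) := fun a => Real.sqrt_pos.2 (hp a)
    have hq2 : ∀ a, √(π a) * √(π a) = π a := fun a => Real.mul_self_sqrt (hp a).le
    have hoo : w (o, o) = 0 := by
      by_contra hc
      simpa using hw _ hc
    have hw' : ∀ b c, w (b, c) = (if c = o then w (b, o) else 0) + if b = o then w (o, c) else 0 := by
      intro b c
      by_cases hb : b = o <;> by_cases hc : c = o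
      · simp [hb, hc, hoo]
      · simp [hb, hc]
      · simp [hb, hc]
      · simp only [if_neg hb, if_neg hc, add_zero]
        by_contra hne
        exact hb ((hw _ hne).2 hc)
    have hO' : ∀ x y, ∑ a, O a x * O a y = if x = y then 1 else 0 := fun x y => by
      simp only [fun a => hs a x, hO]
    have c1 : ∀ α : A → ℝ, α o = 0 → ∑ a, π a * ((∑ b, O a b * α b) / √(π a)) = 0 := fun α hα => by
      have : ∀ a, π a * ((∑ b, O a b * α b) / √(π a)) = ∑ b, O o a * O a b * α b := fun a => by
        have := hq a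
        simp only [mul_assoc, ← mul_sum, ho]
        rw [← mul_div_assoc, div_eq_iff this.ne', mul_right_comm, hq2]
      simp only [this]
      rw [sum_comm]
      simp [← sum_mul, hO, hα]
    have c2 : ∀ α : A → ℝ, ∑ a, π a * ((∑ b, O a b * α b) / √(π a)) ^ 2 = ∑ b, α b ^ 2 := fun α => by
      rw [← ChaosC_norm hO' α]
      refine sum_congr rfl fun a _ => ?_
      rw [div_pow, Real.sq_sqrt (hp a).le, mul_div_cancel₀ _ (hp a).ne']
    have c3 := h.gap _ _ (c1 (fun b => w (b, o)) hoo) (c1 (fun b => w (o, b)) hoo)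
    have c4 := (key w (fun y => (∑ b, O y.1 b * w (b, o)) / √(π y.1) +
      (∑ b, O y.2 b * w (o, b)) / √(π y.2)) fun y => by
        rw [Fintype.sum_prod_type]
        rw [sum_congr rfl fun b _ => sum_congr rfl fun c _ => by rw [hw' b c]]
        simp only [mul_add, mul_ite, mul_zero, sum_add_distrib, sum_ite_eq', mem_univ, if_true]
        rw [sum_comm (f := fun b c => if b = o then O y.1 b * O y.2 c * w (o, c) else 0)]
        simp only [sum_ite_eq', mem_univ, if_true, hs _ o, ho, Real.sqrt_mul (hp _).le]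
        have := hq y.1
        have := hq y.2
        simp only [mul_assoc (√(π y.1)), mul_right_comm _ (√(π y.2)), ← mul_sum, ← sum_mul]
        field_simp).1
    have c5 : ∑ s, w s ^ 2 = ∑ b, w (b, o) ^ 2 + ∑ b, w (o, b) ^ 2 := by
      have : ∀ b c, w (b, c) ^ 2 =
          (if c = o then w (b, o) ^ 2 else 0) + if b = o then w (o, c) ^ 2 else 0 := fun b c => by
        rw [hw' b c]
        by_cases hb : b = o <;> by_cases hc : c = o <;> simp [hb, hc, hoo]
      rw [Fintype.sum_prod_type, sum_congr rfl fun b _ => sum_congr rfl fun c _ => this b c]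
      simp only [sum_add_distrib, sum_ite_eq', mem_univ, if_true]
      rw [sum_comm (f := fun b c => if b = o then w (o, c) ^ 2 else 0)]
      simp only [sum_ite_eq', mem_univ, if_true]
    rw [c4, c5]
    rw [c2, c2] at c3
    refine c3.trans (le_of_eq ?_)
    simp only [sub_sub]

end Crest.Agent.R304
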