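import Crest.Agent.R304.ChaosB
import Crest.Agent.R304.ChaosC

/-!
# Row 304: relaxation of the population from a nearby product law
-/

set_option autoImplicit false
set_option linter.unusedSectionVars false

namespace Crest.Agent.R304

open Finset

variable {A : Type} [Fintype A] [DecidableEq A] {N : ℕ} {π : A → ℝ} {J : A × A → A × A → ℝ} {K : ℝ}

theorem JHyp.kerQ_nonneg (h : JHyp π J K) (s t : A × A) : 0 ≤ kerQ π J s t := by
  have hp : 0 < π s.1 * π s.2 := mul_pos (h.pos _) (h.pos _)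
  unfold kerQ
  refine add_nonneg (div_nonneg (h.nonneg _ _) hp.le) ?_
  split_ifs
  · rw [← sum_div, sub_nonneg, div_le_one hp]
    have h1 := h.lazy s
    have h2 : 0 ≤ ∑ t, J s t := sum_nonneg fun t _ => h.nonneg _ _
    linarith
  · exact le_rfl

theorem kerQ_sum (π : A → ℝ) (J : A × A → A × A → ℝ) (s : A × A) : ∑ t, kerQ π J s t = 1 := by
  unfold kerQ
  rw [sum_add_distrib, sum_ite_eq]
  simp

theorem JHyp.lift2_mem (h : JHyp π J K) {F : (Fin N → A) → ℝ} {a b : ℝ}
    (hF : ∀ x, a ≤ F x ∧ F x ≤ b) (i j : Fin N) (x : Fin N → A) :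
    a ≤ lift2 (kerQ π J) i j F x ∧ lift2 (kerQ π J) i j F x ≤ b := by
  unfold lift2
  constructor
  · calc a = ∑ t, kerQ π J (x i, x j) t * a := by rw [← sum_mul, kerQ_sum, one_mul]
      _ ≤ _ := sum_le_sum fun t _ => mul_le_mul_of_nonneg_left (hF _).1 (h.kerQ_nonneg _ _)
  · calc _ ≤ ∑ t, kerQ π J (x i, x j) t * b :=
        sum_le_sum fun t _ => mul_le_mul_of_nonneg_left (hF _).2 (h.kerQ_nonneg _ _)
      _ = b := by rw [← sum_mul, kerQ_sum, one_mul]

theorem JHyp.liftP_mem (h : JHyp π J K) (hN : 0 < N) {F : (Fin N → A) → ℝ} {a b : ℝ}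
    (hF : ∀ x, a ≤ F x ∧ F x ≤ b) (x : Fin N → A) :
    a ≤ liftP N (kerQ π J) F x ∧ liftP N (kerQ π J) F x ≤ b := by
  have hN' : (0 : ℝ) < (N : ℝ) ^ 2 := by positivity
  have h1 : ∀ i j : Fin N, a ≤ (if i = j then F x else lift2 (kerQ π J) i j F x) ∧
      (if i = j then F x else lift2 (kerQ π J) i j F x) ≤ b := fun i j => by
    split_ifs
    · exact hF x
    · exact h.lift2_mem hF i j x
  have e : ∀ c : ℝ, ∑ _i : Fin N, ∑ _j : Fin N, c = c * (N : ℝ) ^ 2 := fun c => by
    simp only [sum_const, card_univ, Fintype.card_fin, nsmul_eq_mul]; ring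
  unfold liftP
  rw [le_div_iff₀ hN', div_le_iff₀ hN', ← e, ← e]
  exact ⟨sum_le_sum fun i _ => sum_le_sum fun j _ => (h1 i j).1,
    sum_le_sum fun i _ => sum_le_sum fun j _ => (h1 i j).2⟩

theorem liftP_sub_eq (q : A × A → A × A → ℝ) (F G : (Fin N → A) → ℝ) (x : Fin N → A) :
    liftP N q F x - liftP N q G x = liftP N q (fun y => F y - G y) x := by
  unfold liftP
  rw [← sub_div, ← sum_sub_distrib]
  congr 1
  refine sum_congr rfl fun i _ => ?_
  rw [← sum_sub_distrib]
  refine sum_congr rfl fun j _ => ?_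
  split_ifs
  · rfl
  · unfold lift2
    rw [← sum_sub_distrib]
    exact sum_congr rfl fun b _ => by ring

theorem JHyp.liftP_sub (h : JHyp π J K) (hN : 0 < N) {F G : (Fin N → A) → ℝ} {a : ℝ}
    (hF : ∀ x, |F x - G x| ≤ a) (x : Fin N → A) :
    |liftP N (kerQ π J) F x - liftP N (kerQ π J) G x| ≤ a := by
  rw [liftP_sub_eq, abs_le]
  exact h.liftP_mem hN (fun y => abs_le.1 (hF y)) x

theorem lift2_adj {S : A × A → A × A → ℝ} (hS : ∀ s t, S s t = S t s) {i j : Fin N} (hij : i ≠ j)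
    (u v : (Fin N → A) → ℝ) :
    ∑ a, u a * lift2 S i j v a = ∑ a, lift2 S i j u a * v a := by
  unfold lift2
  simp only [mul_sum, sum_mul]
  rw [← Fintype.sum_prod_type', ← Fintype.sum_prod_type']
  let T : (Fin N → A) × (A × A) → (Fin N → A) × (A × A) := fun p =>
    (Function.update (Function.update p.1 i p.2.1) j p.2.2, (p.1 i, p.1 j))
  have hT1 : ∀ p : (Fin N → A) × (A × A), ((T p).1 i, (T p).1 j) = p.2 := fun p => by
    simp [T, Function.update_of_ne hij]
  have hT2 : ∀ p : (Fin N → A) × (A × A),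
      Function.update (Function.update (T p).1 i (T p).2.1) j (T p).2.2 = p.1 := fun p => by
    funext k
    by_cases hj : k = j
    · subst hj; simp [T]
    by_cases hi : k = i
    · subst hi; simp [T, Function.update_of_ne hij]
    · simp [T, Function.update_of_ne hj, Function.update_of_ne hi]
  have hT : Function.Involutive T := fun p => Prod.ext (hT2 p) (hT1 p)
  rw [← Equiv.sum_comp hT.toPerm]
  refine sum_congr rfl fun p _ => ?_
  simp only [Function.Involutive.coe_toPerm]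
  rw [hT1, hT2, hS p.2]
  simp only [T]
  ring

theorem liftP_adj {S : A × A → A × A → ℝ} (hS : ∀ s t, S s t = S t s) (u v : (Fin N → A) → ℝ) :
    ∑ a, u a * liftP N S v a = ∑ a, liftP N S u a * v a := by
  unfold liftP
  simp only [mul_div_assoc', div_mul_eq_mul_div, ← sum_div]
  congr 1
  simp only [mul_sum, sum_mul]
  rw [sum_comm, sum_comm (s := univ) (t := (univ : Finset (Fin N)))]
  refine sum_congr rfl fun i _ => ?_
  rw [sum_comm, sum_comm (s := univ) (t := (univ : Finset (Fin N)))]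
  refine sum_congr rfl fun j _ => ?_
  split_ifs with hij
  · rfl
  · exact lift2_adj hS hij u v

theorem liftP_iter_adj {S : A × A → A × A → ℝ} (hS : ∀ s t, S s t = S t s) (T : ℕ)
    (u v : (Fin N → A) → ℝ) :
    ∑ a, u a * (liftP N S)^[T] v a = ∑ a, (liftP N S)^[T] u a * v a := by
  induction T generalizing u with
  | zero => rfl
  | succ T ih => rw [Function.iterate_succ_apply', liftP_adj hS, ih, Function.iterate_succ_apply]

omit [Fintype A] [DecidableEq A] in
theorem prod_update_mul (g : A → ℝ) (x : Fin N → A) (i : Fin N) (b : A) :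
    (∏ k, g (Function.update x i b k)) * g (x i) = (∏ k, g (x k)) * g b := by
  rw [← mul_prod_erase univ _ (mem_univ i), ← mul_prod_erase univ (fun k => g (x k)) (mem_univ i),
    Function.update_self,
    prod_congr rfl fun k hk => by rw [Function.update_of_ne (ne_of_mem_erase hk)]]
  ring

theorem JHyp.symQ_symm (h : JHyp π J K) (s t : A × A) : symQ π J s t = symQ π J t s := by
  by_cases hst : s = t
  · rw [hst]
  have hs : 0 < π s.1 * π s.2 := mul_pos (h.pos _) (h.pos _)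
  have ht : 0 < π t.1 * π t.2 := mul_pos (h.pos _) (h.pos _)
  unfold symQ kerQ
  rw [if_neg hst, if_neg (Ne.symm hst), add_zero, add_zero, h.symm t s]
  have hs' := Real.sqrt_pos.2 hs
  have ht' := Real.sqrt_pos.2 ht
  have e1 := Real.mul_self_sqrt hs.le
  have e2 := Real.mul_self_sqrt ht.le
  set a := √(π s.1 * π s.2)
  set b := √(π t.1 * π t.2)
  rw [← e1, ← e2]
  field_simp

theorem JHyp.liftP_symQ (h : JHyp π J K) (F : (Fin N → A) → ℝ) :
    liftP N (symQ π J) (fun x => (∏ i, √(π (x i))) * F x) =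
      fun x => (∏ i, √(π (x i))) * liftP N (kerQ π J) F x := by
  funext x
  unfold liftP
  rw [mul_div_assoc', mul_sum]
  congr 1
  refine sum_congr rfl fun i _ => ?_
  rw [mul_sum]
  refine sum_congr rfl fun j _ => ?_
  split_ifs with hij
  · rfl
  unfold lift2
  rw [mul_sum]
  refine sum_congr rfl fun b _ => ?_
  have e1 := prod_update_mul (fun a => √(π a)) x i b.1
  have e2 := prod_update_mul (fun a => √(π a)) (Function.update x i b.1) j b.2
  simp only [Function.update_of_ne (Ne.symm hij)] at e2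
  have h1 : ∀ a, 0 < √(π a) := fun a => Real.sqrt_pos.2 (h.pos a)
  unfold symQ
  simp only
  rw [Real.sqrt_mul (h.pos _).le, Real.sqrt_mul (h.pos _).le]
  have h2 := (h1 b.1).ne'
  have h3 := (h1 b.2).ne'
  have e3 : √(π (x i)) * √(π (x j)) *
      ∏ k, √(π (Function.update (Function.update x i b.1) j b.2 k)) =
      (∏ k, √(π (x k))) * (√(π b.1) * √(π b.2)) := by
    calc _ = √(π (x i)) * ((∏ k, √(π (Function.update (Function.update x i b.1) j b.2 k))) *
          √(π (x j))) := by ring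
      _ = ((∏ k, √(π (Function.update x i b.1 k))) * √(π (x i))) * √(π b.2) := by rw [e2]; ring
      _ = _ := by rw [e1]; ring
  calc _ = (√(π (x i)) * √(π (x j)) *
        ∏ k, √(π (Function.update (Function.update x i b.1) j b.2 k))) / (√(π b.1) * √(π b.2)) *
        (kerQ π J (x i, x j) b * F (Function.update (Function.update x i b.1) j b.2)) := by ring
    _ = _ := by rw [e3, mul_div_cancel_right₀ _ (mul_ne_zero h2 h3)]

theorem JHyp.iter_symQ (h : JHyp π J K) (F : (Fin N → A) → ℝ) (T : ℕ) :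
    (liftP N (symQ π J))^[T] (fun x => (∏ i, √(π (x i))) * F x) =
      fun x => (∏ i, √(π (x i))) * (liftP N (kerQ π J))^[T] F x := by
  induction T with
  | zero => rfl
  | succ T ih => rw [Function.iterate_succ_apply', Function.iterate_succ_apply', ih, h.liftP_symQ]

theorem JHyp.iter_mem (h : JHyp π J K) (hN : 0 < N) {F : (Fin N → A) → ℝ} {a b : ℝ}
    (hF : ∀ x, a ≤ F x ∧ F x ≤ b) (T : ℕ) (x : Fin N → A) :
    a ≤ (liftP N (kerQ π J))^[T] F x ∧ (liftP N (kerQ π J))^[T] F x ≤ b := by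
  induction T generalizing x with
  | zero => exact hF x
  | succ T ih => rw [Function.iterate_succ_apply']; exact h.liftP_mem hN ih x

omit [Fintype A] [DecidableEq A] in
theorem prod_sqrt_mul (h0 : ∀ a, 0 ≤ π a) (x : Fin N → A) :
    (∏ i, √(π (x i))) * ∏ i, √(π (x i)) = ∏ i, π (x i) := by
  rw [← prod_mul_distrib]
  exact prod_congr rfl fun i _ => Real.mul_self_sqrt (h0 _)

/-- Reversibility of the iterated kernel. -/
theorem JHyp.iter_rev (h : JHyp π J K) (G F : (Fin N → A) → ℝ) (T : ℕ) :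
    prodE N π (fun x => G x * (liftP N (kerQ π J))^[T] F x) =
      ∑ x, (liftP N (symQ π J))^[T] (fun x => (∏ i, √(π (x i))) * G x) x *
        ((∏ i, √(π (x i))) * F x) := by
  rw [← liftP_iter_adj h.symQ_symm, h.iter_symQ]
  unfold prodE
  refine sum_congr rfl fun x _ => ?_
  rw [← prod_sqrt_mul (fun a => (h.pos a).le)]
  ring

theorem JHyp.iter_stat (h : JHyp π J K) (hN : 0 < N) (F : (Fin N → A) → ℝ) (T : ℕ) :
    prodE N π ((liftP N (kerQ π J))^[T] F) = prodE N π F := by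
  have h1 := h.iter_rev (fun _ => 1) F T
  rw [h.iter_symQ] at h1
  simp only [one_mul] at h1
  refine h1.trans (sum_congr rfl fun x _ => ?_)
  have h2 := h.iter_mem hN (F := fun _ => 1) (a := 1) (b := 1) (fun _ => ⟨le_rfl, le_rfl⟩) T x
  rw [le_antisymm h2.2 h2.1, ← prod_sqrt_mul (fun a => (h.pos a).le)]
  ring

omit [DecidableEq A] in
theorem prodE_prod (π : A → ℝ) (g : Fin N → A → ℝ) :
    prodE N π (fun x => ∏ i, g i (x i)) = ∏ i, ∑ a, π a * g i a := by
  classical
  rw [Finset.prod_univ_sum, Fintype.piFinset_univ]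
  unfold prodE
  exact sum_congr rfl fun x _ => by rw [prod_mul_distrib]

omit [DecidableEq A] in
theorem prodE_const (h1 : ∑ a, π a = 1) (c : ℝ) : prodE N π (fun _ => c) = c := by
  have h := prodE_prod (N := N) π fun _ _ => 1
  simp only [prod_const_one, mul_one, h1] at h
  unfold prodE at h ⊢
  simp only [mul_one] at h
  rw [← sum_mul, h, one_mul]

omit [DecidableEq A] in
theorem prodE_mono (h0 : ∀ a, 0 ≤ π a) {F G : (Fin N → A) → ℝ} (h : ∀ x, F x ≤ G x) :
    prodE N π F ≤ prodE N π G :=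
  sum_le_sum fun x _ => mul_le_mul_of_nonneg_left (h x) (prod_nonneg fun _ _ => h0 _)

omit [DecidableEq A] in
theorem prodE_sq (h1 : ∑ a, π a = 1) {g : A → ℝ} (hg : ∑ a, π a * g a = 0) :
    prodE N π (fun x => (∑ i, g (x i)) ^ 2) = N * ∑ a, π a * g a ^ 2 := by
  have h2 : ∀ i j : Fin N, prodE N π (fun x => g (x i) * g (x j)) =
      if i = j then ∑ a, π a * g a ^ 2 else 0 := by
    intro i j
    have e := prodE_prod π fun (k : Fin N) a =>
      (if k = i then g a else 1) * (if k = j then g a else 1)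
    simp only [prod_mul_distrib, prod_ite_eq', mem_univ, if_true] at e
    rw [e]
    split_ifs with hij
    · subst hij
      have e2 : ∀ k : Fin N, ∑ a, π a * ((if k = i then g a else 1) * (if k = i then g a else 1)) =
          if k = i then ∑ a, π a * g a ^ 2 else 1 := fun k => by
        split_ifs
        · simp only [sq]
        · simp [h1]
      simp only [e2, prod_ite_eq', mem_univ, if_true]
    · refine prod_eq_zero (mem_univ i) ?_
      simp [hij, hg]
  have h3 : prodE N π (fun x => (∑ i, g (x i)) ^ 2) =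
      ∑ i : Fin N, ∑ j : Fin N, prodE N π (fun x => g (x i) * g (x j)) := by
    unfold prodE
    simp only [sq, sum_mul_sum]
    simp only [mul_sum]
    rw [sum_comm]
    exact sum_congr rfl fun i _ => sum_comm
  simp [h3, h2]

theorem prod_one_add_rem {ι : Type} (s : Finset ι) {φ : ι → ℝ} {δ : ℝ} (hφ : ∀ i, |φ i| ≤ δ) :
    |∏ i ∈ s, (1 + φ i) - 1 - ∑ i ∈ s, φ i| ≤ (1 + δ) ^ s.card - 1 - s.card * δ := by
  classical
  induction s using Finset.induction_on with
  | empty => simp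
  | insert a s ha ih =>
    rw [prod_insert ha, sum_insert ha, card_insert_of_notMem ha]
    have h1 : |∑ i ∈ s, φ i| ≤ s.card * δ :=
      (abs_sum_le_sum_abs _ _).trans ((sum_le_card_nsmul _ _ δ fun i _ => hφ i).trans
        (by rw [nsmul_eq_mul]))
    have h2 : |∏ i ∈ s, (1 + φ i) - 1| ≤ (1 + δ) ^ s.card - 1 := by
      have := abs_add_le (∏ i ∈ s, (1 + φ i) - 1 - ∑ i ∈ s, φ i) (∑ i ∈ s, φ i)
      rw [sub_add_cancel] at this
      linarith
    have e : (1 + φ a) * ∏ i ∈ s, (1 + φ i) - 1 - (φ a + ∑ i ∈ s, φ i) =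
        (∏ i ∈ s, (1 + φ i) - 1 - ∑ i ∈ s, φ i) + φ a * (∏ i ∈ s, (1 + φ i) - 1) := by ring
    have h3 : |φ a * (∏ i ∈ s, (1 + φ i) - 1)| ≤ δ * ((1 + δ) ^ s.card - 1) := by
      rw [abs_mul]
      exact mul_le_mul (hφ a) h2 (abs_nonneg _) ((abs_nonneg _).trans (hφ a))
    rw [e]
    refine (abs_add_le _ _).trans ?_
    push_cast
    rw [pow_succ]
    linarith

theorem one_add_pow_rem {δ : ℝ} (hδ : 0 ≤ δ) (hN : N * δ ≤ 1) :
    (1 + δ) ^ N - 1 - N * δ ≤ (N * δ) ^ 2 := by
  have h1 : (1 + δ) ^ N ≤ Real.exp (N * δ) := by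
    rw [Real.exp_nat_mul]
    exact pow_le_pow_left₀ (by positivity) (by linarith [Real.add_one_le_exp δ]) _
  have h2 := Real.abs_exp_sub_one_sub_id_le (x := N * δ)
    (by rw [abs_of_nonneg (by positivity)]; exact hN)
  linarith [le_abs_self (Real.exp (N * δ) - 1 - N * δ)]

theorem JHyp.pop_mix (h : JHyp π J K) (hK : 1 ≤ K) (hN : 4 * K ≤ N) {π' : A → ℝ} {δ : ℝ}
    (h1 : ∑ a, π' a = 1) (hδ : ∀ a, |π' a - π a| ≤ δ * π a) (hδN : N * δ ≤ 1)
    {F : (Fin N → A) → ℝ} (hF : ∀ x, 0 ≤ F x ∧ F x ≤ 1) (T : ℕ) :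
    |prodE N π' ((liftP N (kerQ π J))^[T] F) - prodE N π F| ≤
      ((1 - 1 / (4 * K * N)) ^ T + 24 * (T : ℝ) ^ 2 / (N : ℝ) ^ 3) * (√N * δ) + (N * δ) ^ 2 := by
  have hN' : (0 : ℝ) < N := by linarith
  have hN0 : 0 < N := by exact_mod_cast hN'
  have h0 : ∀ a, 0 ≤ π a := fun a => (h.pos a).le
  obtain ⟨o⟩ : Nonempty A := by
    by_contra hA
    rw [not_nonempty_iff] at hA
    simp at h1
  have hδ0 : 0 ≤ δ := nonneg_of_mul_nonneg_left ((abs_nonneg _).trans (hδ o)) (h.pos o)
  obtain ⟨O, hs, hO, ho⟩ := exists_house h0 h.sum o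
  set φ : A → ℝ := fun a => π' a / π a - 1 with hφ
  have hφ1 : ∀ a, π' a = π a * (1 + φ a) := fun a => by
    have := (h.pos a).ne'
    simp only [hφ]; field_simp; ring
  have hφ2 : ∀ a, |φ a| ≤ δ := fun a => by
    have h2 := hδ a
    rw [hφ1 a, show π a * (1 + φ a) - π a = φ a * π a by ring, abs_mul, abs_of_pos (h.pos a)] at h2
    exact le_of_mul_le_mul_right h2 (h.pos a)
  have hφ3 : ∑ a, π a * φ a = 0 := by
    have : ∑ a, π a * φ a = ∑ a, π' a - ∑ a, π a := by
      rw [← sum_sub_distrib]; exact sum_congr rfl fun a _ => by rw [hφ1]; ring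
    rw [this, h1, h.sum, sub_self]
  set G := (liftP N (kerQ π J))^[T] F with hG
  have hG1 : ∀ x, 0 ≤ G x ∧ G x ≤ 1 := h.iter_mem hN0 hF T
  have e1 : prodE N π' G - prodE N π F = prodE N π (fun x => (∑ i, φ (x i)) * G x) +
      prodE N π (fun x => (∏ i, (1 + φ (x i)) - 1 - ∑ i, φ (x i)) * G x) := by
    rw [← h.iter_stat hN0 F T]
    unfold prodE
    rw [← sum_sub_distrib, ← sum_add_distrib]
    refine sum_congr rfl fun x _ => ?_
    simp only [hφ1, prod_mul_distrib]
    ring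
  have h2 : |prodE N π (fun x => (∏ i, (1 + φ (x i)) - 1 - ∑ i, φ (x i)) * G x)| ≤
      (N * δ) ^ 2 := by
    have h3 : ∀ x : Fin N → A, |(∏ i, (1 + φ (x i)) - 1 - ∑ i, φ (x i)) * G x| ≤ (N * δ) ^ 2 := by
      intro x
      have h4 := prod_one_add_rem univ (φ := fun i => φ (x i)) (fun i => hφ2 _)
      rw [card_univ, Fintype.card_fin] at h4
      rw [abs_mul, abs_of_nonneg (hG1 x).1]
      exact (mul_le_of_le_one_right (abs_nonneg _) (hG1 x).2).trans
        (h4.trans (one_add_pow_rem hδ0 hδN))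
    rw [abs_le]
    constructor
    · rw [← prodE_const (N := N) h.sum (-(N * δ) ^ 2)]
      exact prodE_mono h0 fun x => (abs_le.1 (h3 x)).1
    · rw [← prodE_const (N := N) h.sum ((N * δ) ^ 2)]
      exact prodE_mono h0 fun x => (abs_le.1 (h3 x)).2
  set u : (Fin N → A) → ℝ := fun x => (∏ i, √(π (x i))) * ∑ i, φ (x i) with hu
  have h3 : ∀ T : ℕ, tens N O ((liftP N (symQ π J))^[T] u) =
      (liftP N (conjQ O (symQ π J)))^[T] (tens N O u) := fun T => by
    induction T with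
    | zero => rfl
    | succ T ih =>
      rw [Function.iterate_succ_apply', Function.iterate_succ_apply', tens_liftP hO, ih]
  have h4 := (h.qhyp hs hO ho).decay hK hN (u := tens N O u)
    (fun a ha => tens_level h0 hs hO ho hφ3 ha) T
  rw [← h3, tens_norm hs hO, tens_norm hs hO] at h4
  have h5 : √(∑ x, u x ^ 2) ≤ √N * δ := by
    have e2 : ∑ x, u x ^ 2 = prodE N π (fun x => (∑ i, φ (x i)) ^ 2) :=
      sum_congr rfl fun x _ => by rw [← prod_sqrt_mul h0]; simp only [hu]; ring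
    have h6 : ∑ a, π a * φ a ^ 2 ≤ δ ^ 2 := by
      calc _ ≤ ∑ a, π a * δ ^ 2 := sum_le_sum fun a _ =>
            mul_le_mul_of_nonneg_left (sq_le_sq' (abs_le.1 (hφ2 a)).1 (abs_le.1 (hφ2 a)).2) (h0 a)
        _ = δ ^ 2 := by rw [← sum_mul, h.sum, one_mul]
    rw [e2, prodE_sq h.sum hφ3, ← Real.sqrt_sq hδ0, ← Real.sqrt_mul hN'.le]
    exact Real.sqrt_le_sqrt (mul_le_mul_of_nonneg_left h6 hN'.le)
  have h6 : ∑ x : Fin N → A, ((∏ i, √(π (x i))) * F x) ^ 2 ≤ 1 := by
    have e2 : ∑ x : Fin N → A, ((∏ i, √(π (x i))) * F x) ^ 2 = prodE N π (fun x => F x ^ 2) :=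
      sum_congr rfl fun x _ => by rw [← prod_sqrt_mul h0]; ring
    rw [e2, ← prodE_const (N := N) h.sum 1]
    exact prodE_mono h0 fun x => pow_le_one₀ (hF x).1 (hF x).2
  have h7 : |prodE N π (fun x => (∑ i, φ (x i)) * G x)| ≤
      √(∑ x, (liftP N (symQ π J))^[T] u x ^ 2) := by
    rw [hG, h.iter_rev]
    refine Real.abs_le_sqrt ((sum_mul_sq_le_sq_mul_sq _ _ _).trans ?_)
    exact mul_le_of_le_one_right (sum_nonneg fun x _ => sq_nonneg _) h6
  have h8 : 0 ≤ (1 - 1 / (4 * K * N)) ^ T + 24 * (T : ℝ) ^ 2 / (N : ℝ) ^ 3 := by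
    refine add_nonneg (pow_nonneg ?_ _) (by positivity)
    rw [sub_nonneg, div_le_one (by positivity)]
    nlinarith
  rw [e1]
  refine (abs_add_le _ _).trans (add_le_add ?_ h2)
  exact h7.trans (h4.trans (mul_le_mul_of_nonneg_left h5 h8))

/-- Chebyshev's inequality under a product law. -/
theorem prodE_cheb {π : A → ℝ} (h0 : ∀ a, 0 ≤ π a) (h1 : ∑ a, π a = 1) (hN : 0 < N) {f : A → ℝ}
    {c θ : ℝ} (hf : ∀ a, 0 ≤ f a ∧ f a ≤ c) (hθ : 0 < θ) :
    prodE N π (fun x => if θ < |(∑ i, f (x i)) / N - ∑ a, π a * f a| then 1 else 0) ≤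
      c ^ 2 / (N * θ ^ 2) := by
  have hN' : (0 : ℝ) < N := by exact_mod_cast hN
  set m := ∑ a, π a * f a with hm
  have hm0 : 0 ≤ m := sum_nonneg fun a _ => mul_nonneg (h0 a) (hf a).1
  have hmc : m ≤ c := by
    calc m ≤ ∑ a, π a * c := sum_le_sum fun a _ => mul_le_mul_of_nonneg_left (hf a).2 (h0 a)
      _ = c := by rw [← sum_mul, h1, one_mul]
  have hg : ∑ a, π a * (f a - m) = 0 := by
    simp only [mul_sub, sum_sub_distrib, ← sum_mul, h1, one_mul, ← hm, sub_self]
  have h2 := prodE_sq (N := N) h1 hg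
  have h3 : ∑ a, π a * (f a - m) ^ 2 ≤ c ^ 2 := by
    calc _ ≤ ∑ a, π a * c ^ 2 := sum_le_sum fun a _ => mul_le_mul_of_nonneg_left
          (sq_le_sq' (by linarith [(hf a).1]) (by linarith [(hf a).2])) (h0 a)
      _ = c ^ 2 := by rw [← sum_mul, h1, one_mul]
  have h4 : ∀ x : Fin N → A, (if θ < |(∑ i, f (x i)) / N - m| then (1 : ℝ) else 0) ≤
      ((N * θ) ^ 2)⁻¹ * (∑ i, (f (x i) - m)) ^ 2 := by
    intro x
    split_ifs with hx
    · have e : ∑ i, (f (x i) - m) = N * ((∑ i, f (x i)) / N - m) := by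
        rw [sum_sub_distrib, sum_const, card_univ, Fintype.card_fin, nsmul_eq_mul]
        field_simp
      rw [e, le_inv_mul_iff₀ (by positivity), mul_one, mul_pow, mul_pow, ← sq_abs (_ - m)]
      exact mul_le_mul_of_nonneg_left (pow_le_pow_left₀ hθ.le hx.le 2) (by positivity)
    · positivity
  refine (prodE_mono h0 h4).trans ?_
  have e : prodE N π (fun x => ((N * θ) ^ 2)⁻¹ * (∑ i, (f (x i) - m)) ^ 2) =
      ((N * θ) ^ 2)⁻¹ * prodE N π (fun x => (∑ i, (f (x i) - m)) ^ 2) := by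
    unfold prodE
    rw [mul_sum]
    exact sum_congr rfl fun x _ => by ring
  rw [e, h2]
  calc _ ≤ ((N * θ) ^ 2)⁻¹ * (N * c ^ 2) :=
        mul_le_mul_of_nonneg_left (mul_le_mul_of_nonneg_left h3 hN'.le) (by positivity)
    _ = c ^ 2 / (N * θ ^ 2) := by field_simp

end Crest.Agent.R304
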