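import Crest.Agent.R304.ChaosDefs

/-!
# Row 304: the gap on the levels one and two, and the leak to the next level
-/

set_option autoImplicit false

namespace Crest.Agent.R304

open Finset

variable {A : Type} [Fintype A] [DecidableEq A] {N : ℕ} {o : A} {q : A × A → A × A → ℝ} {K : ℝ}

namespace ChA

/-- Replace the coordinates `i`, `j`. -/
def up (i j : Fin N) (a : Fin N → A) (b : A × A) : Fin N → A :=
  Function.update (Function.update a i b.1) j b.2

section up

omit [Fintype A] [DecidableEq A]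

theorem up_left {i j : Fin N} (hij : i ≠ j) (a : Fin N → A) (b : A × A) : up i j a b i = b.1 := by
  simp [up, hij]

theorem up_right (i j : Fin N) (a : Fin N → A) (b : A × A) : up i j a b j = b.2 := by
  simp [up]

theorem up_up (i j : Fin N) (a : Fin N → A) (b t : A × A) :
    up i j (up i j a b) t = up i j a t := by
  funext l
  simp only [up, Function.update_apply]
  split_ifs <;> rfl

theorem up_self (i j : Fin N) (a : Fin N → A) : up i j a (a i, a j) = a := by
  simp [up]

end up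

theorem lift2_eq (q : A × A → A × A → ℝ) (i j : Fin N) (u : (Fin N → A) → ℝ) (a : Fin N → A) :
    lift2 q i j u a = ∑ b : A × A, q (a i, a j) b * u (up i j a b) := rfl

theorem lift2_up (q : A × A → A × A → ℝ) {i j : Fin N} (hij : i ≠ j) (u : (Fin N → A) → ℝ)
    (a : Fin N → A) (b : A × A) :
    lift2 q i j u (up i j a b) = ∑ t, q b t * u (up i j a t) := by
  simp only [lift2_eq, up_left hij, up_right, up_up]

theorem sum_fiber (o : A) {i j : Fin N} (hij : i ≠ j) (F : (Fin N → A) → ℝ) :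
    ∑ a, F a = ∑ a with a i = o ∧ a j = o, ∑ b : A × A, F (up i j a b) := by
  rw [← Finset.sum_product' (f := fun a b => F (up i j a b))]
  refine Finset.sum_nbij' (fun a => (up i j a (o, o), (a i, a j))) (fun x => up i j x.1 x.2)
    ?_ ?_ ?_ ?_ ?_
  · intro a _
    simp [up_left hij, up_right]
  · intro x _
    simp
  · intro a _
    simp only [up_up, up_self]
  · rintro ⟨a, b⟩ hx
    simp only [mem_product, mem_filter, mem_univ, true_and, and_true] at hx
    simp only [up_up, up_left hij, up_right, Prod.mk.eta, Prod.mk.injEq, and_true]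
    rw [← hx.1]
    nth_rewrite 2 [hx.1.trans hx.2.symm]
    exact up_self i j a
  · intro a _
    simp only [up_up, up_self]

/-- The Dirichlet form on pairs. -/
noncomputable def B (q : A × A → A × A → ℝ) (w w' : A × A → ℝ) : ℝ :=
  ∑ s, w s * w' s - ∑ s, w s * ∑ t, q s t * w' t

theorem contr_of_lazy {ι : Type} [Fintype ι] {u v : ι → ℝ} (h : ∑ a, v a ^ 2 ≤ ∑ a, u a * v a) :
    ∑ a, v a ^ 2 ≤ ∑ a, u a ^ 2 ∧ ∑ a, u a * v a ≤ ∑ a, u a ^ 2 := by
  have h1 : ∑ a, 2 * (u a * v a) ≤ ∑ a, (u a ^ 2 + v a ^ 2) :=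
    sum_le_sum fun a _ => by nlinarith [sq_nonneg (u a - v a)]
  rw [← mul_sum, sum_add_distrib] at h1
  constructor <;> linarith

omit [DecidableEq A] in
theorem B_self (q : A × A → A × A → ℝ) (w : A × A → ℝ) :
    B q w w = ∑ s, w s ^ 2 - ∑ s, w s * ∑ t, q s t * w t := by
  simp only [B, sq]

theorem B_nonneg (h : QHyp o q K) (w : A × A → ℝ) : 0 ≤ B q w w := by
  rw [B_self]
  exact sub_nonneg.2 (contr_of_lazy (h.lazy w)).2

theorem B_le (h : QHyp o q K) (w : A × A → ℝ) : B q w w ≤ ∑ s, w s ^ 2 := by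
  rw [B_self]
  have h1 := h.lazy w
  have h2 : 0 ≤ ∑ s, (∑ t, q s t * w t) ^ 2 := sum_nonneg fun _ _ => sq_nonneg _
  linarith

theorem B_comm (h : QHyp o q K) (w w' : A × A → ℝ) : B q w w' = B q w' w := by
  unfold B
  congr 1
  · exact sum_congr rfl fun _ _ => mul_comm _ _
  · simp only [mul_sum]
    rw [sum_comm]
    exact sum_congr rfl fun s _ => sum_congr rfl fun t _ => by rw [h.symm t s]; ring

omit [DecidableEq A] in
theorem B_add_left (q : A × A → A × A → ℝ) (x y w : A × A → ℝ) :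
    B q (x + y) w = B q x w + B q y w := by
  simp only [B, Pi.add_apply, add_mul, sum_add_distrib]
  ring

omit [DecidableEq A] in
theorem B_add_right (q : A × A → A × A → ℝ) (x y w : A × A → ℝ) :
    B q w (x + y) = B q w x + B q w y := by
  simp only [B, Pi.add_apply, mul_add, sum_add_distrib]
  ring

theorem B_vac (h : QHyp o q K) {x : A × A → ℝ} (hx : ∀ s, s ≠ (o, o) → x s = 0) (w : A × A → ℝ) :
    B q x w = 0 := by
  unfold B
  rw [sum_eq_single (o, o) (fun s _ hs => by rw [hx s hs, zero_mul]) (by simp),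
    sum_eq_single (o, o) (fun s _ hs => by rw [hx s hs, zero_mul]) (by simp)]
  simp [h.vac]

theorem B_gap (h : QHyp o q K) (hK : 0 < K) (w : A × A → ℝ) :
    ∑ s, w s ^ 2 * ((if (s.1 = o ↔ s.2 ≠ o) then 1 / (2 * K) else 0) -
      if s.1 ≠ o ∧ s.2 ≠ o then 1 else 0) ≤ B q w w := by
  set w0 : A × A → ℝ := fun s => if s = (o, o) then w s else 0 with hw0
  set w1 : A × A → ℝ := fun s => if (s.1 = o ↔ s.2 ≠ o) then w s else 0 with hw1
  set w2 : A × A → ℝ := fun s => if s.1 ≠ o ∧ s.2 ≠ o then w s else 0 with hw2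
  have e : w = w0 + (w1 + w2) := by
    funext ⟨a, b⟩
    simp only [hw0, hw1, hw2, Pi.add_apply, Prod.mk.injEq]
    by_cases ha : a = o <;> by_cases hb : b = o <;> simp [ha, hb]
  have h0 : ∀ s, s ≠ (o, o) → w0 s = 0 := fun s hs => if_neg hs
  have e1 : B q w w = B q (w1 + w2) (w1 + w2) := by
    conv_lhs => rw [e]
    rw [B_add_left, B_vac h h0, B_add_right q w0, B_comm h _ w0, B_vac h h0]
    ring
  have h1 := B_nonneg h (w1 + w2 + w2)
  have h2 := B_le h w2
  have h3 := h.gap w1 fun s hs => by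
    by_contra hc
    exact hs (if_neg hc)
  rw [← B_self] at h3
  simp only [B_add_left, B_add_right] at h1 e1
  have h4 : ∑ s, w1 s ^ 2 / (2 * K) ≤ B q w1 w1 / 2 := by
    rw [← sum_div, div_le_div_iff₀ (by positivity) (by norm_num)]
    linarith
  have e2 : ∑ s, w s ^ 2 * ((if (s.1 = o ↔ s.2 ≠ o) then 1 / (2 * K) else 0) -
      if s.1 ≠ o ∧ s.2 ≠ o then 1 else 0) = ∑ s, w1 s ^ 2 / (2 * K) - ∑ s, w2 s ^ 2 := by
    rw [← sum_sub_distrib]
    refine sum_congr rfl fun s _ => ?_
    simp only [hw1, hw2]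
    split_ifs <;> ring
  rw [e2, e1]
  linarith

theorem lift2_lazy (h : QHyp o q K) {i j : Fin N} (hij : i ≠ j) (u : (Fin N → A) → ℝ) :
    ∑ a, lift2 q i j u a ^ 2 ≤ ∑ a, u a * lift2 q i j u a := by
  rw [sum_fiber o hij, sum_fiber o hij fun a => u a * lift2 q i j u a]
  refine sum_le_sum fun a _ => ?_
  simp only [lift2_up q hij]
  exact h.lazy fun t => u (up i j a t)

theorem lift2_gap (h : QHyp o q K) (hK : 0 < K) {i j : Fin N} (hij : i ≠ j)
    (u : (Fin N → A) → ℝ) :
    ∑ a, u a ^ 2 * ((if (a i = o ↔ a j ≠ o) then 1 / (2 * K) else 0) -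
      if a i ≠ o ∧ a j ≠ o then 1 else 0) ≤ ∑ a, u a ^ 2 - ∑ a, u a * lift2 q i j u a := by
  rw [sum_fiber o hij, sum_fiber o hij fun a => u a * lift2 q i j u a,
    sum_fiber o hij fun a => u a ^ 2, ← sum_sub_distrib]
  refine sum_le_sum fun a _ => ?_
  simp only [lift2_up q hij, up_left hij, up_right]
  rw [← B_self q fun t => u (up i j a t)]
  exact B_gap h hK fun t => u (up i j a t)

/-- Indicator of an excited state. -/
noncomputable def ex (o c : A) : ℝ := if c ≠ o then 1 else 0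

omit [Fintype A] in
theorem sum_ex (o : A) (a : Fin N → A) : ∑ i, ex o (a i) = lev o a := by
  simp [ex, lev, sum_ite]

omit [Fintype A] in
theorem count_one (o : A) (a : Fin N → A) (c : ℝ) :
    ∑ i, ∑ j, (if (a i = o ↔ a j ≠ o) then c else 0) = c * (2 * lev o a * (N - lev o a)) := by
  have e : ∀ i j, (if (a i = o ↔ a j ≠ o) then c else 0) =
      c * ex o (a i) + c * ex o (a j) - 2 * c * ex o (a i) * ex o (a j) := by
    intro i j
    unfold ex
    by_cases hi : a i = o <;> by_cases hj : a j = o <;> simp [hi, hj]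
    ring
  simp only [e, sum_sub_distrib, sum_add_distrib, ← mul_sum, ← sum_mul, sum_ex, sum_const,
    card_univ, Fintype.card_fin, nsmul_eq_mul]
  ring

omit [Fintype A] in
theorem count_two (o : A) (a : Fin N → A) :
    ∑ i, ∑ j, (if i ≠ j ∧ a i ≠ o ∧ a j ≠ o then (1 : ℝ) else 0) = lev o a * (lev o a - 1) := by
  have e : ∀ i j, (if i ≠ j ∧ a i ≠ o ∧ a j ≠ o then (1 : ℝ) else 0) =
      ex o (a i) * ex o (a j) - if i = j then ex o (a i) else 0 := by
    intro i j
    unfold ex
    by_cases hij : i = j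
    · subst hij
      by_cases hi : a i = o <;> simp [hi]
    · by_cases hi : a i = o <;> by_cases hj : a j = o <;> simp [hi, hj, hij]
  simp only [e, sum_sub_distrib, ← mul_sum, ← sum_mul, sum_ex, sum_ite_eq, mem_univ, if_true]
  ring

omit [Fintype A] in
theorem lev_update (o : A) (a : Fin N → A) (i : Fin N) (c : A) :
    lev o (Function.update a i c) + (if a i = o then 0 else 1) =
      lev o a + (if c = o then 0 else 1) := by
  unfold lev
  rw [card_filter, card_filter, ← add_sum_erase _ _ (mem_univ i), ← add_sum_erase univ _ (mem_univ i),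
    sum_congr rfl (g := fun l => if a l ≠ o then 1 else 0) fun l hl => by
      rw [Function.update_of_ne (ne_of_mem_erase hl)]]
  simp only [Function.update_self, ne_eq, ite_not]
  ring

omit [Fintype A] in
theorem lev_up (o : A) {i j : Fin N} (hij : i ≠ j) (a : Fin N → A) (b : A × A) :
    lev o (up i j a b) + ((if a i = o then 0 else 1) + if a j = o then 0 else 1) =
      lev o a + ((if b.1 = o then 0 else 1) + if b.2 = o then 0 else 1) := by
  have h1 := lev_update o a i b.1
  have h2 := lev_update o (Function.update a i b.1) j b.2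
  rw [Function.update_of_ne hij.symm] at h2
  unfold up
  omega

theorem vac_iff (h : QHyp o q K) {s t : A × A} (hq : q s t ≠ 0) : s = (o, o) ↔ t = (o, o) := by
  constructor
  · rintro rfl
    by_contra hc
    exact hq (by rw [h.vac, if_neg hc])
  · rintro rfl
    by_contra hc
    exact hq (by rw [h.symm, h.vac, if_neg hc])

theorem sum_mul_liftP (q : A × A → A × A → ℝ) (u : (Fin N → A) → ℝ) :
    ∑ a, u a * liftP N q u a =
      (∑ i, ∑ j, ∑ a, u a * if i = j then u a else lift2 q i j u a) / (N : ℝ) ^ 2 := by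
  simp only [liftP, ← mul_div_assoc, ← sum_div, mul_sum]
  rw [sum_comm]
  congr 1
  exact sum_congr rfl fun i _ => sum_comm

end ChA

open ChA

/-- Sums over configurations, fibred over two coordinates. -/
theorem sum_fiber (o : A) {i j : Fin N} (hij : i ≠ j) (F : (Fin N → A) → ℝ) :
    ∑ a, F a = ∑ a with a i = o ∧ a j = o,
      ∑ b : A × A, F (Function.update (Function.update a i b.1) j b.2) :=
  ChA.sum_fiber o hij F

theorem QHyp.liftP_lazy (h : QHyp o q K) (hN : 0 < N) (u : (Fin N → A) → ℝ) :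
    ∑ a, liftP N q u a ^ 2 ≤ ∑ a, u a * liftP N q u a := by
  have hN' : (0 : ℝ) < N := by exact_mod_cast hN
  have h1 : ∀ a, liftP N q u a ^ 2 ≤
      (∑ i, ∑ j, (if i = j then u a else lift2 q i j u a) ^ 2) / (N : ℝ) ^ 2 := by
    intro a
    have := sq_sum_le_card_mul_sum_sq (s := (univ : Finset (Fin N × Fin N)))
      (f := fun p => if p.1 = p.2 then u a else lift2 q p.1 p.2 u a)
    simp only [Fintype.sum_prod_type, card_univ, Fintype.card_prod, Fintype.card_fin,
      Nat.cast_mul] at this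
    rw [liftP, div_pow, div_le_div_iff₀ (by positivity) (by positivity)]
    nlinarith [mul_le_mul_of_nonneg_right this (sq_nonneg (N : ℝ))]
  refine (sum_le_sum fun a _ => h1 a).trans ?_
  rw [sum_mul_liftP, ← sum_div, sum_comm]
  refine div_le_div_of_nonneg_right (sum_le_sum fun i _ => ?_) (by positivity)
  rw [sum_comm]
  refine sum_le_sum fun j _ => ?_
  by_cases hij : i = j
  · simp only [if_pos hij, sq, le_refl]
  · simp only [if_neg hij]
    exact lift2_lazy h hij u

theorem QHyp.liftP_contr (h : QHyp o q K) (hN : 0 < N) (u : (Fin N → A) → ℝ) :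
    ∑ a, liftP N q u a ^ 2 ≤ ∑ a, u a ^ 2 :=
  (contr_of_lazy (h.liftP_lazy hN u)).1

theorem QHyp.liftP_gap (h : QHyp o q K) (hK : 1 ≤ K) (hN : 4 * K ≤ N) {u : (Fin N → A) → ℝ}
    (hu : ∀ a, u a ≠ 0 → lev o a = 1 ∨ lev o a = 2) :
    ∑ a, liftP N q u a ^ 2 ≤ (1 - 1 / (2 * K * N)) * ∑ a, u a ^ 2 := by
  have hN' : (0 : ℝ) < N := by linarith
  have hK0 : 0 < K := by linarith
  refine (h.liftP_lazy (by exact_mod_cast hN') u).trans ?_
  have h1 : ∀ i j : Fin N, (∑ a, u a * if i = j then u a else lift2 q i j u a) ≤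
      ∑ a, u a ^ 2 - ∑ a, u a ^ 2 * ((if (a i = o ↔ a j ≠ o) then 1 / (2 * K) else 0) -
        if i ≠ j ∧ a i ≠ o ∧ a j ≠ o then 1 else 0) := by
    intro i j
    by_cases hij : i = j
    · subst hij
      simp [sq]
    · have := lift2_gap h hK0 hij u
      simp only [ne_eq, hij, not_false_eq_true, true_and, if_false] at this ⊢
      linarith
  have h2 : ∑ a, u a ^ 2 * (N / (2 * K)) ≤ ∑ i : Fin N, ∑ j : Fin N,
      ∑ a, u a ^ 2 * ((if (a i = o ↔ a j ≠ o) then 1 / (2 * K) else 0) -
        if i ≠ j ∧ a i ≠ o ∧ a j ≠ o then 1 else 0) := by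
    rw [sum_congr rfl fun i _ => sum_comm, sum_comm]
    refine sum_le_sum fun a _ => ?_
    simp only [← mul_sum, sum_sub_distrib]
    rw [count_one, count_two]
    by_cases ha : u a = 0
    · simp [ha]
    refine mul_le_mul_of_nonneg_left ?_ (sq_nonneg _)
    rw [le_sub_iff_add_le, one_div, inv_mul_eq_div, div_add' _ _ _ (by positivity),
      div_le_div_iff_of_pos_right (by positivity)]
    rcases hu a ha with hl | hl <;> rw [hl] <;> push_cast <;> linarith
  rw [sum_mul_liftP, div_le_iff₀ (by positivity)]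
  refine (sum_le_sum fun i _ => sum_le_sum fun j _ => h1 i j).trans ?_
  simp only [sum_sub_distrib (s := (univ : Finset (Fin N))), sum_const, card_univ,
    Fintype.card_fin, nsmul_eq_mul]
  rw [← sum_mul] at h2
  have e : (1 - 1 / (2 * K * N)) * (∑ a, u a ^ 2) * (N : ℝ) ^ 2 =
      N * (N * ∑ a, u a ^ 2) - (∑ a, u a ^ 2) * (N / (2 * K)) := by
    field_simp
  rw [e]
  linarith

/-- The level goes up by at most one and never reaches the vacuum. -/
theorem QHyp.liftP_supp (h : QHyp o q K) {k : ℕ} {u : (Fin N → A) → ℝ}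
    (hu : ∀ a, u a ≠ 0 → 1 ≤ lev o a ∧ lev o a ≤ k) {a : Fin N → A} (ha : liftP N q u a ≠ 0) :
    1 ≤ lev o a ∧ lev o a ≤ k + 1 := by
  obtain ⟨i, -, hi⟩ := exists_ne_zero_of_sum_ne_zero (div_ne_zero_iff.1 ha).1
  obtain ⟨j, -, hj⟩ := exists_ne_zero_of_sum_ne_zero hi
  by_cases hij : i = j
  · rw [if_pos hij] at hj
    have := hu a hj
    omega
  rw [if_neg hij, lift2_eq] at hj
  obtain ⟨b, -, hb⟩ := exists_ne_zero_of_sum_ne_zero hj
  have h1 := hu _ (right_ne_zero_of_mul hb)
  have h2 := vac_iff h (left_ne_zero_of_mul hb)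
  have h3 := lev_up o hij a b
  have h4 := lev_up o hij a (o, o)
  rw [Prod.mk.injEq, Prod.ext_iff] at h2
  simp only [if_true] at h2 h4
  split_ifs at h3 h4 <;> first | omega | tauto

theorem QHyp.liftP_leak (h : QHyp o q K) (hN : 0 < N) {k : ℕ} {u : (Fin N → A) → ℝ}
    (hu : ∀ a, u a ≠ 0 → lev o a = k) :
    ∑ a with lev o a = k + 1, liftP N q u a ^ 2 ≤
      2 * (k : ℝ) ^ 2 * (k + 1) / (N : ℝ) ^ 3 * ∑ a, u a ^ 2 := by
  have hN' : (0 : ℝ) < N := by exact_mod_cast hN
  set u' : Fin N → Fin N → (Fin N → A) → ℝ :=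
    fun i j c => if (c i = o ↔ c j ≠ o) then u c else 0 with hu'
  set v : Fin N → Fin N → (Fin N → A) → ℝ :=
    fun i j a => if i = j then 0 else lift2 q i j (u' i j) a with hv
  have h1 : ∀ a, lev o a = k + 1 → ∀ i j, (if i = j then u a else lift2 q i j u a) =
      (if i ≠ j ∧ a i ≠ o ∧ a j ≠ o then (1 : ℝ) else 0) * v i j a := by
    intro a ha i j
    by_cases hij : i = j
    · have : u a = 0 := by
        by_contra hc
        have := hu a hc
        omega
      simp [hv, hij, this]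
    simp only [hv, if_neg hij, lift2_eq, mul_sum]
    refine sum_congr rfl fun b _ => ?_
    by_cases hq : q (a i, a j) b = 0
    · simp [hq]
    by_cases hb : u (up i j a b) = 0
    · simp [hu', hb]
    have h2 := vac_iff h hq
    have h3 := lev_up o hij a b
    rw [hu _ hb, ha] at h3
    rw [Prod.mk.injEq, Prod.ext_iff] at h2
    simp only at h2
    have h4 : (a i ≠ o ∧ a j ≠ o) ∧ (b.1 = o ↔ b.2 ≠ o) := by
      split_ifs at h3 <;> first | omega | tauto
    simp only [hu', up_left hij, up_right]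
    rw [if_pos ⟨hij, h4.1⟩, if_pos h4.2, one_mul]
  have h2 : ∀ a, lev o a = k + 1 → liftP N q u a ^ 2 ≤
      (k + 1) * k / (N : ℝ) ^ 4 * ∑ i, ∑ j, v i j a ^ 2 := by
    intro a ha
    have a1 := sum_mul_sq_le_sq_mul_sq (univ : Finset (Fin N × Fin N))
      (fun p => if p.1 ≠ p.2 ∧ a p.1 ≠ o ∧ a p.2 ≠ o then (1 : ℝ) else 0) (fun p => v p.1 p.2 a)
    have a2 : ∀ (P : Prop) [Decidable P], (if P then (1 : ℝ) else 0) ^ 2 = if P then 1 else 0 := by
      intro P _
      split_ifs <;> simp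
    simp only [Fintype.sum_prod_type, a2] at a1
    rw [count_two, ha] at a1
    rw [liftP, sum_congr rfl fun i _ => sum_congr rfl fun j _ => h1 a ha i j, div_pow, ← pow_mul,
      div_mul_eq_mul_div]
    refine div_le_div_of_nonneg_right (a1.trans_eq ?_) (by positivity)
    push_cast
    ring
  have h3 : ∀ i j, ∑ a, v i j a ^ 2 ≤ ∑ a, u a ^ 2 * if (a i = o ↔ a j ≠ o) then 1 else 0 := by
    intro i j
    have e : ∀ a, (u a ^ 2 * if (a i = o ↔ a j ≠ o) then 1 else 0) = u' i j a ^ 2 := by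
      intro a
      simp only [hu']
      split_ifs <;> ring
    simp only [e]
    by_cases hij : i = j
    · simp only [hv, if_pos hij]
      exact sum_le_sum fun a _ => by simpa using sq_nonneg _
    · simp only [hv, if_neg hij]
      exact (contr_of_lazy (lift2_lazy h hij _)).1
  have h4 : ∑ a, ∑ i, ∑ j, v i j a ^ 2 ≤ 2 * k * N * ∑ a, u a ^ 2 := by
    rw [sum_comm, sum_congr rfl fun i _ => sum_comm]
    refine (sum_le_sum fun i _ => sum_le_sum fun j _ => h3 i j).trans ?_
    rw [sum_congr rfl fun i _ => sum_comm, sum_comm, mul_sum]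
    refine sum_le_sum fun a _ => ?_
    simp only [← mul_sum]
    rw [count_one]
    by_cases ha : u a = 0
    · simp [ha]
    rw [hu a ha]
    nlinarith [mul_nonneg (sq_nonneg (u a)) (sq_nonneg (k : ℝ))]
  calc _ ≤ ∑ a with lev o a = k + 1, (k + 1) * k / (N : ℝ) ^ 4 * ∑ i, ∑ j, v i j a ^ 2 :=
        sum_le_sum fun a ha => h2 a (mem_filter.1 ha).2
    _ ≤ ∑ a, (k + 1) * k / (N : ℝ) ^ 4 * ∑ i, ∑ j, v i j a ^ 2 :=
        sum_le_sum_of_subset_of_nonneg (filter_subset _ _) fun a _ _ => by positivity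
    _ ≤ (k + 1) * k / (N : ℝ) ^ 4 * (2 * k * N * ∑ a, u a ^ 2) := by
        rw [← mul_sum]
        exact mul_le_mul_of_nonneg_left h4 (by positivity)
    _ = _ := by field_simp

end Crest.Agent.R304
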