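import Crest.Agent.R304.ChaosA

/-!
# Row 304: decay of first-level vectors
-/

set_option autoImplicit false
set_option linter.unusedSectionVars false

namespace Crest.Agent.R304

open Finset

variable {A : Type} [Fintype A] [DecidableEq A] {N : ℕ} {o : A} {q : A × A → A × A → ℝ} {K : ℝ}

namespace ChaosBAux

/-- Euclidean norm. -/
noncomputable def nrm (u : (Fin N → A) → ℝ) : ℝ := √(∑ a, u a ^ 2)

theorem nrm_nonneg (u : (Fin N → A) → ℝ) : 0 ≤ nrm u := Real.sqrt_nonneg _

theorem nrm_add (u v : (Fin N → A) → ℝ) : nrm (u + v) ≤ nrm u + nrm v := by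
  have h : ∀ w : (Fin N → A) → ℝ, nrm w = ‖(WithLp.toLp 2 w : EuclideanSpace ℝ (Fin N → A))‖ :=
    fun w => by simp [nrm, EuclideanSpace.norm_eq]
  rw [h, h, h, WithLp.toLp_add]
  exact norm_add_le _ _

theorem nrm_le {u v : (Fin N → A) → ℝ} {c : ℝ} (hc : 0 ≤ c)
    (h : ∑ a, u a ^ 2 ≤ c ^ 2 * ∑ a, v a ^ 2) : nrm u ≤ c * nrm v := by
  unfold nrm
  rw [← Real.sqrt_sq hc, ← Real.sqrt_mul (sq_nonneg c)]
  exact Real.sqrt_le_sqrt h

/-- The part of level `k`. -/
def on (o : A) (k : ℕ) (u : (Fin N → A) → ℝ) : (Fin N → A) → ℝ :=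
  fun a => if lev o a = k then u a else 0

/-- The part of level different from `k`. -/
def off (o : A) (k : ℕ) (u : (Fin N → A) → ℝ) : (Fin N → A) → ℝ :=
  fun a => if lev o a = k then 0 else u a

omit [Fintype A] in
theorem off_add_on (o : A) (k : ℕ) (u : (Fin N → A) → ℝ) : off o k u + on o k u = u := by
  funext a
  simp only [on, off, Pi.add_apply]
  split_ifs <;> simp

omit [Fintype A] in
theorem on_add (k : ℕ) (u v : (Fin N → A) → ℝ) : on o k (u + v) = on o k u + on o k v := by
  funext a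
  simp only [on, Pi.add_apply]
  split_ifs <;> simp

omit [Fintype A] in
theorem on_ne {k : ℕ} {u : (Fin N → A) → ℝ} {a : Fin N → A} (h : on o k u a ≠ 0) :
    lev o a = k ∧ u a ≠ 0 := by
  unfold on at h
  split_ifs at h with h'
  exacts [⟨h', h⟩, absurd rfl h]

omit [Fintype A] in
theorem off_ne {k : ℕ} {u : (Fin N → A) → ℝ} {a : Fin N → A} (h : off o k u a ≠ 0) :
    lev o a ≠ k ∧ u a ≠ 0 := by
  unfold off at h
  split_ifs at h with h'
  exacts [absurd rfl h, ⟨h', h⟩]

theorem nrm_on (k : ℕ) (u : (Fin N → A) → ℝ) : nrm (on o k u) ≤ nrm u := by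
  refine Real.sqrt_le_sqrt (sum_le_sum fun a _ => ?_)
  unfold on
  split_ifs <;> simp [sq_nonneg]

theorem nrm_off (k : ℕ) (u : (Fin N → A) → ℝ) : nrm (off o k u) ≤ nrm u := by
  refine Real.sqrt_le_sqrt (sum_le_sum fun a _ => ?_)
  unfold off
  split_ifs <;> simp [sq_nonneg]

theorem sum_on (k : ℕ) (u : (Fin N → A) → ℝ) :
    ∑ a, on o k u a ^ 2 = ∑ a with lev o a = k, u a ^ 2 := by
  rw [sum_filter]
  refine sum_congr rfl fun a _ => ?_
  unfold on
  split_ifs <;> simp

omit [DecidableEq A] in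
theorem liftP_add (u v : (Fin N → A) → ℝ) : liftP N q (u + v) = liftP N q u + liftP N q v := by
  funext a
  simp only [liftP, lift2, Pi.add_apply, ← add_div, ← sum_add_distrib, mul_add]
  congr 1
  refine sum_congr rfl fun i _ => sum_congr rfl fun j _ => ?_
  split_ifs
  · rfl
  · exact sum_add_distrib

end ChaosBAux

open ChaosBAux in
theorem QHyp.decay (h : QHyp o q K) (hK : 1 ≤ K) (hN : 4 * K ≤ N) {u : (Fin N → A) → ℝ}
    (hu : ∀ a, u a ≠ 0 → lev o a = 1) (T : ℕ) :
    √(∑ a, (liftP N q)^[T] u a ^ 2) ≤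
      ((1 - 1 / (4 * K * N)) ^ T + 24 * (T : ℝ) ^ 2 / (N : ℝ) ^ 3) * √(∑ a, u a ^ 2) := by
  have hN0 : (0 : ℝ) < N := by linarith
  have hN1 : 0 < N := by exact_mod_cast hN0
  obtain ⟨s, hs0, hs⟩ : ∃ s : ℝ, 0 ≤ s ∧ s ^ 2 = 1 / (N : ℝ) ^ 3 :=
    ⟨√(1 / (N : ℝ) ^ 3), Real.sqrt_nonneg _, Real.sq_sqrt (by positivity)⟩
  have hc0 : 0 ≤ 1 / (4 * K * N) := by positivity
  have hc1 : 1 / (4 * K * N) ≤ 1 := by
    rw [div_le_one (by positivity)]
    nlinarith
  have hc2 : 1 / (2 * K * N) = 2 * (1 / (4 * K * N)) := by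
    field_simp
    norm_num
  generalize 1 / (4 * K * N) = c at hc0 hc1 hc2 ⊢
  have hρ0 : 0 ≤ 1 - c := by linarith
  have hρ1 : 1 - c ≤ 1 := by linarith
  have hu0 := nrm_nonneg u
  have hcon : ∀ w, nrm (liftP N q w) ≤ nrm w := fun w => Real.sqrt_le_sqrt (h.liftP_contr hN1 w)
  have key : ∃ v e : (Fin N → A) → ℝ, (liftP N q)^[T] u = v + e ∧
      (∀ a, v a ≠ 0 → 1 ≤ lev o a ∧ lev o a ≤ 2) ∧ nrm v ≤ (1 - c) ^ T * nrm u ∧
      nrm (on o 2 v) ≤ T * (2 * s) * nrm u ∧ nrm e ≤ (T : ℝ) ^ 2 * (10 * s ^ 2) * nrm u := by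
    induction T with
    | zero =>
      refine ⟨u, 0, by simp, fun a ha => by have := hu a ha; omega, by simp, ?_, by simp [nrm]⟩
      have : on o 2 u = 0 := by
        funext a
        by_contra ha
        have h1 := on_ne ha
        have h2 := hu a h1.2
        omega
      simp [this, nrm]
    | succ T ih =>
      obtain ⟨v, e, h1, h2, h3, h4, h5⟩ := ih
      have hv1 : ∀ a, off o 2 v a ≠ 0 → lev o a = 1 := fun a ha => by
        have h6 := off_ne ha
        have h7 := h2 a h6.2
        omega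
      have hv2 : ∀ a, on o 2 v a ≠ 0 → lev o a = 2 := fun a ha => (on_ne ha).1
      have hsp : liftP N q v = liftP N q (off o 2 v) + liftP N q (on o 2 v) := by
        rw [← liftP_add, off_add_on]
      have hvu : nrm v ≤ nrm u :=
        h3.trans (mul_le_of_le_one_left hu0 (pow_le_one₀ hρ0 hρ1))
      refine ⟨off o 3 (liftP N q v), on o 3 (liftP N q v) + liftP N q e, ?_, fun a ha => ?_, ?_,
        ?_, ?_⟩
      · rw [Function.iterate_succ_apply', h1, liftP_add, ← add_assoc, off_add_on]
      · have h6 := off_ne ha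
        have h7 := h.liftP_supp h2 h6.2
        omega
      · have h6 : nrm (liftP N q v) ≤ (1 - c) * nrm v := by
          refine nrm_le hρ0 ((h.liftP_gap hK hN fun a ha => by have := h2 a ha; omega).trans ?_)
          refine mul_le_mul_of_nonneg_right ?_ (sum_nonneg fun a _ => sq_nonneg _)
          rw [hc2]
          nlinarith [sq_nonneg c]
        calc _ ≤ (1 - c) * nrm v := (nrm_off _ _).trans h6
          _ ≤ (1 - c) * ((1 - c) ^ T * nrm u) := mul_le_mul_of_nonneg_left h3 hρ0
          _ = _ := by ring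
      · have h6 : on o 2 (off o 3 (liftP N q v)) = on o 2 (liftP N q v) := by
          funext a
          simp only [on, off]
          split_ifs with ha hb
          · omega
          · rfl
          · rfl
        have h7 : nrm (on o 2 (liftP N q (off o 2 v))) ≤ 2 * s * nrm (off o 2 v) := by
          refine nrm_le (by positivity) ?_
          rw [sum_on]
          refine (h.liftP_leak hN1 hv1).trans (le_of_eq ?_)
          rw [mul_pow 2 s, hs]
          push_cast
          ring
        have h8 := (nrm_on (o := o) 2 _).trans (hcon (on o 2 v))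
        have h9 : 2 * s * nrm (off o 2 v) ≤ 2 * s * nrm u :=
          mul_le_mul_of_nonneg_left ((nrm_off _ _).trans hvu) (by positivity)
        rw [h6, hsp, on_add]
        refine (nrm_add _ _).trans ?_
        push_cast
        linarith
      · have h6 : on o 3 (liftP N q v) = on o 3 (liftP N q (on o 2 v)) := by
          have : on o 3 (liftP N q (off o 2 v)) = 0 := by
            funext a
            by_contra ha
            have h6 := on_ne ha
            have h7 := h.liftP_supp (k := 1) (fun a ha => by have := hv1 a ha; omega) h6.2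
            omega
          rw [hsp, on_add, this, zero_add]
        have h7 : nrm (on o 3 (liftP N q (on o 2 v))) ≤ 5 * s * nrm (on o 2 v) := by
          refine nrm_le (by positivity) ?_
          rw [sum_on]
          refine (h.liftP_leak hN1 hv2).trans
            (mul_le_mul_of_nonneg_right ?_ (sum_nonneg fun a _ => sq_nonneg _))
          rw [mul_pow 5 s, hs, mul_one_div]
          gcongr
          norm_num
        have h8 : 5 * s * nrm (on o 2 v) ≤ 5 * s * (T * (2 * s) * nrm u) :=
          mul_le_mul_of_nonneg_left h4 (by positivity)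
        have h9 := hcon e
        have h10 : 0 ≤ ((T : ℝ) + 1) * (10 * s ^ 2) * nrm u := by positivity
        rw [h6]
        refine (nrm_add _ _).trans ?_
        push_cast
        nlinarith
  obtain ⟨v, e, h1, -, h3, -, h5⟩ := key
  change nrm ((liftP N q)^[T] u) ≤ _ * nrm u
  rw [h1]
  refine (nrm_add _ _).trans ?_
  have h6 : (T : ℝ) ^ 2 * (10 * s ^ 2) * nrm u ≤ 24 * (T : ℝ) ^ 2 / (N : ℝ) ^ 3 * nrm u := by
    refine mul_le_mul_of_nonneg_right ?_ hu0
    rw [hs, mul_one_div, ← mul_div_assoc, mul_comm]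
    gcongr
    norm_num
  linarith

end Crest.Agent.R304
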