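import Mathlib

/-!
# Row 304: pair interactions in a population (definitions)
-/

set_option autoImplicit false

namespace Crest.Agent.R304

open Finset

variable {A : Type} [Fintype A] [DecidableEq A]

/-- A matrix on pairs acting on the coordinates `i`, `j`. -/
noncomputable def lift2 {N : ℕ} (q : A × A → A × A → ℝ) (i j : Fin N) (u : (Fin N → A) → ℝ) :
    (Fin N → A) → ℝ :=
  fun a => ∑ b : A × A, q (a i, a j) b * u (Function.update (Function.update a i b.1) j b.2)

/-- The average over a uniform pair of coordinates. -/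
noncomputable def liftP (N : ℕ) (q : A × A → A × A → ℝ) (u : (Fin N → A) → ℝ) :
    (Fin N → A) → ℝ :=
  fun a => (∑ i, ∑ j, if i = j then u a else lift2 q i j u a) / (N : ℝ) ^ 2

/-- The number of excited coordinates. -/
def lev {N : ℕ} (o : A) (a : Fin N → A) : ℕ := (univ.filter fun i => a i ≠ o).card

/-- A lazy symmetric matrix on pairs fixing the vacuum, with a gap on the first level. -/
structure QHyp (o : A) (q : A × A → A × A → ℝ) (K : ℝ) : Prop where
  symm : ∀ s t, q s t = q t s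
  vac : ∀ t, q (o, o) t = if t = (o, o) then 1 else 0
  lazy : ∀ w : A × A → ℝ, ∑ s, (∑ t, q s t * w t) ^ 2 ≤ ∑ s, w s * ∑ t, q s t * w t
  gap : ∀ w : A × A → ℝ, (∀ s, w s ≠ 0 → (s.1 = o ↔ s.2 ≠ o)) →
    ∑ s, w s ^ 2 ≤ K * (∑ s, w s ^ 2 - ∑ s, w s * ∑ t, q s t * w t)

/-- The Markov kernel on pairs with symmetric flows `J` and stationary law `π ⊗ π`. -/
noncomputable def kerQ (π : A → ℝ) (J : A × A → A × A → ℝ) (s t : A × A) : ℝ :=
  J s t / (π s.1 * π s.2) + if s = t then 1 - ∑ t', J s t' / (π s.1 * π s.2) else 0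

/-- A lazy reversible kernel on pairs with a gap on additive functions. -/
structure JHyp (π : A → ℝ) (J : A × A → A × A → ℝ) (K : ℝ) : Prop where
  pos : ∀ a, 0 < π a
  sum : ∑ a, π a = 1
  nonneg : ∀ s t, 0 ≤ J s t
  symm : ∀ s t, J s t = J t s
  lazy : ∀ s, 2 * ∑ t, J s t ≤ π s.1 * π s.2
  gap : ∀ f g : A → ℝ, ∑ a, π a * f a = 0 → ∑ a, π a * g a = 0 →
    ∑ a, π a * f a ^ 2 + ∑ a, π a * g a ^ 2 ≤
      K * ((∑ s, ∑ t, J s t * (f t.1 + g t.2 - f s.1 - g s.2) ^ 2) / 2)

/-- Expectation under a product law. -/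
noncomputable def prodE (N : ℕ) (π : A → ℝ) (F : (Fin N → A) → ℝ) : ℝ :=
  ∑ x : Fin N → A, (∏ i, π (x i)) * F x

end Crest.Agent.R304
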