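import Crest.Agent.R304.Defs

/-!
# Row 304: reachability, components of two matchings, swaps
-/

set_option autoImplicit false

namespace Crest.Agent.R304

open Finset

variable {n : ℕ}

theorem Inv_grow_iff {R : Fin n → Fin n → Bool} {K : Fin n → Bool} {u : Fin n} :
    grow R K u = true ↔ K u = true ∨ ∃ w, K w = true ∧ R w u = true := by
  simp [grow]

theorem Inv_sound (R : Fin n → Fin n → Bool) (v : Fin n) (i : ℕ) : ∀ u,
    (grow R)^[i] (fun u => decide (u = v)) u = true →
      Relation.ReflTransGen (fun a b => R a b = true) v u := by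
  induction i with
  | zero =>
    intro u hu
    have : u = v := by simpa using hu
    rw [this]
  | succ i ih =>
    intro u hu
    rw [Function.iterate_succ_apply', Inv_grow_iff] at hu
    rcases hu with h | ⟨w, h1, h2⟩
    · exact ih u h
    · exact (ih w h1).tail h2

theorem Inv_mem (R : Fin n → Fin n → Bool) (v : Fin n) (i : ℕ) :
    (grow R)^[i] (fun u => decide (u = v)) v = true := by
  induction i with
  | zero => simp
  | succ i ih => rw [Function.iterate_succ_apply', Inv_grow_iff]; exact Or.inl ih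

theorem Inv_card (R : Fin n → Fin n → Bool) (v : Fin n) (i : ℕ) :
    grow R ((grow R)^[i] fun u => decide (u = v)) = (grow R)^[i] (fun u => decide (u = v)) ∨
      i + 1 ≤ (univ.filter fun u => (grow R)^[i] (fun u => decide (u = v)) u = true).card := by
  induction i with
  | zero => exact Or.inr (card_pos.2 ⟨v, by simp⟩)
  | succ i ih =>
    rw [Function.iterate_succ_apply']
    generalize ((grow R)^[i] fun u => decide (u = v)) = K at ih ⊢
    by_cases h : grow R K = K
    · left; rw [h, h]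
    · right
      have h1 := ih.resolve_left h
      have h2 : (univ.filter fun u => K u = true) ⊂ univ.filter fun u => grow R K u = true := by
        refine ⟨fun u hu => ?_, fun h' => h (funext fun u => ?_)⟩
        · rw [mem_filter] at hu ⊢
          exact ⟨hu.1, Inv_grow_iff.2 (Or.inl hu.2)⟩
        · rw [Bool.eq_iff_iff]
          exact ⟨fun hu => (mem_filter.1 (h' (mem_filter.2 ⟨mem_univ u, hu⟩))).2,
            fun hu => Inv_grow_iff.2 (Or.inl hu)⟩
      have := card_lt_card h2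
      omega

theorem Inv_stable (R : Fin n → Fin n → Bool) (v : Fin n) :
    grow R ((grow R)^[n] fun u => decide (u = v)) = (grow R)^[n] fun u => decide (u = v) := by
  refine (Inv_card R v n).resolve_right fun h => ?_
  have := card_le_univ (univ.filter fun u => (grow R)^[n] (fun u => decide (u = v)) u = true)
  rw [Fintype.card_fin] at this
  omega

theorem reach_iff (R : Fin n → Fin n → Bool) (v u : Fin n) :
    reach R v u = true ↔ Relation.ReflTransGen (fun a b => R a b = true) v u := by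
  constructor
  · exact Inv_sound R v n u
  · intro h
    have h1 := Inv_stable R v
    induction h with
    | refl => exact Inv_mem R v n
    | tail _ hR ih =>
      unfold reach at ih ⊢
      rw [← h1]
      exact Inv_grow_iff.2 (Or.inr ⟨_, ih, hR⟩)

theorem mem_fixs {σ : Fn n} {v : Fin n} : v ∈ fixs σ ↔ σ v = v := by simp [fixs]

theorem IsInv.inj {σ : Fn n} (h : IsInv σ) : Function.Injective σ :=
  Function.Involutive.injective h

theorem IsInv.eq_iff {σ : Fn n} (h : IsInv σ) {u v : Fin n} : σ u = v ↔ σ v = u :=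
  ⟨fun e => e ▸ h u, fun e => e ▸ h v⟩

theorem isPM_iff {σ : Fn n} : IsPM σ ↔ IsInv σ ∧ fixs σ = ∅ := by
  simp [IsPM, fixs, filter_eq_empty_iff]

theorem isPM_sig0 (h : Even n) : IsPM (sig0 h) := by
  have key : ∀ v : Fin n, (sig0 h v : ℕ) = if (v : ℕ) % 2 = 0 then (v : ℕ) + 1 else v - 1 := by
    intro v
    unfold sig0
    split_ifs <;> rfl
  refine ⟨fun v => Fin.ext ?_, fun v hv => ?_⟩
  · rw [key, key]
    split_ifs <;> omega
  · have := key v
    rw [hv] at this
    split_ifs at this <;> omega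

/-- A set closed under an involution has the parity of its number of fixed points. -/
theorem card_closed_mod {σ : Fn n} (h : IsInv σ) {S : Finset (Fin n)} (hS : ∀ v ∈ S, σ v ∈ S) :
    S.card % 2 = (S.filter fun v => σ v = v).card % 2 := by
  have h1 := card_filter_add_card_filter_not (s := S) fun v => σ v = v
  have h2 : ∑ _v ∈ S.filter (fun v => ¬ σ v = v), (1 : ZMod 2) = 0 :=
    sum_involution (fun v _ => σ v) (fun _ _ => rfl) (fun v hv _ => (mem_filter.1 hv).2)
      (fun v hv => mem_filter.2 ⟨hS v (mem_filter.1 hv).1,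
        fun e => (mem_filter.1 hv).2 (h.inj e)⟩) fun v _ => h v
  rw [sum_const, nsmul_eq_mul, mul_one, ZMod.natCast_eq_zero_iff] at h2
  omega

theorem IsPM.even {σ : Fn n} (h : IsPM σ) : Even n := by
  have h1 := card_closed_mod h.1 (S := univ) fun _ _ => mem_univ _
  rw [card_univ, Fintype.card_fin, filter_eq_empty_iff.2 fun v _ => h.2 v, card_empty] at h1
  exact Nat.even_iff.2 h1

theorem Inv_orb_iff {σ τ : Fn n} {v u : Fin n} :
    orb σ τ v u = true ↔ Relation.ReflTransGen (fun a b => b = σ a ∨ b = τ a) v u := by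
  simp only [orb, reach_iff, decide_eq_true_eq]

theorem orb_self (σ τ : Fn n) (v : Fin n) : orb σ τ v v = true := by
  exact Inv_orb_iff.2 Relation.ReflTransGen.refl

theorem orb_comm (σ τ : Fn n) (v : Fin n) : orb σ τ v = orb τ σ v := by
  simp only [orb, or_comm]

theorem orb_closed_left {σ τ : Fn n} (hσ : IsInv σ) (hτ : IsInv τ) (v : Fin n) :
    Closed (orb σ τ v) σ := by
  have _ := hτ
  have key : ∀ u, orb σ τ v u = true → orb σ τ v (σ u) = true := fun u hu =>
    Inv_orb_iff.2 ((Inv_orb_iff.1 hu).tail (Or.inl rfl))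
  intro u
  rw [Bool.eq_iff_iff]
  exact ⟨fun h => by simpa only [hσ u] using key _ h, key u⟩

theorem orb_closed_right {σ τ : Fn n} (hσ : IsInv σ) (hτ : IsInv τ) (v : Fin n) :
    Closed (orb σ τ v) τ := by
  rw [orb_comm]; exact orb_closed_left hτ hσ v

/-- Induction principle: the component is the least set containing `v` and stable under both maps. -/
theorem orb_ind {σ τ : Fn n} {v : Fin n} {p : Fin n → Prop} (h0 : p v) (h1 : ∀ u, p u → p (σ u))
    (h2 : ∀ u, p u → p (τ u)) {u : Fin n} (hu : orb σ τ v u = true) : p u := by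
  rw [Inv_orb_iff] at hu
  induction hu with
  | refl => exact h0
  | tail _ hR ih =>
    rcases hR with rfl | rfl
    exacts [h1 _ ih, h2 _ ih]

theorem orb_eq {σ τ : Fn n} (hσ : IsInv σ) (hτ : IsInv τ) {v u : Fin n}
    (h : orb σ τ v u = true) : orb σ τ u = orb σ τ v := by
  have hv : orb σ τ u v = true := by
    refine orb_ind (p := fun w => orb σ τ w v = true) (orb_self σ τ v) (fun w hw => ?_)
      (fun w hw => ?_) h
    · exact Inv_orb_iff.2 ((Inv_orb_iff.1 hw).head (Or.inl (hσ w).symm))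
    · exact Inv_orb_iff.2 ((Inv_orb_iff.1 hw).head (Or.inr (hτ w).symm))
  rw [Inv_orb_iff] at h hv
  funext w
  rw [Bool.eq_iff_iff, Inv_orb_iff, Inv_orb_iff]
  exact ⟨fun h' => h.trans h', fun h' => hv.trans h'⟩

theorem mix_inv {K : Fin n → Bool} {σ τ : Fn n} (hσ : IsInv σ) (hτ : IsInv τ) (h1 : Closed K σ)
    (h2 : Closed K τ) : IsInv (mix K σ τ) := by
  intro v
  unfold mix
  by_cases h : K v = true
  · rw [if_pos h, if_pos (by rw [h2 v, h]), hτ v]
  · rw [if_neg h, if_neg (by rw [h1 v]; exact h), hσ v]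

theorem mix_pm {K : Fin n → Bool} {σ τ : Fn n} (hσ : IsPM σ) (hτ : IsPM τ) (h1 : Closed K σ)
    (h2 : Closed K τ) : IsPM (mix K σ τ) := by
  refine ⟨mix_inv hσ.1 hτ.1 h1 h2, fun v => ?_⟩
  unfold mix
  split_ifs
  exacts [hτ.2 v, hσ.2 v]

theorem mix_mix (K : Fin n → Bool) (σ τ : Fn n) : mix K (mix K σ τ) (mix K τ σ) = σ := by
  funext v
  unfold mix
  split_ifs <;> rfl

theorem orb_mix (K : Fin n → Bool) (σ τ : Fn n) (v : Fin n) :
    orb (mix K σ τ) (mix K τ σ) v = orb σ τ v := by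
  unfold orb
  congr 1
  funext a b
  unfold mix
  split_ifs
  · simp only [or_comm]
  · rfl

theorem nfix_mix (K : Fin n → Bool) (σ τ : Fn n) :
    nfix (mix K σ τ) + ((fixs σ).filter fun v => K v = true).card =
      nfix σ + ((fixs τ).filter fun v => K v = true).card := by
  simp only [nfix, fixs, filter_filter, card_filter, ← sum_add_distrib]
  refine sum_congr rfl fun v _ => ?_
  unfold mix
  by_cases h : K v = true
  · simp only [h, if_true, and_true]; omega
  · simp only [h, and_false, if_false, Bool.false_eq_true]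

theorem Inv_param {σ τ : Fn n} (hσ : IsInv σ) (hτ : IsInv τ) {c : Fin n} (hc : τ c = c) :
    ∃ (x : ℤ → Fin n) (p : ℤ), 0 < p ∧ x 0 = c ∧ (∀ i j, x i = x j ↔ p ∣ i - j) ∧
      (∀ i, σ (x i) = x (1 - i)) ∧ (∀ i, τ (x i) = x (-i)) ∧
      ∀ u, orb σ τ c u = true ↔ ∃ i, u = x i := by
  let S : Equiv.Perm (Fin n) := Function.Involutive.toPerm σ hσ
  let T : Equiv.Perm (Fin n) := Function.Involutive.toPerm τ hτ
  have hS : S * S = 1 := Equiv.ext hσ
  have hT : T * T = 1 := Equiv.ext hτ
  have e1 : T * (S * T) * T⁻¹ = (S * T)⁻¹ := by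
    rw [mul_inv_rev, inv_eq_of_mul_eq_one_right hS, inv_eq_of_mul_eq_one_right hT,
      mul_assoc, mul_assoc, hT, mul_one]
  have e2 : ∀ i : ℤ, T * (S * T) ^ i = (S * T) ^ (-i) * T := fun i => by
    rw [zpow_neg, ← inv_zpow, ← e1, conj_zpow, inv_mul_cancel_right]
  have ht : ∀ i : ℤ, τ (((S * T) ^ i) c) = ((S * T) ^ (-i)) c := fun i => by
    have h := congrArg (fun f : Equiv.Perm (Fin n) => f c) (e2 i)
    simp only [Equiv.Perm.mul_apply] at h
    rw [show T c = c from hc] at h
    exact h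
  have hs : ∀ i : ℤ, σ (((S * T) ^ i) c) = ((S * T) ^ (1 - i)) c := fun i => by
    rw [sub_eq_add_neg, zpow_add, zpow_one, Equiv.Perm.mul_apply, ← ht, Equiv.Perm.mul_apply]
    exact congrArg σ (hτ _).symm
  refine ⟨fun i => ((S * T) ^ i) c, MulAction.period (S * T) c, ?_, by simp, fun i j => ?_, hs, ht,
    fun u => ⟨fun hu => ?_, ?_⟩⟩
  · exact_mod_cast MulAction.period_pos_of_orderOf_pos (orderOf_pos (S * T)) c
  · rw [← MulAction.zpow_smul_eq_iff_period_dvd, sub_eq_neg_add, zpow_add, zpow_neg, mul_smul,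
      inv_smul_eq_iff]
    rfl
  · refine orb_ind (p := fun u => ∃ i : ℤ, u = ((S * T) ^ i) c) ⟨0, by simp⟩ ?_ ?_ hu
    · rintro _ ⟨i, rfl⟩
      exact ⟨_, hs i⟩
    · rintro _ ⟨i, rfl⟩
      exact ⟨_, ht i⟩
  · rintro ⟨i, rfl⟩
    have k1 := orb_closed_left hσ hτ c
    have k2 := orb_closed_right hσ hτ c
    induction i using Int.induction_on with
    | zero => simpa using orb_self σ τ c
    | succ i ih =>
      rw [← k2, ht, ← k1, hs] at ih
      rwa [show (i : ℤ) + 1 = 1 - -(i : ℤ) by ring]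
    | pred i ih =>
      rw [← k1, hs, ← k2, ht] at ih
      rwa [show -(i : ℤ) - 1 = -(1 - -(i : ℤ)) by ring]

/-- The component of a vertex `c` exposed in `τ` is a path: either it contains exactly one vertex
exposed in `σ` and no second vertex exposed in `τ`, or it contains no vertex exposed in `σ` and
exactly two vertices exposed in `τ`. -/
theorem dihedral {σ τ : Fn n} (hσ : IsInv σ) (hτ : IsInv τ) {c : Fin n} (hc : τ c = c) :
    (((fixs σ).filter fun v => orb σ τ c v = true).card = 1 ∧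
      ((fixs τ).filter fun v => orb σ τ c v = true) = {c}) ∨
    (((fixs σ).filter fun v => orb σ τ c v = true) = ∅ ∧
      ((fixs τ).filter fun v => orb σ τ c v = true).card = 2) := by
  obtain ⟨x, p, hp, h0, hx, hs, ht, horb⟩ := Inv_param hσ hτ hc
  have fs : ∀ j, σ (x j) = x j ↔ p ∣ 1 - 2 * j := fun j => by
    rw [hs, hx, show 1 - j - j = 1 - 2 * j by ring]
  have ft : ∀ j, τ (x j) = x j ↔ p ∣ 2 * j := fun j => by
    rw [ht, hx, show -j - j = -(2 * j) by ring, dvd_neg]
  rcases Int.even_or_odd' p with ⟨m, hm | hm⟩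
  · right
    refine ⟨filter_eq_empty_iff.2 fun u hu hu' => ?_, card_eq_two.2 ⟨x 0, x m, ?_, ?_⟩⟩
    · obtain ⟨j, rfl⟩ := (horb u).1 hu'
      obtain ⟨t, h⟩ := (fs j).1 (mem_fixs.1 hu)
      rw [hm, mul_assoc] at h
      omega
    · rw [Ne, hx, zero_sub, dvd_neg]
      intro h
      have := Int.le_of_dvd (by omega) h
      omega
    · ext u
      rw [mem_filter, mem_fixs, horb, mem_insert, mem_singleton]
      constructor
      · rintro ⟨h, j, rfl⟩
        obtain ⟨t, h⟩ := (ft j).1 h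
        rw [hm, mul_assoc] at h
        have h1 : j = m * t := by omega
        rcases Int.even_or_odd' t with ⟨r, hr | hr⟩
        · exact Or.inl ((hx _ _).2 ⟨r, by rw [h1, hm, hr]; ring⟩)
        · exact Or.inr ((hx _ _).2 ⟨r, by rw [h1, hm, hr]; ring⟩)
      · rintro (rfl | rfl)
        · exact ⟨(ft 0).2 (by simp), 0, rfl⟩
        · exact ⟨(ft m).2 (by rw [hm]), m, rfl⟩
  · left
    have half : ∀ k : ℤ, p ∣ 2 * k → p ∣ k := fun k hk => by
      have e : k = p * k - m * (2 * k) := by rw [hm]; ring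
      rw [e]
      exact dvd_sub (dvd_mul_right _ _) (hk.mul_left _)
    have hm1 : p ∣ 1 - 2 * (m + 1) := ⟨-1, by rw [hm]; ring⟩
    refine ⟨card_eq_one.2 ⟨x (m + 1), ?_⟩, ?_⟩
    · ext u
      rw [mem_filter, mem_fixs, horb, mem_singleton]
      constructor
      · rintro ⟨h, j, rfl⟩
        rw [hx]
        apply half
        have := dvd_sub hm1 ((fs j).1 h)
        rwa [show 1 - 2 * (m + 1) - (1 - 2 * j) = 2 * (j - (m + 1)) by ring] at this
      · rintro rfl
        exact ⟨(fs _).2 hm1, _, rfl⟩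
    · ext u
      rw [mem_filter, mem_fixs, horb, mem_singleton]
      constructor
      · rintro ⟨h, j, rfl⟩
        rw [← h0, hx, sub_zero]
        exact half _ ((ft j).1 h)
      · rintro rfl
        exact ⟨hc, 0, h0.symm⟩

theorem rem_inv {σ : Fn n} (h : IsInv σ) (u : Fin n) : IsInv (rem σ u) := by
  intro v
  unfold rem
  by_cases h1 : v = u ∨ v = σ u
  · rw [if_pos h1, if_pos h1]
  · rw [if_neg h1, if_neg, h v]
    rintro (e | e)
    · exact h1 (Or.inr (h.eq_iff.1 e).symm)
    · exact h1 (Or.inl (h.inj e))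

theorem fixs_rem {σ : Fn n} (h : IsInv σ) (u : Fin n) :
    fixs (rem σ u) = insert u (insert (σ u) (fixs σ)) := by
  have _ := h
  ext v
  simp only [mem_fixs, mem_insert, rem]
  split_ifs with h1 <;> tauto

theorem nfix_rem {σ : Fn n} (h : IsInv σ) {u : Fin n} (hu : σ u ≠ u) :
    nfix (rem σ u) = nfix σ + 2 := by
  unfold nfix
  rw [fixs_rem h, card_insert_of_notMem, card_insert_of_notMem]
  · rw [mem_fixs, h u]; exact hu.symm
  · rw [mem_insert, mem_fixs, not_or]; exact ⟨hu.symm, hu⟩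

theorem rem_of_fix {σ : Fn n} {u : Fin n} (hu : σ u = u) : rem σ u = σ := by
  funext v
  unfold rem
  split_ifs with h
  · rw [hu, or_self] at h
    rw [h, hu]
  · rfl

theorem ins_inv {σ : Fn n} (h : IsInv σ) {u w : Fin n} (hu : σ u = u) (hw : σ w = w) :
    IsInv (ins σ u w) := by
  intro v
  by_cases h1 : v = u
  · subst h1
    by_cases h2 : w = v <;> simp [ins, h2]
  · by_cases h2 : v = w
    · subst h2
      simp [ins, h1]
    · have h3 : σ v ≠ u := fun e => h1 (by rw [← h.eq_iff.1 e, hu])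
      have h4 : σ v ≠ w := fun e => h2 (by rw [← h.eq_iff.1 e, hw])
      simp [ins, h1, h2, h3, h4, h v]

theorem fixs_ins {σ : Fn n} {u w : Fin n} (huw : u ≠ w) :
    fixs (ins σ u w) = ((fixs σ).erase u).erase w := by
  ext v
  simp only [mem_fixs, mem_erase, ins]
  split_ifs with h1 h2
  · subst h1; simp [huw.symm]
  · subst h2; simp [huw]
  · simp [h1, h2]

theorem nfix_ins {σ : Fn n} {u w : Fin n} (hu : σ u = u) (hw : σ w = w) (huw : u ≠ w) :
    nfix (ins σ u w) + 2 = nfix σ := by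
  unfold nfix
  have h1 : u ∈ fixs σ := mem_fixs.2 hu
  have h2 : w ∈ (fixs σ).erase u := mem_erase.2 ⟨huw.symm, mem_fixs.2 hw⟩
  rw [fixs_ins huw, ← card_erase_add_one h1, ← card_erase_add_one h2]

theorem ins_rem {σ : Fn n} (h : IsInv σ) (u : Fin n) : ins (rem σ u) u (σ u) = σ := by
  funext v
  unfold ins rem
  by_cases h1 : v = u
  · rw [if_pos h1, h1]
  · by_cases h2 : v = σ u
    · rw [if_neg h1, if_pos h2, h2, h u]
    · rw [if_neg h1, if_neg h2, if_neg (not_or.2 ⟨h1, h2⟩)]

theorem rem_ins {σ : Fn n} {u w : Fin n} (hu : σ u = u) (hw : σ w = w) :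
    rem (ins σ u w) u = σ := by
  funext v
  have e : ins σ u w u = w := if_pos rfl
  unfold rem
  rw [e]
  split_ifs with h
  · rcases h with rfl | rfl
    exacts [hu.symm, hw.symm]
  · rw [not_or] at h
    unfold ins
    rw [if_neg h.1, if_neg h.2]

theorem cj_cj (a b : Fin n) (σ : Fn n) : cj a b (cj a b σ) = σ := by
  funext v
  simp only [cj, Equiv.swap_apply_self]

theorem cj_inv {σ : Fn n} (h : IsInv σ) (a b : Fin n) : IsInv (cj a b σ) := by
  intro v
  simp only [cj, Equiv.swap_apply_self, h _]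

theorem cj_pm {σ : Fn n} (h : IsPM σ) (a b : Fin n) : IsPM (cj a b σ) := by
  refine ⟨cj_inv h.1 a b, fun v hv => h.2 (Equiv.swap a b v) ?_⟩
  have := congrArg (Equiv.swap a b) hv
  simpa only [cj, Equiv.swap_apply_self] using this

theorem cj_self (a : Fin n) (σ : Fn n) : cj a a σ = σ := by
  funext v
  simp [cj]

theorem cj_edge {σ : Fn n} (h : IsInv σ) (a : Fin n) : cj a (σ a) σ = σ := by
  funext v
  unfold cj
  by_cases h1 : v = a
  · rw [h1, Equiv.swap_apply_left, h a, Equiv.swap_apply_left]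
  · by_cases h2 : v = σ a
    · rw [h2, Equiv.swap_apply_right, Equiv.swap_apply_right, h a]
    · rw [Equiv.swap_apply_of_ne_of_ne h1 h2, Equiv.swap_apply_of_ne_of_ne]
      · exact fun e => h2 (h.eq_iff.1 e).symm
      · exact fun e => h1 (h.inj e)

/-- The 2-switch pointwise. -/
theorem cj_apply {σ : Fn n} (h : IsPM σ) {a b : Fin n} (hab : a ≠ b) (hab' : σ a ≠ b) (v : Fin n) :
    cj a b σ v = if v = a then σ b else if v = b then σ a else if v = σ a then b
      else if v = σ b then a else σ v := by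
  have _ := hab
  have hba : σ b ≠ a := fun e => hab' (h.1.eq_iff.1 e)
  unfold cj
  split_ifs with h1 h2 h3 h4
  · rw [h1, Equiv.swap_apply_left, Equiv.swap_apply_of_ne_of_ne hba (h.2 b)]
  · rw [h2, Equiv.swap_apply_right, Equiv.swap_apply_of_ne_of_ne (h.2 a) hab']
  · rw [Equiv.swap_apply_of_ne_of_ne h1 h2, h3, h.1 a, Equiv.swap_apply_left]
  · rw [Equiv.swap_apply_of_ne_of_ne h1 h2, h4, h.1 b, Equiv.swap_apply_right]
  · rw [Equiv.swap_apply_of_ne_of_ne h1 h2, Equiv.swap_apply_of_ne_of_ne]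
    · exact fun e => h3 (h.1.eq_iff.1 e).symm
    · exact fun e => h4 (h.1.eq_iff.1 e).symm

/-- The 2-switch on perfect matchings. -/
def cjP (a b : Fin n) (σ : PM n) : PM n := ⟨cj a b σ.1, cj_pm σ.2 a b⟩

/-- The swap of two perfect matchings on the component of `v`. -/
def kem (v : Fin n) (s : PM n × PM n) : PM n × PM n :=
  (⟨mix (orb s.1.1 s.2.1 v) s.1.1 s.2.1, mix_pm s.1.2 s.2.2
      (orb_closed_left s.1.2.1 s.2.2.1 v) (orb_closed_right s.1.2.1 s.2.2.1 v)⟩,
    ⟨mix (orb s.1.1 s.2.1 v) s.2.1 s.1.1, mix_pm s.2.2 s.1.2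
      (orb_closed_right s.1.2.1 s.2.2.1 v) (orb_closed_left s.1.2.1 s.2.2.1 v)⟩)

/-- Force the edge `u v` into a perfect matching and join the two vertices left over. -/
def force (σ : PM n) (u v : Fin n) : PM n := cjP (σ.1 u) v σ

/-- The moves on pairs of perfect matchings. -/
def mv (r : Fin 9 → Fin n) (s : PM n × PM n) : PM n × PM n :=
  (cjP (r 5) (r 6) (kem (r 4) (cjP (r 0) (r 1) s.1, cjP (r 2) (r 3) s.2)).1,
    cjP (r 7) (r 8) (kem (r 4) (cjP (r 0) (r 1) s.1, cjP (r 2) (r 3) s.2)).2)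

/-- The marks of the inverse move. -/
def rinv (r : Fin 9 → Fin n) : Fin 9 → Fin n := fun i => r (![5, 6, 7, 8, 4, 0, 1, 2, 3] i)

theorem cjP_cjP (a b : Fin n) (σ : PM n) : cjP a b (cjP a b σ) = σ := Subtype.ext (cj_cj a b σ.1)

theorem kem_kem (v : Fin n) (s : PM n × PM n) : kem v (kem v s) = s := by
  refine Prod.ext (Subtype.ext ?_) (Subtype.ext ?_)
  · simp only [kem, orb_mix, mix_mix]
  · simp only [kem, orb_mix, mix_mix]

theorem kem_swap (v : Fin n) (s : PM n × PM n) : kem v s.swap = (kem v s).swap := by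
  refine Prod.ext (Subtype.ext ?_) (Subtype.ext ?_)
  · simp only [kem, Prod.fst_swap, Prod.snd_swap, orb_comm s.2.1 s.1.1]
  · simp only [kem, Prod.fst_swap, Prod.snd_swap, orb_comm s.2.1 s.1.1]

theorem rinv_rinv (r : Fin 9 → Fin n) : rinv (rinv r) = r := by
  funext i
  fin_cases i <;> rfl

theorem mv_rinv (r : Fin 9 → Fin n) (s : PM n × PM n) : mv (rinv r) (mv r s) = s := by
  change (cjP (r 0) (r 1) (kem (r 4) (cjP (r 5) (r 6) (mv r s).1, cjP (r 7) (r 8) (mv r s).2)).1,
    cjP (r 2) (r 3) (kem (r 4) (cjP (r 5) (r 6) (mv r s).1, cjP (r 7) (r 8) (mv r s).2)).2) = s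
  simp only [mv, cjP_cjP, Prod.mk.eta, kem_kem]

theorem mv_bijective (r : Fin 9 → Fin n) : Function.Bijective (mv r) := by
  refine Function.bijective_iff_has_inverse.2 ⟨mv (rinv r), mv_rinv r, fun s => ?_⟩
  have := mv_rinv (rinv r) s
  rwa [rinv_rinv] at this

theorem force_apply (σ : PM n) {u v : Fin n} (huv : u ≠ v) : (force σ u v).1 u = v := by
  change Equiv.swap (σ.1 u) v (σ.1 (Equiv.swap (σ.1 u) v u)) = v
  rw [Equiv.swap_apply_of_ne_of_ne (σ.2.2 u).symm huv, Equiv.swap_apply_left]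

theorem force_apply_other (σ : PM n) {u v : Fin n} (huv : u ≠ v) (h : σ.1 u ≠ v) :
    (force σ u v).1 (σ.1 u) = σ.1 v := by
  change Equiv.swap (σ.1 u) v (σ.1 (Equiv.swap (σ.1 u) v (σ.1 u))) = σ.1 v
  have _ := h
  rw [Equiv.swap_apply_left,
    Equiv.swap_apply_of_ne_of_ne (fun e => huv (σ.2.1.inj e).symm) (σ.2.2 v)]

theorem force_apply_rest (σ : PM n) {u v w : Fin n} (h1 : w ≠ u) (h2 : w ≠ v) (h3 : w ≠ σ.1 u)
    (h4 : w ≠ σ.1 v) : (force σ u v).1 w = σ.1 w := by
  change Equiv.swap (σ.1 u) v (σ.1 (Equiv.swap (σ.1 u) v w)) = σ.1 w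
  rw [Equiv.swap_apply_of_ne_of_ne h3 h2,
    Equiv.swap_apply_of_ne_of_ne (fun e => h1 (σ.2.1.inj e)) fun e => h4 (σ.2.1.eq_iff.1 e).symm]

theorem force_of_edge (σ : PM n) (u : Fin n) : force σ u (σ.1 u) = σ := by
  exact Subtype.ext (cj_self _ _)

end Crest.Agent.R304
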