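import Crest.Agent.R309.Tape
import Crest.Agent.R304.Inv

/-!
# Row 304: polynomial-time families with values in types depending on the input

`DP f` (`f : ∀ a, β a`): the code of `f a` is polynomial-time computable from `a`.  Inside a loop
or a binder the index type is `Σ a, β a`; transport hypotheses with `.comp poly_fst` and use
`DP.snd` for the bound variable.  (The first part is adapted from `R37/Enc.lean`.)
-/

set_option autoImplicit false
set_option linter.unusedVariables false

namespace Crest.Agent.R304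

open Finset Crest.Agent.Lib.PolyTime Crest.Agent.R309

scoped instance instPEncFun {n : ℕ} {β : Type} [PEnc β] : PEnc (Fin n → β) :=
  PEnc.ofInj List.ofFn List.ofFn_injective

theorem enc_fun {n : ℕ} {β : Type} [PEnc β] (v : Fin n → β) : enc v = enc (List.ofFn v) := rfl

theorem sz_fun_le {n : ℕ} {β : Type} [PEnc β] {v : Fin n → β} {B : ℕ} (h : ∀ i, sz (v i) ≤ B) :
    sz v ≤ n * (B + 1) + 1 := by
  have := sz_list_le (l := List.ofFn v) (B := B) (by
    intro x hx
    obtain ⟨i, rfl⟩ := (List.mem_ofFn' _ _).1 hx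
    exact h i)
  rwa [List.length_ofFn] at this

theorem sz_natFun_le {n : ℕ} {v : Fin n → ℕ} {B : ℕ} (h : ∀ i, v i ≤ B) :
    sz v ≤ n * (4 * B + 2) + 1 :=
  sz_fun_le (B := 4 * B + 1) fun i => (sz_le_self _).trans (by have := h i; omega)

variable {α α' : Type} [PEnc α] [PEnc α']

/-- Dependent polynomial-time families. -/
def DP {β : α → Type} [∀ a, PEnc (β a)] (f : ∀ a, β a) : Prop := Poly fun a => enc (f a)

theorem poly_const {δ : Type} [PEnc δ] (d : δ) : Poly fun _ : α => d := Lib.PolyTime.Poly.const d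

theorem poly_fst {β : α → Type} [∀ a, PEnc (β a)] : Poly fun p : Σ a, β a => p.1 :=
  Poly.id'.sigmaFst

theorem poly_val {p : α → Prop} : Poly fun a : {a // p a} => a.1 := Poly.restrict Poly.id' p

namespace DP
variable {β γ : α → Type} [∀ a, PEnc (β a)] [∀ a, PEnc (γ a)] {δ : Type} [PEnc δ]
  {n n' : α → ℕ}

theorem of_poly {f : α → δ} (h : Poly f) : DP f := h.enc'

theorem poly {f : α → δ} (h : DP f) : Poly f := Poly.of_enc h fun _ => rfl

theorem congr {f g : ∀ a, β a} (h : DP f) (e : ∀ a, f a = g a) : DP g :=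
  Poly.congr h fun a => by rw [e a]

theorem comp {f : ∀ a, β a} (h : DP f) {g : α' → α} (hg : Poly g) : DP fun b => f (g b) :=
  Poly.comp (f := fun a => enc (f a)) h hg

theorem pb_sz {f : ∀ a, β a} (h : DP f) : PB fun a => sz (f a) := Poly.pb_sz h

theorem poly_sz {f : ∀ a, β a} (h : DP f) : Poly fun a => sz (f a) := Poly.sz' h

/-- The second component of a dependent pair. -/
theorem snd : DP fun p : Σ a, β a => p.2 := Poly.id'.sigmaSnd_enc

/-- Form the dependent pair. -/
theorem sigma {g : α' → α} (hg : Poly g) {f : ∀ b, β (g b)} (hf : DP f) :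
    Poly fun b => (⟨g b, f b⟩ : Σ a, β a) := Poly.sigmaMk hg hf

/-- Apply a family on dependent pairs. -/
theorem app₂ {F : ∀ a, β a → γ a} (hF : DP fun p : Σ a, β a => F p.1 p.2) {f : ∀ a, β a}
    (hf : DP f) : DP fun a => F a (f a) := hF.comp (sigma Poly.id' hf)

theorem pair {f : ∀ a, β a} {g : ∀ a, γ a} (hf : DP f) (hg : DP g) : DP fun a => (f a, g a) :=
  Poly.node hf hg

theorem fst {f : ∀ a, β a × γ a} (hf : DP f) : DP fun a => (f a).1 := Poly.left hf

theorem snd' {f : ∀ a, β a × γ a} (hf : DP f) : DP fun a => (f a).2 := Poly.right hf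

theorem ite {p : α → Prop} [DecidablePred p] (hp : Poly fun a => decide (p a)) {f g : ∀ a, β a}
    (hf : DP f) (hg : DP g) : DP fun a => if p a then f a else g a :=
  (Poly.ite hp hf hg).congr fun a => by by_cases h : p a <;> simp [h]

theorem inl {f : ∀ a, β a} (hf : DP f) : DP fun a => (Sum.inl (f a) : β a ⊕ γ a) :=
  (Poly.inl (γ := V) hf).of_enc fun _ => rfl

theorem inr {f : ∀ a, γ a} (hf : DP f) : DP fun a => (Sum.inr (f a) : β a ⊕ γ a) :=
  (Poly.inr (β := V) hf).of_enc fun _ => rfl

theorem some {f : ∀ a, β a} (hf : DP f) : DP fun a => some (f a) :=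
  (Poly.some hf).of_enc fun _ => rfl

theorem none : DP fun a => (none : Option (β a)) :=
  (poly_const (Option.none : Option V)).of_enc fun _ => rfl

theorem decide_eq {f g : ∀ a, β a} (hf : DP f) (hg : DP g) [∀ a, Decidable (f a = g a)] :
    Poly fun a => decide (f a = g a) :=
  Poly.decide_congr (Poly.decide_eq hf hg) fun _ => enc_inj

/-- Case distinction on an optional value. -/
theorem optionElim {o : ∀ a, Option (β a)} (ho : DP o) {f : ∀ a, γ a} {g : ∀ a, β a → γ a}
    (hf : DP f) (hg : DP fun p : Σ a, β a => g p.1 p.2) : DP fun a => (o a).elim (f a) (g a) := by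
  have hc : Poly fun a => (o a).isSome :=
    (Poly.isSome (β := V) (o := fun a => (o a).map enc) (Poly.of_enc ho fun a => by
      cases o a <;> rfl)).congr fun a => by simp
  refine Poly.dcond hc ?_ ?_
  · have h1 : DP fun a : {a // (o a).isSome = true} => (o a.1).get a.2 :=
      Poly.of_enc (Poly.left (Poly.restrict ho _)) fun a => by
        obtain ⟨a, h⟩ := a
        obtain ⟨x, hx⟩ := Option.isSome_iff_exists.1 h
        simp only [hx]
        rfl
    refine Poly.congr (hg.comp (sigma (g := fun a : {a // (o a).isSome = true} => a.1)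
      (Poly.restrict Poly.id' _) h1)) fun a => ?_
    obtain ⟨a, h⟩ := a
    obtain ⟨x, hx⟩ := Option.isSome_iff_exists.1 h
    simp [hx]
  · refine Poly.congr (Poly.restrict hf _) fun a => ?_
    obtain ⟨a, h⟩ := a
    have : o a = Option.none := by simpa using h
    simp [this]

theorem fin_iff {i : ∀ a, Fin (n a)} : DP i ↔ Poly fun a => (i a : ℕ) :=
  ⟨fun h => Poly.of_enc h fun _ => rfl, fun h => h.enc'⟩

theorem val {i : ∀ a, Fin (n a)} (h : DP i) : Poly fun a => (i a : ℕ) := fin_iff.1 h

/-- Build a vector from its entries. -/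
theorem fn (hn : Poly n) (hb : PB n) {v : ∀ a, Fin (n a) → β a}
    (h : DP fun p : Σ a, Fin (n a) => v p.1 p.2) : DP v :=
  (Poly.ofFn (f := fun a i => enc (v a i)) hn hb h).of_enc fun a => by
    rw [enc_fun, List.ofFn_eq_map, List.ofFn_eq_map]
    exact enc_map_congr fun _ _ => rfl

/-- Read an entry of a vector. -/
theorem app {v : ∀ a, Fin (n a) → β a} (h : DP v) {i : ∀ a, Fin (n a)} (hi : DP i) :
    DP fun a => v a (i a) :=
  Poly.app_fin (t := fun a i => enc (v a i)) (Poly.of_enc h fun a => by
    rw [enc_fun, List.ofFn_eq_map, List.ofFn_eq_map]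
    exact enc_map_congr fun _ _ => rfl) hi.val

/-- Build a vector with entries in a fixed type. -/
theorem fn' (hn : Poly n) (hb : PB n) {v : ∀ a, Fin (n a) → δ}
    (h : Poly fun p : Σ a, Fin (n a) => v p.1 p.2) : DP v := fn hn hb (of_poly h)

/-- Build a table with entries in a fixed type. -/
theorem fn₂ (hn : Poly n) (hb : PB n) (hn' : Poly n') (hb' : PB n')
    {v : ∀ a, Fin (n a) → Fin (n' a) → δ}
    (h : Poly fun q : Σ p : (Σ a, Fin (n a)), Fin (n' p.1) => v q.1.1 q.1.2 q.2) : DP v :=
  fn hn hb (fn' (n := fun p : Σ a, Fin (n a) => n' p.1) (hn'.comp poly_fst) (hb'.comp poly_fst) h)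

theorem ent [Inhabited δ] {v : ∀ a, Fin (n a) → δ} (h : DP v) :
    ∃ L : α → ℕ → δ, (Poly fun p : α × ℕ => L p.1 p.2) ∧ ∀ a i, v a i = L a i := by
  have h' : Poly fun a => List.ofFn (v a) := Poly.of_enc h fun _ => rfl
  refine ⟨fun a i => (List.ofFn (v a)).getD i default, ?_, fun a i => by simp⟩
  exact Poly.listGetD (h'.comp Poly.id'.fst) Poly.id'.snd (poly_const _)

theorem ent₂ [Inhabited δ] {v : ∀ a, Fin (n a) → Fin (n' a) → δ} (h : DP v) :
    ∃ L : α → ℕ → ℕ → δ, (Poly fun p : α × ℕ × ℕ => L p.1 p.2.1 p.2.2) ∧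
      ∀ a i j, v a i j = L a i j := by
  have h1 : DP fun a i => List.ofFn (v a i) := Poly.of_enc h fun a => by
    change enc (v a) = enc fun i => List.ofFn (v a i)
    rw [enc_fun, enc_fun, List.ofFn_eq_map, List.ofFn_eq_map]
    exact enc_map_congr fun _ _ => rfl
  obtain ⟨L, hL, eL⟩ := h1.ent
  refine ⟨fun a i j => (L a i).getD j default, by fun_prop, fun a i j => ?_⟩
  simp [← eL]

theorem entF {v : ∀ a, Fin (n a) → Fin (n' a)} (h : DP v) :
    ∃ L : α → ℕ → ℕ, (Poly fun p : α × ℕ => L p.1 p.2) ∧ ∀ a i, (v a i : ℕ) = L a i :=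
  ent (v := fun a i => (v a i : ℕ)) (Poly.of_enc h fun a => by
    change enc (v a) = enc fun i => (v a i : ℕ)
    rw [enc_fun, enc_fun, List.ofFn_eq_map, List.ofFn_eq_map]
    exact enc_map_congr fun _ _ => rfl)

/-- Loops with an invariant bounding the size on all inputs. -/
theorem iterate_inv {init : ∀ a, β a} {step : ∀ a, β a → β a} {T B : α → ℕ} (hi : DP init)
    (hs : DP fun p : Σ a, β a => step p.1 p.2) (hT : Poly T) (hT' : PB T) (hB : PB B)
    (hsz : ∀ a i, i ≤ T a → sz ((step a)^[i] (init a)) ≤ B a) :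
    DP fun a => (step a)^[T a] (init a) := by
  have key : ∀ a i, (fun p : Σ a, β a => (⟨p.1, step p.1 p.2⟩ : Σ a, β a))^[i] ⟨a, init a⟩ =
      ⟨a, (step a)^[i] (init a)⟩ := by
    intro a i
    induction i with
    | zero => rfl
    | succ i ih => rw [Function.iterate_succ_apply', ih, Function.iterate_succ_apply']
  have h := Poly.iterate (h := fun (_ : α) (p : Σ a, β a) => (⟨p.1, step p.1 p.2⟩ : Σ a, β a))
    hT hT' (sigma Poly.id' hi) ((sigma poly_fst hs).comp Poly.id'.snd)
    (B := fun a => sz a + B a + 1) ((PB.sz_id.add hB).add (PB.const 1)) fun a i hi => by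
      rw [key, sz_sigma]
      have := hsz a i hi
      dsimp only
      omega
  exact Poly.congr (snd.comp h) fun a => congrArg (fun p : Σ a, β a => enc p.2) (key a (T a))

/-! ### Lists -/

theorem enc_list {δ : Type} [PEnc δ] (l : List δ) : enc l = enc (l.map enc) := by
  conv_lhs => rw [← List.map_id l]
  exact enc_map_congr fun _ _ => rfl

theorem toV {l : ∀ a, List (β a)} (h : DP l) : Poly fun a => (l a).map enc :=
  Poly.of_enc h fun a => enc_list _

theorem ofV {l : ∀ a, List (β a)} (h : Poly fun a => (l a).map enc) : DP l :=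
  h.enc'.congr fun a => (enc_list _).symm

/-- Tag the members of a list with the input. -/
theorem lift {l : ∀ a, List (β a)} (h : DP l) :
    Poly fun a => (l a).map fun x => (⟨a, x⟩ : Σ a, β a) :=
  (h.toV.map (f := fun a x => (a, x)) (by fun_prop)).of_enc fun a => by
    rw [List.map_map]
    exact enc_map_congr fun _ _ => rfl

theorem unlift {l : ∀ a, List (β a)}
    (h : Poly fun a => (l a).map fun x => (⟨a, x⟩ : Σ a, β a)) : DP l :=
  ofV ((h.map (f := fun _ p => enc p.2) (Poly.comp (f := fun p : Σ a, β a => enc p.2) snd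
    Poly.id'.snd)).congr fun a => by rw [List.map_map]; rfl)

theorem nil : DP fun a => ([] : List (β a)) := ofV (poly_const ([] : List V))

theorem cons {x : ∀ a, β a} {l : ∀ a, List (β a)} (hx : DP x) (hl : DP l) :
    DP fun a => x a :: l a := ofV (Poly.cons hx hl.toV)

theorem append {l l' : ∀ a, List (β a)} (hl : DP l) (hl' : DP l') : DP fun a => l a ++ l' a :=
  ofV ((hl.toV.append hl'.toV).congr fun a => by simp)

theorem length {l : ∀ a, List (β a)} (hl : DP l) : Poly fun a => (l a).length :=
  hl.toV.length.congr fun a => by simp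

theorem pb_length {l : ∀ a, List (β a)} (hl : DP l) : PB fun a => (l a).length :=
  (PB.length hl.toV).mono fun a => by simp

theorem map {l : ∀ a, List (β a)} {f : ∀ a, β a → γ a} (hl : DP l)
    (hf : DP fun p : Σ a, β a => f p.1 p.2) : DP fun a => (l a).map (f a) :=
  ofV ((hl.lift.map (f := fun _ p => enc (f p.1 p.2))
    (Poly.comp (f := fun p : Σ a, β a => enc (f p.1 p.2)) hf Poly.id'.snd)).congr fun a => by
      simp [List.map_map, Function.comp_def])

theorem flatten {l : ∀ a, List (List (β a))} (hl : DP l) : DP fun a => (l a).flatten := by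
  have h : Poly fun a => (l a).map fun x => x.map enc := Poly.of_enc hl fun a => by
    conv_lhs => rw [← List.map_id (l a)]
    exact enc_map_congr fun _ _ => enc_list _
  exact ofV (h.flatten.congr fun a => by rw [List.map_flatten])

theorem flatMap {l : ∀ a, List (β a)} {f : ∀ a, β a → List (γ a)} (hl : DP l)
    (hf : DP fun p : Σ a, β a => f p.1 p.2) : DP fun a => (l a).flatMap (f a) :=
  (hl.map hf).flatten.congr fun a => by rw [List.flatMap_def]

theorem filter {l : ∀ a, List (β a)} {f : ∀ a, β a → Bool} (hl : DP l)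
    (hf : Poly fun p : Σ a, β a => f p.1 p.2) : DP fun a => (l a).filter (f a) :=
  unlift ((hl.lift.filter (f := fun _ p => f p.1 p.2) (hf.comp Poly.id'.snd)).congr fun a => by
    rw [List.filter_map]; rfl)

theorem all {l : ∀ a, List (β a)} {f : ∀ a, β a → Bool} (hl : DP l)
    (hf : Poly fun p : Σ a, β a => f p.1 p.2) : Poly fun a => (l a).all (f a) :=
  (hl.lift.all (f := fun _ p => f p.1 p.2) (hf.comp Poly.id'.snd)).congr fun a => by
    rw [List.all_map]; rfl

theorem any {l : ∀ a, List (β a)} {f : ∀ a, β a → Bool} (hl : DP l)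
    (hf : Poly fun p : Σ a, β a => f p.1 p.2) : Poly fun a => (l a).any (f a) :=
  (hl.lift.any (f := fun _ p => f p.1 p.2) (hf.comp Poly.id'.snd)).congr fun a => by
    rw [List.any_map]; rfl

theorem head? {l : ∀ a, List (β a)} (hl : DP l) : DP fun a => (l a).head? :=
  hl.toV.head?.enc'.congr fun a => by dsimp only; cases l a <;> rfl

theorem find? {l : ∀ a, List (β a)} {f : ∀ a, β a → Bool} (hl : DP l)
    (hf : Poly fun p : Σ a, β a => f p.1 p.2) : DP fun a => (l a).find? (f a) :=
  (hl.filter hf).head?.congr fun a => List.head?_filter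

theorem optGetD {o : ∀ a, Option (β a)} {d : ∀ a, β a} (ho : DP o) (hd : DP d) :
    DP fun a => (o a).getD (d a) :=
  (ho.optionElim (g := fun _ x => x) hd snd).congr fun a => by cases o a <;> rfl

theorem optMap {o : ∀ a, Option (β a)} {f : ∀ a, β a → γ a} (ho : DP o)
    (hf : DP fun p : Σ a, β a => f p.1 p.2) : DP fun a => (o a).map (f a) :=
  (ho.optionElim (g := fun a x => Option.some (f a x)) none hf.some).congr fun a => by
    cases o a <;> rfl

theorem isSome {o : ∀ a, Option (β a)} (ho : DP o) : Poly fun a => (o a).isSome :=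
  ((ho.optionElim (γ := fun _ => Bool) (g := fun _ _ => true) (of_poly (poly_const false))
    (of_poly (poly_const true))).poly).congr fun a => by cases o a <;> rfl

theorem getElem? {l : ∀ a, List (β a)} {i : α → ℕ} (hl : DP l) (hi : Poly i) :
    DP fun a => (l a)[i a]? :=
  (hl.toV.getElem? hi).enc'.congr fun a => by
    rw [List.getElem?_map]
    dsimp only
    cases (l a)[i a]? <;> rfl

theorem listGetD {l : ∀ a, List (β a)} {i : α → ℕ} {d : ∀ a, β a} (hl : DP l) (hi : Poly i)
    (hd : DP d) : DP fun a => (l a).getD (i a) (d a) :=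
  ((hl.getElem? hi).optGetD hd).congr fun a => by rw [List.getD_eq_getElem?_getD]

theorem getLastD {l : ∀ a, List (β a)} {d : ∀ a, β a} (hl : DP l) (hd : DP d) :
    DP fun a => (l a).getLastD (d a) :=
  (Poly.getLastD hl.toV hd).congr fun a => by
    simp only [List.getLastD_eq_getLast?, List.getLast?_map]
    cases (l a).getLast? <;> rfl

theorem finRange (hn : Poly n) (hb : PB n) : DP fun a => List.finRange (n a) :=
  (hn.range hb).enc'.congr fun a => by
    rw [← List.map_coe_finRange_eq_range]
    dsimp only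
    conv_rhs => rw [← List.map_id (List.finRange (n a))]
    exact enc_map_congr fun _ _ => rfl

theorem product {l : ∀ a, List (β a)} {l' : ∀ a, List (γ a)} (hl : DP l) (hl' : DP l') :
    DP fun a => (l a).product (l' a) :=
  hl.flatMap (f := fun a x => (l' a).map (Prod.mk x))
    ((hl'.comp poly_fst).map (f := fun (p : Σ a, β a) y => (p.2, y))
      ((snd.comp poly_fst).pair snd))

theorem cond {c : α → Bool} (hc : Poly c) {f g : ∀ a, β a} (hf : DP f) (hg : DP g) :
    DP fun a => if c a = true then f a else g a :=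
  ite (hc.congr fun a => by simp) hf hg

theorem val' {p : ∀ a, β a → Prop} {f : ∀ a, {x // p a x}} (h : DP f) : DP fun a => (f a).1 := h

theorem mk' {p : ∀ a, β a → Prop} {f : ∀ a, β a} (h : DP f) (hp : ∀ a, p a (f a)) :
    DP fun a => (⟨f a, hp a⟩ : {x // p a x}) := h

theorem ofNat [∀ a, NeZero (n a)] (hn : Poly n) {m : α → ℕ} (hm : Poly m) :
    DP fun a => Fin.ofNat (n a) (m a) := fin_iff.2 (hm.mod hn)

theorem decide_lt {i j : ∀ a, Fin (n a)} (hi : DP i) (hj : DP j) :
    Poly fun a => decide (i a < j a) :=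
  Poly.decide_congr (Poly.decide_lt hi.val hj.val) fun _ => Iff.rfl

theorem decide_le {i j : ∀ a, Fin (n a)} (hi : DP i) (hj : DP j) :
    Poly fun a => decide (i a ≤ j a) :=
  Poly.decide_congr (Poly.decide_le hi.val hj.val) fun _ => Iff.rfl

theorem update (hn : Poly n) (hb : PB n) {v : ∀ a, Fin (n a) → β a} {i : ∀ a, Fin (n a)}
    {x : ∀ a, β a} (hv : DP v) (hi : DP i) (hx : DP x) :
    DP fun a => Function.update (v a) (i a) (x a) :=
  fn hn hb ((ite (p := fun p : Σ a, Fin (n a) => p.2 = i p.1) (decide_eq snd (hi.comp poly_fst))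
    (hx.comp poly_fst) ((hv.comp poly_fst).app snd)).congr fun p => by
      rw [Function.update_apply])

/-- Folds with an invariant bounding the size of the state. -/
theorem foldl {l : ∀ a, List (β a)} {init : ∀ a, γ a} {step : ∀ a, γ a → β a → γ a} {B : α → ℕ}
    (hl : DP l) (hi : DP init) (hs : DP fun p : Σ a, γ a × β a => step p.1 p.2.1 p.2.2) (hB : PB B)
    (hsz : ∀ a l₁, l₁ <+: l a → sz (l₁.foldl (step a) (init a)) ≤ B a) :
    DP fun a => (l a).foldl (step a) (init a) := by
  let st : ∀ a, List (β a) × γ a → List (β a) × γ a := fun a s =>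
    (s.1.tail, (s.1.head?).elim s.2 (step a s.2))
  have htail : DP fun p : Σ a, List (β a) × γ a => p.2.1.tail :=
    ofV ((snd.fst.toV.tail).congr fun p => by simp)
  have hst : DP fun p : Σ a, List (β a) × γ a => st p.1 p.2 :=
    htail.pair (snd.fst.head?.optionElim snd.snd'
      (hs.comp (g := fun q : Σ p : (Σ a, List (β a) × γ a), β p.1 => ⟨q.1.1, (q.1.2.2, q.2)⟩)
        (sigma (poly_fst.comp poly_fst) ((snd.snd'.comp poly_fst).pair snd))))
  have key : ∀ a i, (st a)^[i] (l a, init a) =
      ((l a).drop i, ((l a).take i).foldl (step a) (init a)) := by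
    intro a i
    induction i with
    | zero => simp
    | succ i ih =>
      rw [Function.iterate_succ_apply', ih]
      simp only [st, List.tail_drop, List.head?_drop, List.take_add_one, List.foldl_append]
      cases (l a)[i]? <;> rfl
  have h := iterate_inv (hl.pair hi) hst hl.length hl.pb_length
    (B := fun a => sz (l a) + B a + 1) ((hl.pb_sz.add hB).add (PB.const 1)) fun a i _ => by
      rw [key, sz_prod]
      have h1 := sz_le_of_sublist (List.drop_sublist i (l a))
      have h2 := hsz a _ (List.take_prefix i (l a))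
      dsimp only
      omega
  exact h.snd'.congr fun a => by rw [key]; simp

/-- Runs along the tape with an invariant bounding the size of the state. -/
theorem foldT {step : ∀ a, β a → List Bool → β a} {B t S : α → ℕ} {s : ∀ a, β a}
    {u : α → List Bool} (hstep : DP fun p : Σ a, β a × List Bool => step p.1 p.2.1 p.2.2)
    (hB : Poly B) (ht : Poly t) (htb : PB t) (hs : DP s) (hu : Poly u)
    (I : ∀ a, ℕ → β a → Prop) (h0 : ∀ a, I a 0 (s a))
    (hI : ∀ a i x v, i < t a → I a i x → I a (i + 1) (step a x v))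
    (hS : PB S) (hsz : ∀ a i x, i ≤ t a → I a i x → sz x ≤ S a) :
    DP fun a => R309.foldT (step a) (B a) (t a) (s a) (u a) := by
  refine foldl (β := fun _ => List Bool) (of_poly (poly_chunks hB ht htb hu)) hs hstep hS
    fun a l hl => ?_
  have h1 : l.length ≤ t a := by simpa [chunks] using hl.length_le
  have h2 : l = chunks (B a) l.length (u a) := by
    rw [List.prefix_iff_eq_take.1 hl]
    simp [chunks, ← List.map_take, List.take_range, h1]
  have h3 : ∀ j, j ≤ t a → I a j (R309.foldT (step a) (B a) j (s a) (u a)) := by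
    intro j
    induction j with
    | zero => exact fun _ => h0 a
    | succ j ih =>
      intro hj
      rw [foldT_succ]
      exact hI a j _ _ (by omega) (ih (by omega))
  rw [h2]
  exact hsz a _ _ h1 (h3 _ h1)

theorem dite {p : α → Prop} [DecidablePred p] (hp : Poly fun a => decide (p a))
    {f : ∀ a, p a → β a} {g : ∀ a, ¬ p a → β a} (hf : DP fun a : {a // p a} => f a.1 a.2)
    (hg : DP fun a : {a // ¬ p a} => g a.1 a.2) : DP fun a => if h : p a then f a h else g a h :=
  (Poly.dite (f := fun a h => enc (f a h)) (g := fun a h => enc (g a h)) hp hf hg).congr fun a => by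
    by_cases h : p a <;> simp [h]

/-- Runs along the tape; the step need only be polynomial on the states satisfying the
invariant. -/
theorem foldT' {step : ∀ a, β a → List Bool → β a} {B t S : α → ℕ} {s : ∀ a, β a}
    {u : α → List Bool} (I : ∀ a, ℕ → β a → Prop)
    (hstep : DP fun p : {p : Σ a, β a × List Bool // ∃ i, i < t p.1 ∧ I p.1 i p.2.1} =>
      step p.1.1 p.1.2.1 p.1.2.2)
    (hB : Poly B) (ht : Poly t) (htb : PB t) (hs : DP s) (hu : Poly u) (h0 : ∀ a, I a 0 (s a))
    (hI : ∀ a i x v, i < t a → I a i x → I a (i + 1) (step a x v))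
    (hS : PB S) (hsz : ∀ a i x, i ≤ t a → I a i x → sz x ≤ S a) :
    DP fun a => R309.foldT (step a) (B a) (t a) (s a) (u a) := by
  let σ : α → Type := fun a => {x : ℕ × β a // x.1 ≤ t a ∧ I a x.1 x.2}
  let st : ∀ a, σ a → List Bool → σ a := fun a x v =>
    if h : x.1.1 < t a then ⟨(x.1.1 + 1, step a x.1.2 v), h, hI a _ _ v h x.2.2⟩ else x
  have hi : Poly fun p : Σ a, σ a × List Bool => p.2.1.1.1 := (snd.fst.val'.fst).poly
  have hx : DP fun p : Σ a, σ a × List Bool => p.2.1 := snd.fst
  have hy : DP fun p : Σ a, σ a × List Bool => p.2.1.1.2 := snd.fst.val'.snd'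
  have hv : DP (β := fun _ => List Bool) fun p : Σ a, σ a × List Bool => p.2.2 := snd.snd'
  have hst : DP fun p : Σ a, σ a × List Bool => st p.1 p.2.1 p.2.2 := by
    have h1 : DP fun q : {p : Σ a, σ a × List Bool // p.2.1.1.1 < t p.1} =>
        (q.1.2.1.1.1 + 1, step q.1.1 q.1.2.1.1.2 q.1.2.2) :=
      pair (of_poly ((hi.comp poly_val).add (poly_const 1)))
        (hstep.comp (g := fun q : {p : Σ a, σ a × List Bool // p.2.1.1.1 < t p.1} =>
          ⟨⟨q.1.1, (q.1.2.1.1.2, q.1.2.2)⟩, _, q.2, q.1.2.1.2.2⟩)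
          (Poly.subtype_mk (sigma (poly_fst.comp poly_val)
            ((hy.comp poly_val).pair (hv.comp poly_val))) _))
    exact dite (p := fun p : Σ a, σ a × List Bool => p.2.1.1.1 < t p.1)
      (Poly.decide_lt hi (ht.comp poly_fst)) h1 (hx.comp poly_val)
  have h00 : DP fun a => ((0 : ℕ), s a) := pair (of_poly (poly_const 0)) hs
  have h := foldT (s := fun a => (⟨(0, s a), Nat.zero_le _, h0 a⟩ : σ a)) hst hB ht htb
    h00 hu (fun _ _ _ => True) (fun _ => trivial)
    (fun _ _ _ _ _ _ => trivial) (S := fun a => 4 * t a + 1 + S a + 1)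
    (((((PB.const 4).mul htb).add (PB.const 1)).add hS).add (PB.const 1)) fun a i x _ _ => by
      have h1 := sz_le_self x.1.1
      have h2 := hsz a _ _ x.2.1 x.2.2
      have h3 := x.2.1
      change sz x.1.1 + sz x.1.2 + 1 ≤ _
      omega
  refine h.val'.snd'.congr fun a => ?_
  have key : ∀ j, j ≤ t a → (R309.foldT (st a) (B a) j ⟨(0, s a), Nat.zero_le _, h0 a⟩ (u a)).1 =
      (j, R309.foldT (step a) (B a) j (s a) (u a)) := by
    intro j
    induction j with
    | zero => intro _; rfl
    | succ j ih =>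
      intro hj
      have e := ih (by omega)
      rw [foldT_succ, foldT_succ]
      generalize R309.foldT (st a) (B a) j ⟨(0, s a), Nat.zero_le _, h0 a⟩ (u a) = y at e
      simp only [st]
      rw [dif_pos (by rw [e]; exact hj)]
      simp only [e]
  rw [key _ le_rfl]

end DP

theorem sz_fin_le {n : ℕ} (i : Fin n) : sz i ≤ 4 * n + 1 :=
  (sz_le_self (i : ℕ)).trans (by have := i.2; omega)

theorem sz_Fn_le {n : ℕ} (σ : Fn n) : sz σ ≤ n * (4 * n + 2) + 1 :=
  sz_fun_le (B := 4 * n + 1) fun _ => sz_fin_le _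

theorem sz_PM_le {n : ℕ} (σ : PM n) : sz σ ≤ n * (4 * n + 2) + 1 := sz_Fn_le σ.1

theorem sz_mask_le {n : ℕ} (K : Fin n → Bool) : sz K ≤ n * 4 + 1 :=
  sz_fun_le (B := 3) fun _ => sz_bool_le _

end Crest.Agent.R304
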