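import Mathlib

/-!
# Row 304: matchings as involutions of `Fin n` (definitions)

A matching is an involution `σ : Fin n → Fin n`; its fixed points are the exposed vertices.
-/

set_option autoImplicit false

namespace Crest.Agent.R304

open Finset

/-- Self-maps of the vertex set. -/
abbrev Fn (n : ℕ) := Fin n → Fin n

/-- Integer matrices on the vertex set. -/
abbrev Mat (n : ℕ) := Fin n → Fin n → ℤ

variable {n : ℕ}

/-- `σ` is an involution (a matching). -/
def IsInv (σ : Fn n) : Prop := ∀ v, σ (σ v) = v

instance : DecidablePred (IsInv (n := n)) := fun _ => inferInstanceAs (Decidable (∀ _, _))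

/-- `σ` is a fixed-point-free involution (a perfect matching of the complete graph). -/
def IsPM (σ : Fn n) : Prop := IsInv σ ∧ ∀ v, σ v ≠ v

instance : DecidablePred (IsPM (n := n)) := fun _ => inferInstanceAs (Decidable (_ ∧ _))

/-- The exposed vertices. -/
def fixs (σ : Fn n) : Finset (Fin n) := univ.filter fun v => σ v = v

/-- The number of exposed vertices. -/
def nfix (σ : Fn n) : ℕ := (fixs σ).card

/-- One round of breadth-first search. -/
def grow (R : Fin n → Fin n → Bool) (K : Fin n → Bool) : Fin n → Bool :=
  fun u => K u || decide (∃ w, K w = true ∧ R w u = true)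

/-- The vertices reachable from `v`. -/
def reach (R : Fin n → Fin n → Bool) (v : Fin n) : Fin n → Bool :=
  (grow R)^[n] fun u => decide (u = v)

/-- The component of `v` in the union of two matchings. -/
def orb (σ τ : Fn n) (v : Fin n) : Fin n → Bool :=
  reach (fun a b => decide (b = σ a ∨ b = τ a)) v

/-- `τ` on `K` and `σ` outside `K`. -/
def mix (K : Fin n → Bool) (σ τ : Fn n) : Fn n := fun v => if K v = true then τ v else σ v

/-- `K` is a union of edges and exposed vertices of `σ`. -/
def Closed (K : Fin n → Bool) (σ : Fn n) : Prop := ∀ v, K (σ v) = K v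

/-- Remove the edge at `u`. -/
def rem (σ : Fn n) (u : Fin n) : Fn n := fun v => if v = u ∨ v = σ u then v else σ v

/-- Insert the edge `u w` (between exposed vertices). -/
def ins (σ : Fn n) (u w : Fin n) : Fn n :=
  fun v => if v = u then w else if v = w then u else σ v

/-- Conjugation by the transposition `(a b)`: a 2-switch. -/
def cj (a b : Fin n) (σ : Fn n) : Fn n := fun v => Equiv.swap a b (σ (Equiv.swap a b v))

/-- The product of the weights of the edges of a matching. -/
@[to_additive cost /-- The sum of the costs of the edges of a matching. -/]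
def wt {R : Type} [CommMonoid R] (W : Fin n → Fin n → R) (σ : Fn n) : R :=
  ∏ v, if v < σ v then W v (σ v) else 1

/-- A symmetric table. -/
def Symm {R : Type} (W : Fin n → Fin n → R) : Prop := ∀ u v, W u v = W v u

/-- Perfect matchings of the complete graph on `Fin n`. -/
abbrev PM (n : ℕ) := {σ : Fn n // IsPM σ}

/-- Total weight of the matchings whose set of exposed vertices is `S`. -/
def Zs {R : Type} [CommSemiring R] (W : Fin n → Fin n → R) (S : Finset (Fin n)) : R :=
  ∑ σ : Fn n with IsInv σ ∧ fixs σ = S, wt W σ

/-- Total weight of the perfect matchings. -/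
def ZZ {R : Type} [CommSemiring R] (W : Fin n → Fin n → R) : R := ∑ σ : PM n, wt W σ.1

/-- The Gibbs law on perfect matchings. -/
noncomputable def gib (W : Fin n → Fin n → ℝ) (σ : PM n) : ℝ := wt W σ.1 / ZZ W

/-- The marginal of the pair `u v`. -/
noncomputable def mg (W : Fin n → Fin n → ℝ) (u v : Fin n) : ℝ :=
  ∑ σ : PM n, if σ.1 u = v then gib W σ else 0

/-- All marginals are at least `η`. -/
def Bal (η : ℝ) (W : Fin n → Fin n → ℝ) : Prop := ∀ u v, u ≠ v → η ≤ mg W u v

/-- Positive symmetric weights. -/
def PosW (W : Fin n → Fin n → ℝ) : Prop := Symm W ∧ ∀ u v, 0 < W u v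

/-- The number of perfect matchings of the complete graph on an even number `n` of vertices. -/
def z0 (n : ℕ) : ℕ := ((List.range (n / 2)).map fun i => 2 * i + 1).prod

/-- A perfect matching of the complete graph on an even number of vertices. -/
def sig0 (h : Even n) : Fn n := fun v =>
  if hv : (v : ℕ) % 2 = 0 then ⟨v + 1, by have := v.2; obtain ⟨k, hk⟩ := h; omega⟩
  else ⟨v - 1, by have := v.2; omega⟩

end Crest.Agent.R304
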