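import Crest.Agent.R304.GESat

/-!
# Row 304: a saturated table gives the Gallai–Edmonds structure
-/

set_option autoImplicit false

namespace Crest.Agent.R304

open Finset

variable {n : ℕ}

namespace GEa

theorem foldr_le (m : ℕ) (l : List ℕ) : ∀ x ∈ l, l.foldr min m ≤ x := by
  induction l with
  | nil => simp
  | cons a l ih =>
    intro x hx
    rw [List.foldr_cons]
    rcases List.mem_cons.1 hx with rfl | hx
    · exact min_le_left _ _
    · exact (min_le_right _ _).trans (ih x hx)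

theorem foldr_mem (m : ℕ) (l : List ℕ) : l.foldr min m = m ∨ l.foldr min m ∈ l := by
  induction l with
  | nil => simp
  | cons a l ih =>
    rw [List.foldr_cons]
    rcases min_choice a (l.foldr min m) with h | h <;> rw [h]
    · exact Or.inr List.mem_cons_self
    · exact ih.imp id (List.mem_cons_of_mem _)

/-- signatures -/
def Sig (T : List (Fn n)) (f : ℕ) (q : List (Fin n)) : Prop :=
  ∃ τ ∈ T, nfix τ = f ∧ ∀ v ∈ q, τ v = v

theorem rem_fix {σ : Fn n} {u v : Fin n} (h : σ v = v) : rem σ u v = v := by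
  unfold rem; split_ifs; exacts [rfl, h]

theorem rem_self (σ : Fn n) (u : Fin n) : rem σ u u = u := by simp [rem]

theorem rem_img (σ : Fn n) (u : Fin n) : rem σ u (σ u) = σ u := by simp [rem]

theorem rem_other {σ : Fn n} {u v : Fin n} (h : v ≠ u) (h' : v ≠ σ u) : rem σ u v = σ v := by
  simp [rem, h, h']

variable {adj : Gr n} {T : List (Fn n)}

theorem cl (hT : Saturated adj T) {σ : Fn n} (hσ : σ ∈ cands adj T) {q : List (Fin n)}
    (hq : q.length ≤ 4) (h : ∀ v ∈ q, σ v = v) : Sig T (nfix σ) q :=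
  hasSig_iff.1 (hT.closed σ hσ q hq h)

theorem ne_of_adj (h : Simple adj) {u v : Fin n} (e : adj u v = true) : u ≠ v := by
  rintro rfl
  rw [h.2] at e
  exact Bool.noConfusion e

/-- inserting an edge -/
theorem sig_ins (h : Simple adj) (hT : Saturated adj T) {t : Fn n} (ht : t ∈ T) {p c : Fin n}
    (hp : t p = p) (hc : t c = c) (e : adj p c = true) {R : List (Fin n)} (hR : R.length ≤ 4)
    (hf : ∀ v ∈ R, t v = v) (hne : ∀ v ∈ R, v ≠ p ∧ v ≠ c) :
    ∃ f, f + 2 = nfix t ∧ Sig T f R :=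
  ⟨_, nfix_ins hp hc (ne_of_adj h e), cl hT (ins_mem_cands ht hp hc e) hR fun v hv => by
    simp [ins, (hne v hv).1, (hne v hv).2, hf v hv]⟩

/-- removing one edge -/
theorem sig_rem (hT : Saturated adj T) {t : Fn n} (ht : t ∈ T) {u : Fin n} (hu : t u ≠ u)
    {q : List (Fin n)} (hq : q.length ≤ 4) (h : ∀ v ∈ q, t v = v ∨ v = u ∨ v = t u) :
    Sig T (nfix t + 2) q := by
  have h1 := rem_mem_cands adj ht u u
  rw [rem_of_fix (rem_self t u)] at h1
  rw [← nfix_rem (hT.mem t ht).1 hu]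
  refine cl hT h1 hq fun v hv => ?_
  rcases h v hv with h | rfl | rfl
  exacts [rem_fix h, rem_self _ _, rem_img _ _]

/-- removing two edges -/
theorem sig_rem2 (hT : Saturated adj T) {t : Fn n} (ht : t ∈ T) {u w : Fin n} (hu : t u ≠ u)
    (hw : t w ≠ w) (h1 : w ≠ u) (h2 : w ≠ t u) {q : List (Fin n)} (hq : q.length ≤ 4)
    (h : ∀ v ∈ q, t v = v ∨ v = u ∨ v = t u ∨ v = w ∨ v = t w) : Sig T (nfix t + 4) q := by
  have e := rem_other h1 h2
  have h3 : nfix (rem (rem t u) w) = nfix t + 4 := by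
    rw [nfix_rem (rem_inv (hT.mem t ht).1 u) (by rw [e]; exact hw), nfix_rem (hT.mem t ht).1 hu]
  rw [← h3]
  refine cl hT (rem_mem_cands adj ht u w) hq fun v hv => ?_
  rcases h v hv with h | rfl | rfl | rfl | rfl
  · exact rem_fix (rem_fix h)
  · exact rem_fix (rem_self _ _)
  · exact rem_fix (rem_img _ _)
  · exact rem_self _ _
  · rw [← e]; exact rem_img _ _

/-- swapping on a path -/
theorem swap (hT : Saturated adj T) {N N₂ : Fn n} (hN : N ∈ T) (hN₂ : N₂ ∈ T) {c : Fin n}
    (hc : N₂ c = c) {R : List (Fin n)} (hR : R.length ≤ 4) (h1 : ∀ v ∈ R, N v = v)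
    (h2 : ∀ v ∈ R, N₂ v = v) :
    (∃ f, f + 2 = nfix N₂ ∧ Sig T f R) ∨
    ((∀ v, N₂ v = v → orb N N₂ c v = true → v = c) ∧
      (∀ u v, N u = u → N v = v → orb N N₂ c u = true → orb N N₂ c v = true → u = v) ∧
      ∀ q : List (Fin n), q.length ≤ 4 →
        (∀ v ∈ q, v ∈ R ∨ v = c ∨ (N v = v ∧ ¬ orb N N₂ c v = true)) → Sig T (nfix N) q) := by
  rcases dihedral (hT.mem N hN).1 (hT.mem N₂ hN₂).1 hc with ⟨e1, e2⟩ | ⟨e1, e2⟩
  · refine Or.inr ⟨fun v hv hK => ?_, fun u v hu hv hKu hKv => ?_, fun q hq h => ?_⟩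
    · exact mem_singleton.1 (e2 ▸ mem_filter.2 ⟨mem_fixs.2 hv, hK⟩)
    · exact card_le_one.1 e1.le u (mem_filter.2 ⟨mem_fixs.2 hu, hKu⟩) v
        (mem_filter.2 ⟨mem_fixs.2 hv, hKv⟩)
    · have e := nfix_mix (orb N N₂ c) N N₂
      rw [e1, e2, card_singleton, Nat.add_right_cancel_iff] at e
      rw [← e]
      refine cl hT (mix_mem_cands adj hN hN₂ c) hq fun v hv => ?_
      unfold mix
      rcases h v hv with h | rfl | h
      · split_ifs; exacts [h2 v h, h1 v h]
      · rw [if_pos (orb_self _ _ _), hc]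
      · rw [if_neg h.2, h.1]
  · have e := nfix_mix (orb N N₂ c) N₂ N
    rw [e1, e2, card_empty, add_zero] at e
    refine Or.inl ⟨_, e, cl hT (orb_comm N N₂ c ▸ mix_mem_cands adj hN₂ hN c) hR fun v hv => ?_⟩
    unfold mix
    split_ifs; exacts [h1 v hv, h2 v hv]

theorem sig_one {d : ℕ} {t : Fn n} (ht : t ∈ T) (hd : nfix t = d) {v : Fin n} (hv : t v = v) :
    Sig T d [v] := ⟨t, ht, hd, by simpa using hv⟩

theorem lemA (h : Simple adj) (hT : Saturated adj T) {d : ℕ} {a b x y : Fin n}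
    (ha : ¬ Sig T d [a]) (hb : b ≠ a) (h1 : Sig T (d + 2) [a, b]) (h2 : Sig T (d + 2) [a, x, y])
    (hxy : x ≠ y) (hx : adj a x = true) (hy : adj a y = true) : Sig T d [b] := by
  obtain ⟨N, hN, eN, fN⟩ := h1
  obtain ⟨N₂, hN₂, eN₂, fN₂⟩ := h2
  simp only [List.mem_cons, List.not_mem_nil, or_false, forall_eq_or_imp, forall_eq] at fN fN₂
  have key : ∀ z, N₂ z = z → adj a z = true →
      (∀ v, N₂ v = v → orb N N₂ z v = true → v = z) ∧ (¬ orb N N₂ z b = true → Sig T d [b]) := by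
    intro z hz haz
    rcases swap hT hN hN₂ hz (R := [a]) (by simp) (by simpa using fN.1) (by simpa using fN₂.1) with
      ⟨f, e, hs⟩ | ⟨k1, -, k3⟩
    · obtain rfl : f = d := by omega
      exact absurd hs ha
    · refine ⟨k1, fun hK => ?_⟩
      obtain ⟨t, ht, et, ft⟩ := k3 [a, b, z] (by simp) (by simp [fN.2, hK])
      simp only [List.mem_cons, List.not_mem_nil, or_false, forall_eq_or_imp, forall_eq] at ft
      have hbz : b ≠ z := by
        rintro rfl
        exact hK (orb_self _ _ _)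
      obtain ⟨f, e, hs⟩ := sig_ins h hT ht ft.1 ft.2.2 haz (R := [b]) (by simp)
        (by simpa using ft.2.1) (by simpa using ⟨hb, hbz⟩)
      obtain rfl : f = d := by omega
      exact hs
  obtain ⟨x1, x2⟩ := key x fN₂.2.1 hx
  obtain ⟨-, y2⟩ := key y fN₂.2.2 hy
  by_cases kx : orb N N₂ x b = true
  · refine y2 fun ky => hxy (x1 y fN₂.2.2 ?_).symm
    rw [← orb_eq (hT.mem N hN).1 (hT.mem N₂ hN₂).1 kx, orb_eq (hT.mem N hN).1 (hT.mem N₂ hN₂).1 ky]
    exact orb_self _ _ _
  · exact x2 kx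

/-- neighbours of `D` outside `D` -/
def InA (adj : Gr n) (T : List (Fn n)) (d : ℕ) (a : Fin n) : Prop :=
  ¬ Sig T d [a] ∧ ∃ x, Sig T d [x] ∧ adj x a = true

theorem InA.moved {d : ℕ} {a : Fin n} (ha : InA adj T d a) {M : Fn n} (hM : M ∈ T)
    (e : nfix M = d) : M a ≠ a := fun h => ha.1 (sig_one hM e h)

theorem lemA' (h : Simple adj) (hT : Saturated adj T) {d : ℕ} {a b : Fin n} (ha : InA adj T d a)
    (hb : b ≠ a) (h1 : Sig T (d + 2) [a, b]) : Sig T d [b] := by
  obtain ⟨x, hx, hxa⟩ := ha.2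
  obtain ⟨M, hM, e, f⟩ := hx
  have fx : M x = x := f x (by simp)
  have hy := ha.moved hM e
  refine lemA h hT ha.1 hb h1 (x := x) (y := M a) ?_ (fun e' => ?_) (by rw [h.1]; exact hxa)
    ((hT.mem M hM).2 a hy)
  · rw [← e]
    exact sig_rem hT hM hy (by simp) (by simp [fx])
  · have : a = x := (hT.mem M hM).1.inj (by rw [← e', fx])
    exact ne_of_adj h hxa this.symm

theorem InA.img (h : Simple adj) (hT : Saturated adj T) {d : ℕ} {a : Fin n} (ha : InA adj T d a)
    {M : Fn n} (hM : M ∈ T) (e : nfix M = d) : Sig T d [M a] := by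
  refine lemA' h hT ha (ha.moved hM e) ?_
  rw [← e]
  exact sig_rem hT hM (ha.moved hM e) (by simp) (by simp)

/-- adjacency inside `D` -/
def Rel (adj : Gr n) (T : List (Fn n)) (d : ℕ) (a b : Fin n) : Prop :=
  adj a b = true ∧ Sig T d [a] ∧ Sig T d [b]

theorem loop (h : Simple adj) (hT : Saturated adj T) {d f : ℕ} {R : List (Fin n)}
    (hR : R.length ≤ 2) (hRD : ∀ v ∈ R, ¬ Sig T d [v])
    (hall : ∀ c, Sig T d [c] → Sig T f (c :: R)) {p b : Fin n}
    (hr : Relation.ReflTransGen (Rel adj T d) p b) (hpb : p ≠ b) (hs : Sig T f (p :: b :: R)) :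
    ∃ f', f' + 2 = f ∧ Sig T f' R := by
  induction hr using Relation.ReflTransGen.head_induction_on with
  | refl => exact absurd rfl hpb
  | @head p c hpc _ ih =>
    have hne : ∀ v ∈ R, v ≠ p ∧ v ≠ c := fun v hv =>
      ⟨fun e => hRD v hv (e ▸ hpc.2.1), fun e => hRD v hv (e ▸ hpc.2.2)⟩
    obtain ⟨N, hN, eN, fN⟩ := hs
    simp only [List.mem_cons, forall_eq_or_imp] at fN
    by_cases hc : N c = c
    · rw [← eN]
      exact sig_ins h hT hN fN.1 hc hpc.1 (by omega) fN.2.2 hne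
    obtain ⟨N₂, hN₂, eN₂, fN₂⟩ := hall c hpc.2.2
    simp only [List.mem_cons, forall_eq_or_imp] at fN₂
    rcases swap hT hN hN₂ fN₂.1 (R := R) (by omega) fN.2.2 fN₂.2 with h1 | ⟨-, k2, k3⟩
    · rwa [eN₂] at h1
    rw [eN] at k3
    by_cases kb : orb N N₂ c b = true
    · have kp : ¬ orb N N₂ c p = true := fun kp => hpb (k2 p b fN.1 fN.2.1 kp kb)
      obtain ⟨t, ht, et, ft⟩ := k3 (p :: c :: R) (by simp; omega) (by
        simp only [List.mem_cons, forall_eq_or_imp]
        exact ⟨Or.inr (Or.inr ⟨fN.1, kp⟩), by simp, fun v hv => Or.inl hv⟩)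
      simp only [List.mem_cons, forall_eq_or_imp] at ft
      rw [← et]
      exact sig_ins h hT ht ft.1 ft.2.1 hpc.1 (by omega) ft.2.2 hne
    · refine ih (fun e => hc (by rw [e]; exact fN.2.1)) (k3 (c :: b :: R) (by simp; omega) ?_)
      simp only [List.mem_cons, forall_eq_or_imp]
      exact ⟨by simp, Or.inr (Or.inr ⟨fN.2.1, kb⟩), fun v hv => Or.inl hv⟩

theorem loop1 (h : Simple adj) (hT : Saturated adj T) {d : ℕ} {a b x : Fin n}
    (hx : InA adj T d x) (hr : Relation.ReflTransGen (Rel adj T d) a b) (hab : a ≠ b)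
    (hs : Sig T (d + 2) [a, b, x]) : False := by
  obtain ⟨f, e, h1⟩ := loop h hT (R := [x]) (f := d + 2) (by simp) (by simpa using hx.1)
    (fun c hc => by
      obtain ⟨M, hM, e, f⟩ := hc
      rw [← e]
      exact sig_rem hT hM (hx.moved hM e) (by simp) (by simp [f c (by simp)])) hr hab hs
  obtain rfl : f = d := by omega
  exact hx.1 h1

theorem inA_img (hT : Saturated adj T) {d : ℕ} {M : Fn n} (hM : M ∈ T) {v : Fin n}
    (hv : Sig T d [v]) (h' : ¬ Sig T d [M v]) : InA adj T d (M v) :=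
  ⟨h', v, hv, (hT.mem M hM).2 v fun e => h' (by rw [e]; exact hv)⟩

theorem uniq (h : Simple adj) (hT : Saturated adj T) {d : ℕ} (hd : ∀ τ ∈ T, d ≤ nfix τ)
    {M : Fn n} (hM : M ∈ T) (e : nfix M = d) {a b : Fin n} (ha : Sig T d [a]) (hb : Sig T d [b])
    (ua : M a = a ∨ ¬ Sig T d [M a]) (ub : M b = b ∨ ¬ Sig T d [M b])
    (hr : Relation.ReflTransGen (Rel adj T d) a b) : a = b := by
  by_contra hab
  have mv : ∀ v, Sig T d [v] → ¬ Sig T d [M v] → M v ≠ v := fun v hv h' e =>
    h' (by rw [e]; exact hv)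
  rcases ua with ua | ua <;> rcases ub with ub | ub
  · obtain ⟨f, e', t, ht, et, -⟩ := loop h hT (R := []) (f := d) (by simp) (by simp)
      (fun c hc => hc) hr hab ⟨M, hM, e, by simp [ua, ub]⟩
    have := hd t ht
    omega
  · refine loop1 h hT (inA_img hT hM hb ub) hr hab ?_
    rw [← e]
    exact sig_rem hT hM (mv b hb ub) (by simp) (by simp [ua])
  · refine loop1 h hT (inA_img hT hM ha ua) hr hab ?_
    rw [← e]
    exact sig_rem hT hM (mv a ha ua) (by simp) (by simp [ub])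
  · have ha' := inA_img hT hM ha ua
    have hb' := inA_img hT hM hb ub
    have hne : M b ≠ M a := fun e => hab ((hT.mem M hM).1.inj e).symm
    obtain ⟨f, e', h1⟩ := loop h hT (R := [M a, M b]) (f := d + 4) (by simp)
      (by simpa using ⟨ua, ub⟩) (fun c hc => by
        obtain ⟨N, hN, eN, f⟩ := hc
        have h2 := ha'.img h hT hN eN
        rw [← eN]
        exact sig_rem2 hT hN (ha'.moved hN eN) (hb'.moved hN eN) hne
          (fun e => ub (by rw [e]; exact h2)) (by simp) (by simp [f c (by simp)])) hr hab (by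
        rw [← e]
        exact sig_rem2 hT hM (mv a ha ua) (mv b hb ub) (Ne.symm hab)
          (fun e => ua (by rw [← e]; exact hb)) (by simp) (by simp))
    obtain rfl : f = d + 2 := by omega
    exact ub (lemA' h hT ha' hne h1)

theorem comp_iff {d : ℕ} {c v : Fin n} :
    comp adj (fun v => hasSig T d [v]) c v = true ↔ Relation.ReflTransGen (Rel adj T d) c v := by
  rw [comp, reach_iff]
  congr! 1
  ext a b
  simp only [Bool.and_eq_true, hasSig_iff, Rel, Sig, and_assoc]

theorem geA_iff {d : ℕ} {v : Fin n} :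
    geA adj (fun v => hasSig T d [v]) v = true ↔ InA adj T d v := by
  simp only [geA, Bool.and_eq_true, Bool.not_eq_true', decide_eq_true_eq, InA, Sig, ← hasSig_iff,
    Bool.not_eq_true]

theorem reach_D {d : ℕ} {c v : Fin n} (hc : Sig T d [c])
    (hr : Relation.ReflTransGen (Rel adj T d) c v) : Sig T d [v] := by
  induction hr with
  | refl => exact hc
  | tail _ h _ => exact h.2.2

theorem reach_symm (h : Simple adj) {d : ℕ} {c v : Fin n}
    (hr : Relation.ReflTransGen (Rel adj T d) c v) : Relation.ReflTransGen (Rel adj T d) v c := by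
  induction hr with
  | refl => exact .refl
  | tail _ h' ih => exact .head ⟨by rw [h.1]; exact h'.1, h'.2.2, h'.2.1⟩ ih

theorem step (hT : Saturated adj T) {d : ℕ} {M : Fn n} (hM : M ∈ T) {c v : Fin n}
    (hc : Sig T d [c]) (hr : Relation.ReflTransGen (Rel adj T d) c v)
    (hv : ¬ (M v = v ∨ ¬ Sig T d [M v])) :
    M v ≠ v ∧ Relation.ReflTransGen (Rel adj T d) c (M v) := by
  push Not at hv
  exact ⟨hv.1, hr.tail ⟨(hT.mem M hM).2 v hv.1, reach_D hc hr, hv.2⟩⟩

theorem ge (h : Simple adj) (hT : Saturated adj T) {d : ℕ} (hd : ∀ τ ∈ T, d ≤ nfix τ)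
    {M : Fn n} (hM : M ∈ T) (e : nfix M = d) : GE adj (fun v => hasSig T d [v]) d := by
  classical
  have crit : ∀ c, Sig T d [c] → ∃ σ ∈ T, σ c = c ∧ ∀ v,
      Relation.ReflTransGen (Rel adj T d) c v → v ≠ c →
        σ v ≠ v ∧ Relation.ReflTransGen (Rel adj T d) c (σ v) := by
    intro c hc
    obtain ⟨N, hN, eN, f⟩ := id hc
    have fc : N c = c := f c (by simp)
    exact ⟨N, hN, fc, fun v hv hvc => step hT hN hc hv fun uv =>
      hvc (uniq h hT hd hN eN hc (reach_D hc hv) (Or.inl fc) uv hv).symm⟩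
  have hI := (hT.mem M hM).1
  refine ⟨⟨M, hT.mem M hM, e⟩, fun c hc => ?_, ?_, fun v hv => ?_⟩
  · obtain ⟨σ, hσ, h1, h2⟩ := crit c (hasSig_iff.1 hc)
    exact ⟨σ, hT.mem σ hσ, h1, fun v hv hvc => by
      rw [comp_iff] at hv ⊢
      exact h2 v hv hvc⟩
  · set A := univ.filter fun v => geA adj (fun v => hasSig T d [v]) v = true with hA
    have mA : ∀ v, v ∈ A ↔ InA adj T d v := fun v => by simp [hA, geA_iff]
    have mU : ∀ u, u ∈ fixs M ∪ A.image M ↔ Sig T d [u] ∧ (M u = u ∨ ¬ Sig T d [M u]) := by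
      intro u
      rw [mem_union, mem_fixs, mem_image]
      constructor
      · rintro (hu | ⟨a, ha, rfl⟩)
        · exact ⟨sig_one hM e hu, Or.inl hu⟩
        · exact ⟨((mA a).1 ha).img h hT hM e, Or.inr (by rw [hI a]; exact ((mA a).1 ha).1)⟩
      · rintro ⟨hu, h1 | h1⟩
        · exact Or.inl h1
        · exact Or.inr ⟨M u, (mA _).2 (inA_img hT hM hu h1), hI u⟩
    refine ⟨fixs M ∪ A.image M, ?_, fun u hu => hasSig_iff.2 ((mU u).1 hu).1, fun c hc => ?_⟩
    · rw [card_union_of_disjoint, card_image_of_injective _ hI.inj, ← e, nfix]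
      rw [disjoint_right]
      intro v hv hv'
      obtain ⟨a, ha, rfl⟩ := mem_image.1 hv
      rw [mem_fixs, hI a] at hv'
      exact ((mA a).1 ha).moved hM e hv'.symm
    · have hc' : Sig T d [c] := hasSig_iff.1 hc
      simp only [comp_iff, mU]
      refine existsUnique_of_exists_of_unique ?_ fun u u' hu hu' =>
        uniq h hT hd hM e hu.1.1 hu'.1.1 hu.1.2 hu'.1.2 ((reach_symm h hu.2).trans hu'.2)
      by_contra hno
      have hS : ∀ v, Relation.ReflTransGen (Rel adj T d) c v →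
          M v ≠ v ∧ Relation.ReflTransGen (Rel adj T d) c (M v) := fun v hv =>
        step hT hM hc' hv fun uv => hno ⟨v, ⟨reach_D hc' hv, uv⟩, hv⟩
      obtain ⟨σ, hσ, h1, h2⟩ := crit c hc'
      set S := univ.filter fun v => Relation.ReflTransGen (Rel adj T d) c v with hSd
      have mS : ∀ v, v ∈ S ↔ Relation.ReflTransGen (Rel adj T d) c v := fun v => by simp [hSd]
      have p1 := card_closed_mod hI (S := S) fun v hv => (mS _).2 (hS v ((mS v).1 hv)).2
      have p2 := card_closed_mod (hT.mem σ hσ).1 (S := S) fun v hv => (mS _).2 (by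
        by_cases hvc : v = c
        · rw [hvc, h1]
        · exact (h2 v ((mS v).1 hv) hvc).2)
      rw [filter_eq_empty_iff.2 fun v hv => (hS v ((mS v).1 hv)).1, card_empty] at p1
      have q2 : (S.filter fun v => σ v = v) = {c} := by
        ext v
        rw [mem_filter, mem_singleton, mS]
        constructor
        · rintro ⟨hv, hf⟩
          by_contra hvc
          exact (h2 v hv hvc).1 hf
        · rintro rfl
          exact ⟨.refl, h1⟩
      rw [q2, card_singleton] at p2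
      omega
  · refine hasSig_iff.2 (sig_one hM e ?_)
    by_contra hne
    have := (hT.mem M hM).2 v hne
    rw [hv] at this
    exact Bool.noConfusion this

end GEa

theorem Saturated.ge {adj : Gr n} (h : Simple adj) {T : List (Fn n)} (hT : Saturated adj T) :
    GE adj (fun v => hasSig T ((T.map nfix).foldr min n) [v]) ((T.map nfix).foldr min n) := by
  have h1 : ∀ τ ∈ T, (T.map nfix).foldr min n ≤ nfix τ := fun τ hτ =>
    GEa.foldr_le n _ _ (List.mem_map_of_mem hτ)
  have h2 : ∃ M ∈ T, nfix M = (T.map nfix).foldr min n := by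
    rcases GEa.foldr_mem n (T.map nfix) with e | e
    · obtain ⟨M, hM⟩ := List.exists_mem_of_ne_nil T hT.ne
      refine ⟨M, hM, le_antisymm ?_ (h1 M hM)⟩
      rw [e]
      exact (card_le_univ _).trans (Fintype.card_fin n).le
    · exact List.mem_map.1 e
  obtain ⟨M, hM, e⟩ := h2
  exact GEa.ge h hT h1 hM e

theorem ge_spec {adj : Gr n} (h : Simple adj) : GE adj (geD adj) (geDef adj) :=
  (sat_saturated h).ge h

end Crest.Agent.R304
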