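import Crest.Agent.R304.Glue
import Crest.Agent.R304.GE

/-!
# Row 304: one step of the dual ascent
-/

set_option autoImplicit false

namespace Crest.Agent.R304

open Finset

variable {n : ℕ} {c : Fin n → Fin n → ℕ} {π : Finset (Fin n) → ℤ}

theorem dinv_zero (c : Fin n → Fin n → ℕ) : DInv c 0 := by
  refine ⟨fun S hS => absurd rfl hS, fun S _ => le_rfl, fun S T hS => absurd rfl hS,
    fun u v _ => by simp, fun S hS v hv => ?_⟩
  have h1 : S.card = 1 := by
    rcases hS with hS | hS
    · exact absurd hS (lt_irrefl _)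
    · exact hS
  obtain ⟨w, rfl⟩ := card_eq_one.1 h1
  obtain rfl : v = w := mem_singleton.1 hv
  refine ⟨id, fun _ => rfl, ?_, ?_⟩
  · ext u
    by_cases hu : u = v <;> simp [fixs, hu]
  · simp [cost]

theorem hOf_zero : hOf (0 : Finset (Fin n) → ℤ) = 0 := by
  funext u v
  simp [hOf]

/-- If the shrunken graph has a perfect matching, the dual solution is nearly optimal. -/
theorem DInv.final (hc : Symm c) (h : DInv c π) {D : Fin n → Bool} {d : ℕ}
    (hG : GE (cadj c (hOf π)) D d) (hd : d ≤ inact (hOf π)) :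
    ∃ N : PM n, 2 * ((cost c N.1 : ℕ) : ℤ) ≤ 2 * ∑ S, π S + n := by
  obtain ⟨τ, hτ, hfix⟩ := hG.ex
  have hsub : (univ.filter fun v => rep (hOf π) v ≠ v) ⊆ fixs τ := by
    intro u hu
    rw [mem_fixs]
    by_contra hne
    exact (mem_filter.1 hu).2 (h.cadj_rep (hτ.2 u hne)).1
  have heq : (univ.filter fun v => rep (hOf π) v ≠ v) = fixs τ :=
    eq_of_subset_of_card_le hsub (by
      have : (fixs τ).card = d := hfix
      rw [this]; exact hd)
  obtain ⟨N, hN, hf, hcost⟩ := h.glue hc hτ (X := univ) (fun u => by simp) none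
    (fun v hv => by simp at hv) (fun p _ hp _ => ⟨fun e => by
      have : p ∈ fixs τ := mem_fixs.2 e
      rw [← heq] at this
      exact (mem_filter.1 this).2 hp, mem_univ _⟩)
  refine ⟨⟨N, isPM_iff.2 ⟨hN, by simpa using hf⟩⟩, ?_⟩
  simpa using hcost

namespace DualAux

theorem comp_self (g : Gr n) (D : Fin n → Bool) (p : Fin n) : comp g D p p = true :=
  (reach_iff _ _ _).2 Relation.ReflTransGen.refl

theorem comp_trans {g : Gr n} {D : Fin n → Bool} {p q s : Fin n} (h1 : comp g D p q = true)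
    (h2 : comp g D q s = true) : comp g D p s = true :=
  (reach_iff _ _ _).2 (((reach_iff _ _ _).1 h1).trans ((reach_iff _ _ _).1 h2))

theorem comp_symm {g : Gr n} (hg : Simple g) {D : Fin n → Bool} {p q : Fin n}
    (h1 : comp g D p q = true) : comp g D q p = true := by
  have h2 := (reach_iff _ _ _).1 h1
  refine (reach_iff _ _ _).2 ?_
  clear h1
  induction h2 with
  | refl => exact Relation.ReflTransGen.refl
  | tail _ hbc ih =>
    refine Relation.ReflTransGen.head ?_ ih
    simp only [Bool.and_eq_true] at hbc ⊢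
    exact ⟨⟨by rw [hg.1]; exact hbc.1.1, hbc.2⟩, hbc.1.2⟩

theorem comp_adj {g : Gr n} {D : Fin n → Bool} {p q : Fin n} (h1 : g p q = true)
    (hp : D p = true) (hq : D q = true) : comp g D p q = true :=
  (reach_iff _ _ _).2 (Relation.ReflTransGen.single (by simp [h1, hp, hq]))

theorem comp_cases {g : Gr n} {D : Fin n → Bool} {p q : Fin n} (h1 : comp g D p q = true) :
    q = p ∨ (D q = true ∧ ∃ a, g a q = true) := by
  have h2 := (reach_iff _ _ _).1 h1
  rcases h2.cases_tail with e | ⟨a, _, ha⟩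
  · exact Or.inl e
  · simp only [Bool.and_eq_true] at ha
    exact Or.inr ⟨ha.2, a, ha.1.1⟩

theorem comp_D {g : Gr n} {D : Fin n → Bool} {p q : Fin n} (hp : D p = true)
    (h1 : comp g D p q = true) : D q = true := by
  rcases comp_cases h1 with rfl | h2
  · exact hp
  · exact h2.1

/-- The union of the shrunken sets in the component of `v`. -/
def tset (c : Fin n → Fin n → ℕ) (π : Finset (Fin n) → ℤ) (D : Fin n → Bool) (v : Fin n) :
    Finset (Fin n) :=
  univ.filter fun u => comp (cadj c (hOf π)) D (rep (hOf π) v) (rep (hOf π) u) = true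

/-- The sets whose dual variable goes up. -/
def TT (c : Fin n → Fin n → ℕ) (π : Finset (Fin n) → ℤ) (D : Fin n → Bool) :
    Finset (Finset (Fin n)) :=
  (univ.filter fun v => D (rep (hOf π) v) = true).image (tset c π D)

/-- The sets whose dual variable goes down. -/
def AA (c : Fin n → Fin n → ℕ) (π : Finset (Fin n) → ℤ) (D : Fin n → Bool) :
    Finset (Finset (Fin n)) :=
  (univ.filter fun v => geA (cadj c (hOf π)) D (rep (hOf π) v) = true).image (part π)

/-- The new dual solution. -/
def pnew (c : Fin n → Fin n → ℕ) (π : Finset (Fin n) → ℤ) (D : Fin n → Bool) :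
    Finset (Fin n) → ℤ := fun S =>
  π S + (if S ∈ TT c π D then 1 else 0) - if S ∈ AA c π D then 1 else 0

variable {D : Fin n → Bool} {d : ℕ}

theorem mem_tset {u v : Fin n} : u ∈ tset c π D v ↔
    comp (cadj c (hOf π)) D (rep (hOf π) v) (rep (hOf π) u) = true := by
  simp [tset]

theorem self_mem_tset (v : Fin n) : v ∈ tset c π D v := mem_tset.2 (comp_self _ _ _)

theorem tset_eq (hc : Symm c) {u v : Fin n} (huv : u ∈ tset c π D v) :
    tset c π D u = tset c π D v := by
  have h1 := mem_tset.1 huv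
  ext w
  rw [mem_tset, mem_tset]
  exact ⟨fun h2 => comp_trans h1 h2, fun h2 => comp_trans (comp_symm (cadj_simple hc π) h1) h2⟩

theorem part_subset_tset (h : DInv c π) (v : Fin n) : part π v ⊆ tset c π D v := by
  intro u hu
  rw [mem_tset, h.rep_eq_iff.2 hu]
  exact comp_self _ _ _

theorem TT_spec (hc : Symm c) {S : Finset (Fin n)} (hS : S ∈ TT c π D) {u : Fin n} (hu : u ∈ S) :
    S = tset c π D u ∧ D (rep (hOf π) u) = true := by
  obtain ⟨v, hv, rfl⟩ := mem_image.1 hS
  exact ⟨(tset_eq hc hu).symm, comp_D (mem_filter.1 hv).2 (mem_tset.1 hu)⟩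

theorem TT_nonempty {S : Finset (Fin n)} (hS : S ∈ TT c π D) : S.Nonempty := by
  obtain ⟨v, _, rfl⟩ := mem_image.1 hS
  exact ⟨v, self_mem_tset v⟩

theorem tset_mem_TT {v : Fin n} (hv : D (rep (hOf π) v) = true) : tset c π D v ∈ TT c π D :=
  mem_image.2 ⟨v, mem_filter.2 ⟨mem_univ _, hv⟩, rfl⟩

theorem AA_spec (h : DInv c π) {S : Finset (Fin n)} (hS : S ∈ AA c π D) {u : Fin n}
    (hu : u ∈ S) : S = part π u ∧ geA (cadj c (hOf π)) D (rep (hOf π) u) = true := by
  obtain ⟨v, hv, rfl⟩ := mem_image.1 hS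
  refine ⟨(h.part_eq hu).symm, ?_⟩
  rw [h.rep_eq_iff.2 hu]
  exact (mem_filter.1 hv).2

theorem AA_nonempty {S : Finset (Fin n)} (hS : S ∈ AA c π D) : S.Nonempty := by
  obtain ⟨v, _, rfl⟩ := mem_image.1 hS
  exact ⟨v, mem_part_self π v⟩

theorem part_mem_AA {v : Fin n} (hv : geA (cadj c (hOf π)) D (rep (hOf π) v) = true) :
    part π v ∈ AA c π D :=
  mem_image.2 ⟨v, mem_filter.2 ⟨mem_univ _, hv⟩, rfl⟩

theorem geA_notD {g : Gr n} {v : Fin n} (hv : geA g D v = true) : D v = false := by
  simp only [geA, Bool.and_eq_true, Bool.not_eq_true'] at hv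
  exact hv.1

theorem sum_TT (hc : Symm c) (u v : Fin n) :
    (∑ S with u ∈ S ∧ v ∈ S, (if S ∈ TT c π D then 1 else 0 : ℤ)) =
      if D (rep (hOf π) u) = true ∧
        comp (cadj c (hOf π)) D (rep (hOf π) u) (rep (hOf π) v) = true then 1 else 0 := by
  split_ifs with hcond
  · rw [sum_eq_single (tset c π D u)]
    · rw [if_pos (tset_mem_TT hcond.1)]
    · intro S hS hne
      rw [if_neg]
      intro hT
      exact hne (TT_spec hc hT (mem_filter.1 hS).2.1).1
    · intro hnot
      exact absurd (mem_filter.2 ⟨mem_univ _, self_mem_tset u, mem_tset.2 hcond.2⟩) hnot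
  · refine sum_eq_zero fun S hS => if_neg fun hT => hcond ?_
    obtain ⟨e, hD⟩ := TT_spec hc hT (mem_filter.1 hS).2.1
    refine ⟨hD, mem_tset.1 ?_⟩
    rw [← e]
    exact (mem_filter.1 hS).2.2

theorem sum_AA (h : DInv c π) (u v : Fin n) :
    (∑ S with u ∈ S ∧ v ∈ S, (if S ∈ AA c π D then 1 else 0 : ℤ)) =
      if geA (cadj c (hOf π)) D (rep (hOf π) u) = true ∧ rep (hOf π) u = rep (hOf π) v then 1
      else 0 := by
  split_ifs with hcond
  · rw [sum_eq_single (part π u)]
    · rw [if_pos (part_mem_AA hcond.1)]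
    · intro S hS hne
      rw [if_neg]
      intro hT
      exact hne (AA_spec h hT (mem_filter.1 hS).2.1).1
    · intro hnot
      exact absurd (mem_filter.2 ⟨mem_univ _, mem_part_self π u,
        h.rep_eq_iff.1 hcond.2.symm⟩) hnot
  · refine sum_eq_zero fun S hS => if_neg fun hT => hcond ?_
    obtain ⟨e, hA⟩ := AA_spec h hT (mem_filter.1 hS).2.1
    refine ⟨hA, (h.rep_eq_iff.2 ?_).symm⟩
    rw [← e]
    exact (mem_filter.1 hS).2.2

theorem hOf_pnew (hc : Symm c) (h : DInv c π) :
    hOf (pnew c π D) = dupd (cadj c (hOf π)) D (hOf π) := by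
  funext u v
  simp only [dupd]
  rw [← sum_TT hc u v, ← sum_AA h u v]
  simp only [hOf, pnew, sum_sub_distrib, sum_add_distrib]

theorem comp_rep (h : DInv c π) {p q : Fin n} (hp : rep (hOf π) p = p)
    (hpq : comp (cadj c (hOf π)) D p q = true) : rep (hOf π) q = q := by
  rcases comp_cases hpq with rfl | ⟨_, a, ha⟩
  · exact hp
  · exact (h.cadj_rep ha).2

/-- The expansion of a near-perfect matching of a component. -/
theorem glue_tset (hc : Symm c) (h : DInv c π) (hG : GE (cadj c (hOf π)) D d) {v : Fin n}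
    (hv : D (rep (hOf π) v) = true) :
    ∃ N, IsInv N ∧ fixs N = insert v (tset c π D v)ᶜ ∧
      2 * ((cost c N : ℕ) : ℤ) + 1 ≤
        2 * ∑ T with T ⊆ tset c π D v ∧ v ∉ T, π T + (tset c π D v).card := by
  obtain ⟨τ, hτ, hfix, hrest⟩ := hG.crit _ hv
  obtain ⟨N, hN, hf, hcost⟩ := h.glue hc hτ (X := tset c π D v)
    (fun u => by rw [mem_tset, mem_tset, h.rep_rep]) (some v)
    (fun w hw => by
      obtain rfl : v = w := by simpa using hw
      exact ⟨self_mem_tset _, hfix⟩)
    (fun p hp hrp hne => by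
      have h1 := mem_tset.1 hp
      rw [hrp] at h1
      obtain ⟨h2, h3⟩ := hrest p h1 (hne v rfl).symm
      refine ⟨h2, mem_tset.2 ?_⟩
      rw [comp_rep h (h.rep_rep v) h3]
      exact h3)
  refine ⟨N, hN, ?_, ?_⟩
  · rw [hf]; ext u; simp
  · simpa using hcost

theorem TT_odd (hc : Symm c) (h : DInv c π) (hG : GE (cadj c (hOf π)) D d) {S : Finset (Fin n)}
    (hS : S ∈ TT c π D) : Odd S.card := by
  obtain ⟨v, hv⟩ := TT_nonempty hS
  obtain ⟨e, hD⟩ := TT_spec hc hS hv
  obtain ⟨N, hN, hf, -⟩ := glue_tset hc h hG hD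
  rw [← e] at hf
  have hcl : ∀ u ∈ S, N u ∈ S := by
    intro u hu
    by_contra hnot
    have h1 : N u ∈ fixs N := by
      rw [hf]; exact mem_insert_of_mem (mem_compl.2 hnot)
    have h2 : N (N u) = N u := mem_fixs.1 h1
    rw [hN u] at h2
    exact hnot (h2 ▸ hu)
  have h1 := card_closed_mod hN hcl
  have h2 : (S.filter fun w => N w = w) = {v} := by
    ext w
    rw [mem_filter, ← mem_fixs, hf, mem_singleton, mem_insert, mem_compl]
    constructor
    · rintro ⟨hw, rfl | hw'⟩
      · rfl
      · exact absurd hw hw'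
    · rintro rfl
      exact ⟨hv, Or.inl rfl⟩
  rw [h2, card_singleton] at h1
  exact Nat.odd_iff.2 h1

theorem pnew_ne_zero {S : Finset (Fin n)} (hS : pnew c π D S ≠ 0) :
    π S ≠ 0 ∨ S ∈ TT c π D ∨ S ∈ AA c π D := by
  by_contra hcon
  simp only [not_or, not_not] at hcon
  exact hS (by simp [pnew, hcon.1, hcon.2.1, hcon.2.2])

theorem pnew_lam (hc : Symm c) (h : DInv c π) (S T : Finset (Fin n)) (hS : pnew c π D S ≠ 0)
    (hT : pnew c π D T ≠ 0) : S ⊆ T ∨ T ⊆ S ∨ Disjoint S T := by
  by_cases hdis : Disjoint S T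
  · exact Or.inr (Or.inr hdis)
  obtain ⟨x, hxS, hxT⟩ := not_disjoint_iff.1 hdis
  have key1 : ∀ W : Finset (Fin n), pnew c π D W ≠ 0 → x ∈ W → W ⊆ tset c π D x := by
    intro W hW hx
    rcases pnew_ne_zero hW with h1 | h1 | h1
    · exact (h.subset_part h1 hx).trans (part_subset_tset h x)
    · exact (TT_spec hc h1 hx).1.le
    · exact (AA_spec h h1 hx).1.le.trans (part_subset_tset h x)
  have key2 : ∀ W : Finset (Fin n), pnew c π D W ≠ 0 → x ∈ W → W ∉ TT c π D → W ⊆ part π x := by
    intro W hW hx hn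
    rcases pnew_ne_zero hW with h1 | h1 | h1
    · exact h.subset_part h1 hx
    · exact absurd h1 hn
    · exact (AA_spec h h1 hx).1.le
  by_cases hST : S ∈ TT c π D
  · exact Or.inr (Or.inl ((key1 T hT hxT).trans (TT_spec hc hST hxS).1.ge))
  by_cases hTT : T ∈ TT c π D
  · exact Or.inl ((key1 S hS hxS).trans (TT_spec hc hTT hxT).1.ge)
  by_cases hSA : S ∈ AA c π D
  · exact Or.inr (Or.inl ((key2 T hT hxT hTT).trans (AA_spec h hSA hxS).1.ge))
  by_cases hTA : T ∈ AA c π D
  · exact Or.inl ((key2 S hS hxS hST).trans (AA_spec h hTA hxT).1.ge)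
  have h1 : π S ≠ 0 := by
    rcases pnew_ne_zero hS with h1 | h1 | h1
    exacts [h1, absurd h1 hST, absurd h1 hSA]
  have h2 : π T ≠ 0 := by
    rcases pnew_ne_zero hT with h1 | h1 | h1
    exacts [h1, absurd h1 hTT, absurd h1 hTA]
  exact h.lam S T h1 h2

theorem pnew_feas (hc : Symm c) (h : DInv c π) (u v : Fin n) (huv : u ≠ v) :
    ∑ S with (u ∈ S ↔ v ∉ S), pnew c π D S ≤ c u v := by
  rw [← load_hOf, hOf_pnew hc h]
  have h0 : load (hOf π) u v ≤ c u v := by rw [load_hOf]; exact h.feas u v huv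
  have hcs : ∀ p, comp (cadj c (hOf π)) D p p = true := comp_self _ _
  by_cases hr : rep (hOf π) u = rep (hOf π) v
  · simp only [load, dupd, hr, hcs, and_true] at h0 ⊢
    linarith
  by_cases hg : cadj c (hOf π) (rep (hOf π) u) (rep (hOf π) v) = true
  · have hg' : cadj c (hOf π) (rep (hOf π) v) (rep (hOf π) u) = true := by
      rw [(cadj_simple hc π).1]; exact hg
    by_cases hDu : D (rep (hOf π) u) = true <;> by_cases hDv : D (rep (hOf π) v) = true
    · have h1 := comp_adj hg hDu hDv
      simp only [load, dupd, hr, hcs, and_true, hDu, hDv, h1, and_false, if_true, if_false]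
        at h0 ⊢
      split_ifs <;> linarith
    · have h1 : geA (cadj c (hOf π)) D (rep (hOf π) v) = true := by
        simp only [geA, Bool.and_eq_true, Bool.not_eq_true', decide_eq_true_eq]
        exact ⟨by simpa using hDv, _, hDu, hg⟩
      simp only [load, dupd, hr, hcs, and_true, hDu, hDv, h1, and_false, if_true, if_false,
        true_and] at h0 ⊢
      split_ifs <;> first | linarith | contradiction
    · have h1 : geA (cadj c (hOf π)) D (rep (hOf π) u) = true := by
        simp only [geA, Bool.and_eq_true, Bool.not_eq_true', decide_eq_true_eq]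
        exact ⟨by simpa using hDu, _, hDv, hg'⟩
      simp only [load, dupd, hr, hcs, and_true, hDu, hDv, h1, and_false, if_true, if_false,
        true_and] at h0 ⊢
      split_ifs <;> first | linarith | (exfalso; tauto)
    · simp only [load, dupd, hr, hcs, and_true, hDu, hDv, and_false, if_false] at h0 ⊢
      split_ifs <;> first | linarith | (exfalso; tauto)
  · have h1 : load (hOf π) u v + 2 ≤ c u v := by
      by_contra hcon
      refine hg ?_
      simp only [cadj, decide_eq_true_eq]
      exact ⟨hr, u, v, rfl, rfl, by linarith⟩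
    simp only [load, dupd, hr, hcs, and_true, and_false, if_false] at h1 ⊢
    split_ifs <;> linarith

theorem pnew_crit (hc : Symm c) (h : DInv c π) (hG : GE (cadj c (hOf π)) D d)
    (S : Finset (Fin n)) (hS : 0 < pnew c π D S ∨ S.card = 1) (v : Fin n) (hv : v ∈ S) :
    ∃ N, IsInv N ∧ fixs N = insert v Sᶜ ∧
      2 * ((cost c N : ℕ) : ℤ) + 1 ≤ 2 * ∑ T with T ⊆ S ∧ v ∉ T, pnew c π D T + S.card := by
  by_cases hST : S ∈ TT c π D
  · obtain ⟨e, hD⟩ := TT_spec hc hST hv
    obtain ⟨N, hN, hf, hcost⟩ := glue_tset hc h hG hD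
    rw [← e] at hf hcost
    refine ⟨N, hN, hf, ?_⟩
    have : ∑ T with T ⊆ S ∧ v ∉ T, pnew c π D T = ∑ T with T ⊆ S ∧ v ∉ T, π T := by
      refine sum_congr rfl fun T hT => ?_
      obtain ⟨hTS, hvT⟩ := (mem_filter.1 hT).2
      have h1 : T ∉ TT c π D := by
        intro h1
        obtain ⟨x, hx⟩ := TT_nonempty h1
        refine hvT ?_
        rw [(TT_spec hc h1 hx).1, ← (TT_spec hc hST (hTS hx)).1]
        exact hv
      have h2 : T ∉ AA c π D := by
        intro h2
        obtain ⟨x, hx⟩ := AA_nonempty h2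
        have h3 := geA_notD (AA_spec h h2 hx).2
        rw [(TT_spec hc hST (hTS hx)).2] at h3
        exact absurd h3 (by simp)
      simp [pnew, h1, h2]
    rw [this]
    exact hcost
  · have hlive : 0 < π S ∨ S.card = 1 := by
      rcases hS with hS | hS
      · left
        simp only [pnew, if_neg hST] at hS
        split_ifs at hS <;> linarith
      · exact Or.inr hS
    have hsub : S ⊆ part π v := by
      rcases hlive with h1 | h1
      · exact h.subset_part h1.ne' hv
      · obtain ⟨w, rfl⟩ := card_eq_one.1 h1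
        obtain rfl : v = w := mem_singleton.1 hv
        exact singleton_subset_iff.2 (mem_part_self π v)
    obtain ⟨N, hN, hf, hcost⟩ := h.crit S hlive v hv
    refine ⟨N, hN, hf, ?_⟩
    have : ∑ T with T ⊆ S ∧ v ∉ T, pnew c π D T = ∑ T with T ⊆ S ∧ v ∉ T, π T := by
      refine sum_congr rfl fun T hT => ?_
      obtain ⟨hTS, hvT⟩ := (mem_filter.1 hT).2
      have h0 : ∀ x ∈ T, ¬ part π x ⊆ T := by
        intro x hx hp
        rw [h.part_eq (hsub (hTS hx))] at hp
        exact hvT (hp (mem_part_self π v))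
      have h1 : T ∉ TT c π D := by
        intro h1
        obtain ⟨x, hx⟩ := TT_nonempty h1
        exact h0 x hx ((part_subset_tset h x).trans (TT_spec hc h1 hx).1.ge)
      have h2 : T ∉ AA c π D := by
        intro h2
        obtain ⟨x, hx⟩ := AA_nonempty h2
        exact h0 x hx (AA_spec h h2 hx).1.ge
      simp [pnew, h1, h2]
    rw [this]
    exact hcost

theorem pnew_dinv (hc : Symm c) (h : DInv c π) (hG : GE (cadj c (hOf π)) D d) :
    DInv c (pnew c π D) := by
  refine ⟨fun S hS => ?_, fun S hS => ?_, pnew_lam hc h, pnew_feas hc h, pnew_crit hc h hG⟩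
  · rcases pnew_ne_zero hS with h1 | h1 | h1
    · exact h.odd S h1
    · exact TT_odd hc h hG h1
    · obtain ⟨x, hx⟩ := AA_nonempty h1
      rw [(AA_spec h h1 hx).1]
      exact h.part_odd x
  · have h0 := h.nonneg S hS
    by_cases hA : S ∈ AA c π D
    · obtain ⟨x, hx⟩ := AA_nonempty hA
      have e := (AA_spec h hA hx).1
      have h1 : 0 < π S := by
        rcases h.part_live x with h1 | h1
        · rw [e]; exact h1
        · rw [← e] at h1; exact absurd h1 hS
      simp only [pnew]
      split_ifs <;> linarith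
    · simp only [pnew, if_neg hA]
      split_ifs <;> linarith

theorem geA_rep (h : DInv c π) {v : Fin n} (hv : geA (cadj c (hOf π)) D v = true) :
    rep (hOf π) v = v := by
  simp only [geA, Bool.and_eq_true, decide_eq_true_eq] at hv
  obtain ⟨-, u, -, hu⟩ := hv
  exact (h.cadj_rep hu).2

theorem card_AA (h : DInv c π) :
    (AA c π D).card = (univ.filter fun v => geA (cadj c (hOf π)) D v = true).card := by
  have e : AA c π D = (univ.filter fun v => geA (cadj c (hOf π)) D v = true).image (part π) := by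
    ext S
    simp only [AA, mem_image, mem_filter, mem_univ, true_and]
    constructor
    · rintro ⟨v, hv, rfl⟩
      exact ⟨_, hv, h.part_eq (h.rep_mem v)⟩
    · rintro ⟨v, hv, rfl⟩
      exact ⟨v, by rw [geA_rep h hv]; exact hv, rfl⟩
  rw [e]
  refine card_image_of_injOn fun p hp q hq hpq => ?_
  have hp' := geA_rep h (mem_filter.1 (mem_coe.1 hp)).2
  have hq' := geA_rep h (mem_filter.1 (mem_coe.1 hq)).2
  have : p ∈ part π q := hpq ▸ mem_part_self π p
  rw [← hp', ← hq']
  exact h.rep_eq_iff.2 this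

theorem card_TT (hc : Symm c) (h : DInv c π) (hG : GE (cadj c (hOf π)) D d) :
    (TT c π D).card + inact (hOf π) = d + (AA c π D).card := by
  obtain ⟨U, hcard, hUD, huniq⟩ := hG.cnt
  rw [card_AA h, ← hcard, ← card_filter_add_card_filter_not (s := U) fun u => rep (hOf π) u = u]
  congr 1
  · have e : TT c π D = (U.filter fun u => rep (hOf π) u = u).image (tset c π D) := by
      ext S
      simp only [TT, mem_image, mem_filter, mem_univ, true_and]
      constructor
      · rintro ⟨v, hv, rfl⟩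
        obtain ⟨u, ⟨hu, hvu⟩, -⟩ := huniq _ hv
        have hr := comp_rep h (h.rep_rep v) hvu
        exact ⟨u, ⟨hu, hr⟩, tset_eq hc (mem_tset.2 (by rw [hr]; exact hvu))⟩
      · rintro ⟨u, ⟨hu, hr⟩, rfl⟩
        exact ⟨u, by rw [hr]; exact hUD u hu, rfl⟩
    rw [e]
    refine card_image_of_injOn fun p hp q hq hpq => ?_
    obtain ⟨hpU, hp'⟩ := mem_filter.1 (mem_coe.1 hp)
    obtain ⟨hqU, hq'⟩ := mem_filter.1 (mem_coe.1 hq)
    have h1 : p ∈ tset c π D q := hpq ▸ self_mem_tset p
    rw [mem_tset, hp', hq'] at h1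
    exact (huniq q (hUD q hqU)).unique ⟨hpU, h1⟩ ⟨hqU, comp_self _ _ _⟩
  · unfold inact
    congr 1
    ext u
    simp only [mem_filter, mem_univ, true_and]
    refine ⟨fun hu => ⟨?_, hu⟩, fun hu => hu.2⟩
    have hD : D u = true := hG.iso u fun w => by
      by_contra hw
      exact hu (h.cadj_rep (by simpa using hw)).1
    obtain ⟨w, ⟨hw, huw⟩, -⟩ := huniq u hD
    rcases comp_cases (comp_symm (cadj_simple hc π) huw) with e | ⟨-, a, ha⟩
    · rw [e]; exact hw
    · exact absurd (h.cadj_rep ha).2 hu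

end DualAux

/-- The dual step. -/
theorem DInv.step (hc : Symm c) (h : DInv c π) {D : Fin n → Bool} {d : ℕ}
    (hG : GE (cadj c (hOf π)) D d) :
    ∃ π', DInv c π' ∧ hOf π' = dupd (cadj c (hOf π)) D (hOf π) ∧
      ∑ S, π' S + inact (hOf π) = ∑ S, π S + d := by
  refine ⟨DualAux.pnew c π D, DualAux.pnew_dinv hc h hG, DualAux.hOf_pnew hc h, ?_⟩
  have h1 : ((DualAux.TT c π D).card : ℤ) + inact (hOf π) = d + (DualAux.AA c π D).card := by
    exact_mod_cast DualAux.card_TT hc h hG
  simp only [DualAux.pnew, sum_sub_distrib, sum_add_distrib, sum_boole, filter_mem_eq_inter,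
    univ_inter]
  linarith

end Crest.Agent.R304
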