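import Crest.Agent.R304.MW
import Crest.Prelude.Def_MatchingPolytope

/-!
# Row 304: Edmonds' description of the perfect-matching polytope
-/

set_option autoImplicit false

namespace Crest.Agent.R304

open Finset Crest.Matchings

variable {n k : ℕ}

/-- The edge `e` has exactly one end in `S`. -/
def Cross (ends : Fin k → Fin n × Fin n) (S : Finset (Fin n)) (e : Fin k) : Prop :=
  ((ends e).1 ∈ S ↔ (ends e).2 ∉ S)

instance (ends : Fin k → Fin n × Fin n) (S : Finset (Fin n)) : DecidablePred (Cross ends S) :=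
  fun _ => inferInstanceAs (Decidable (_ ↔ _))

/-- The total weight of the edges leaving `S`. -/
def cut (ends : Fin k → Fin n × Fin n) (x : Fin k → ℝ) (S : Finset (Fin n)) : ℝ :=
  ∑ e with Cross ends S e, x e

/-- Edmonds' constraints. -/
structure Edm (ends : Fin k → Fin n × Fin n) (x : Fin k → ℝ) : Prop where
  nonneg : ∀ e, 0 ≤ x e
  deg : ∀ v, cut ends x {v} = 1
  odd : ∀ S : Finset (Fin n), Odd S.card → 1 ≤ cut ends x S

theorem edmonds_cross_single {ends : Fin k → Fin n × Fin n} (hends : ∀ e, (ends e).1 ≠ (ends e).2)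
    (v : Fin n) (e : Fin k) : Cross ends {v} e ↔ (ends e).1 = v ∨ (ends e).2 = v := by
  have := hends e
  simp only [Cross, mem_singleton]
  grind

theorem edmonds_cut_univ (ends : Fin k → Fin n × Fin n) (x : Fin k → ℝ) :
    cut ends x univ = 0 := by
  simp [cut, Cross]

theorem edmonds_count {ends : Fin k → Fin n × Fin n} (hends : ∀ e, (ends e).1 ≠ (ends e).2)
    (x : Fin k → ℝ) (S : Finset (Fin n)) :
    ∑ v ∈ S, cut ends x {v} =
      cut ends x S + 2 * ∑ e with (ends e).1 ∈ S ∧ (ends e).2 ∈ S, x e := by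
  simp only [cut, sum_filter, mul_sum, ← sum_add_distrib]
  rw [sum_comm]
  refine sum_congr rfl fun e _ => ?_
  have h : ∀ v, (if Cross ends {v} e then x e else 0) =
      (if (ends e).1 = v then x e else 0) + if (ends e).2 = v then x e else 0 := by
    intro v
    have := hends e
    simp only [edmonds_cross_single hends]
    by_cases h1 : (ends e).1 = v <;> by_cases h2 : (ends e).2 = v <;> simp_all
  simp only [h, sum_add_distrib, sum_ite_eq]
  by_cases h1 : (ends e).1 ∈ S <;> by_cases h2 : (ends e).2 ∈ S <;> simp [Cross, h1, h2, two_mul]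

theorem edmonds_sum_ind (M : Finset (Fin k)) (p : Fin k → Prop) [DecidablePred p] :
    ∑ e with p e, pmIndicator M e = ((M.filter p).card : ℝ) := by
  simp only [pmIndicator, sum_boole, filter_filter]
  congr 2
  ext e
  simp [and_comm]

theorem edmonds_ind {ends : Fin k → Fin n × Fin n} (hends : ∀ e, (ends e).1 ≠ (ends e).2)
    {M : Finset (Fin k)} (hM : IsPerfectMatching ends M) : Edm ends (pmIndicator M) := by
  have hdeg : ∀ v, cut ends (pmIndicator M) {v} = 1 := fun v => by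
    rw [cut, edmonds_sum_ind, filter_congr fun e _ => edmonds_cross_single hends v e, hM v]
    simp
  refine ⟨fun e => ?_, hdeg, fun S hS => ?_⟩
  · unfold pmIndicator
    split_ifs <;> norm_num
  · have h := edmonds_count hends (pmIndicator M) S
    simp only [hdeg, sum_const, nsmul_eq_mul, mul_one] at h
    rw [cut, edmonds_sum_ind, edmonds_sum_ind] at h
    rw [cut, edmonds_sum_ind]
    norm_cast at h ⊢
    obtain ⟨m, hm⟩ := hS
    omega

theorem edm_of_mem {ends : Fin k → Fin n × Fin n} (hends : ∀ e, (ends e).1 ≠ (ends e).2)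
    {x : Fin k → ℝ} (hx : x ∈ pmPolytope ends) : Edm ends x := by
  refine convexHull_min (t := {x | Edm ends x}) ?_ ?_ hx
  · rintro _ ⟨M, hM, rfl⟩
    exact edmonds_ind hends hM
  · intro y hy z hz a b ha hb hab
    have hc : ∀ S, cut ends (a • y + b • z) S = a * cut ends y S + b * cut ends z S := fun S => by
      simp only [cut, Pi.add_apply, Pi.smul_apply, smul_eq_mul, sum_add_distrib, mul_sum]
    refine ⟨fun e => ?_, fun v => ?_, fun S hS => ?_⟩
    · exact add_nonneg (mul_nonneg ha (hy.nonneg e)) (mul_nonneg hb (hz.nonneg e))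
    · rw [hc, hy.deg, hz.deg]
      linarith
    · rw [hc]
      nlinarith [hy.odd S hS, hz.odd S hS]

theorem Edm.sum_eq {ends : Fin k → Fin n × Fin n} (hends : ∀ e, (ends e).1 ≠ (ends e).2)
    {x : Fin k → ℝ} (hx : Edm ends x) : 2 * ∑ e, x e = n := by
  have h := edmonds_count hends x univ
  simpa [hx.deg, edmonds_cut_univ] using h.symm

/-- Fractional weak duality. -/
theorem edmonds_weak {ends : Fin k → Fin n × Fin n} (hends : ∀ e, (ends e).1 ≠ (ends e).2)
    {x : Fin k → ℝ} (hx : Edm ends x) {c : Fin n → Fin n → ℕ} {π : Finset (Fin n) → ℤ}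
    (h : DInv c π) : ((∑ S, π S : ℤ) : ℝ) ≤ ∑ e, x e * c (ends e).1 (ends e).2 := by
  have h1 : ∀ S, (π S : ℝ) ≤ π S * cut ends x S := fun S => by
    by_cases h0 : π S = 0
    · simp [h0]
    by_cases hc : S.card = 1
    · obtain ⟨v, rfl⟩ := card_eq_one.1 hc
      rw [hx.deg, mul_one]
    · have h2 : (0 : ℝ) ≤ π S := by exact_mod_cast h.nonneg S hc
      exact le_mul_of_one_le_right h2 (hx.odd S (h.odd S h0))
  push_cast
  refine (sum_le_sum fun S _ => h1 S).trans ?_
  simp only [cut, sum_filter, mul_sum]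
  rw [sum_comm]
  refine sum_le_sum fun e _ => ?_
  have h2 : ((∑ S with ((ends e).1 ∈ S ↔ (ends e).2 ∉ S), π S : ℤ) : ℝ) ≤
      c (ends e).1 (ends e).2 := by exact_mod_cast h.feas _ _ (hends e)
  refine le_trans (le_of_eq ?_) (mul_le_mul_of_nonneg_left h2 (hx.nonneg e))
  push_cast
  rw [sum_filter, mul_sum]
  refine sum_congr rfl fun S _ => ?_
  by_cases hS : Cross ends S e
  · rw [if_pos hS, if_pos (show _ ↔ _ from hS), mul_comm]
  · rw [if_neg hS, if_neg (show ¬(_ ↔ _) from hS), mul_zero, mul_zero]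

/-- From a perfect matching of the complete graph along edges to a set of edges. -/
theorem edmonds_lift {ends : Fin k → Fin n × Fin n} (ce : Fin k → ℕ) (c : Fin n → Fin n → ℕ)
    (N : PM n) (h : ∀ v, v < N.1 v → ∃ e, (ends e = (v, N.1 v) ∨ ends e = (N.1 v, v)) ∧
      ce e ≤ c v (N.1 v)) :
    ∃ M, IsPerfectMatching ends M ∧ ∑ e ∈ M, ce e ≤ cost c N.1 := by
  obtain ⟨σ, hi, hσ⟩ := N
  choose ε h1 h2 using fun v : {v // v < σ v} => h v.1 v.2
  have key : ∀ (v : {v // v < σ v}) (w : Fin n),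
      ((ends (ε v)).1 = w ∨ (ends (ε v)).2 = w) ↔ (v.1 = w ∨ σ v.1 = w) := fun v w => by
    rcases h1 v with h | h <;> simp [h, or_comm]
  have uniq : ∀ (v v' : {v // v < σ v}) (w : Fin n), (v.1 = w ∨ σ v.1 = w) →
      (v'.1 = w ∨ σ v'.1 = w) → v = v' := by
    rintro ⟨v, hv⟩ ⟨v', hv'⟩ w h h'
    have a1 := hi v
    have a2 := hi v'
    refine Subtype.ext ?_
    grind
  have inj : Function.Injective ε := fun v v' e =>
    uniq v v' v.1 (Or.inl rfl) ((key v' _).1 (e ▸ (key v _).2 (Or.inl rfl)))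
  refine ⟨univ.map ⟨ε, inj⟩, fun w => ?_, ?_⟩
  · obtain ⟨v, hv⟩ : ∃ v : {v // v < σ v}, v.1 = w ∨ σ v.1 = w := by
      rcases lt_or_gt_of_ne (hσ w) with h | h
      · exact ⟨⟨σ w, by rwa [hi w]⟩, Or.inr (hi w)⟩
      · exact ⟨⟨w, h⟩, Or.inl rfl⟩
    refine card_eq_one.2 ⟨ε v, eq_singleton_iff_unique_mem.2 ⟨?_, fun e he => ?_⟩⟩
    · exact mem_filter.2 ⟨mem_map.2 ⟨v, mem_univ _, rfl⟩, (key v w).2 hv⟩
    · obtain ⟨he, hw⟩ := mem_filter.1 he
      obtain ⟨v', -, rfl⟩ := mem_map.1 he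
      exact congrArg ε (uniq v' v w ((key v' w).1 hw) hv)
  · rw [sum_map, cost, ← sum_filter,
      sum_subtype (univ.filter fun v => v < σ v) (p := fun v => v < σ v) (by simp)]
    exact sum_le_sum fun v _ => h2 v

theorem edmonds_approx {ends : Fin k → Fin n × Fin n} (hends : ∀ e, (ends e).1 ≠ (ends e).2)
    {x : Fin k → ℝ} (hx : Edm ends x) (ce : Fin k → ℕ) :
    ∃ M, IsPerfectMatching ends M ∧ 2 * ∑ e ∈ M, (ce e : ℝ) ≤ 2 * ∑ e, x e * ce e + n := by
  have hn : Even n := by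
    by_contra h
    have := hx.odd univ (by simpa using h)
    rw [edmonds_cut_univ] at this
    linarith
  obtain ⟨B, hB⟩ := exists_nat_gt (∑ e, x e * ce e + n)
  let c : Fin n → Fin n → ℕ := fun u v =>
    (univ.filter fun e => ends e = (u, v) ∨ ends e = (v, u)).fold min B ce
  have hs : Symm c := fun u v => by simp only [c, or_comm]
  have hb : ∀ u v, c u v ≤ B := fun u v => (fold_min_le _).2 (Or.inl le_rfl)
  have hc : ∀ e, c (ends e).1 (ends e).2 ≤ ce e := fun e =>
    (fold_min_le _).2 (Or.inr ⟨e, by simp, le_rfl⟩)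
  obtain ⟨π, hπ, -, N, hN⟩ := drun_spec hn hs hb
  have h1 := edmonds_weak hends hx hπ
  have h2 : ∑ e, x e * (c (ends e).1 (ends e).2 : ℝ) ≤ ∑ e, x e * ce e :=
    sum_le_sum fun e _ => mul_le_mul_of_nonneg_left (by exact_mod_cast hc e) (hx.nonneg e)
  have h3 : 2 * ((cost c N.1 : ℕ) : ℝ) ≤ 2 * ((∑ S, π S : ℤ) : ℝ) + n := by exact_mod_cast hN
  have h4 : cost c N.1 < B := by
    have : ((cost c N.1 : ℕ) : ℝ) < B := by linarith [Nat.cast_nonneg (α := ℝ) n]
    exact_mod_cast this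
  obtain ⟨M, hM, h5⟩ := edmonds_lift (ends := ends) ce c N fun v hv => by
    have h6 : c v (N.1 v) ≤ cost c N.1 := by
      have := single_le_sum (f := fun v => if v < N.1 v then c v (N.1 v) else 0)
        (fun _ _ => Nat.zero_le _) (mem_univ v)
      rwa [if_pos hv] at this
    rcases (fold_min_le _).1 (le_refl (c v (N.1 v))) with h | ⟨e, he, h⟩
    · omega
    · exact ⟨e, (mem_filter.1 he).2, h⟩
  have h6 : ∑ e ∈ M, (ce e : ℝ) ≤ (cost c N.1 : ℕ) := by exact_mod_cast h5
  exact ⟨M, hM, by linarith⟩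

theorem Edm.mem {ends : Fin k → Fin n × Fin n} (hends : ∀ e, (ends e).1 ≠ (ends e).2)
    {x : Fin k → ℝ} (hx : Edm ends x) : x ∈ pmPolytope ends := by
  by_contra hn
  obtain ⟨f, u, h1, h2⟩ := geometric_hahn_banach_point_closed (convex_convexHull ℝ _)
    (((Set.toFinite _).image _).isClosed_convexHull ℝ) hn
  obtain ⟨a, ha⟩ : ∃ a : Fin k → ℝ, ∀ y, f y = ∑ e, y e * a e :=
    ⟨_, fun y => LinearMap.pi_apply_eq_sum_univ f.toLinearMap y⟩
  obtain ⟨R, hR⟩ : ∃ R : ℝ, ∀ e, 0 ≤ a e + R := ⟨∑ e, |a e|, fun e => by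
    have := single_le_sum (f := fun e => |a e|) (fun _ _ => abs_nonneg _) (mem_univ e)
    linarith [neg_abs_le (a e)]⟩
  set K : ℝ := n / (u - f x) with hK
  have hu : 0 < u - f x := sub_pos.2 h1
  have hK0 : 0 ≤ K + 1 := by positivity
  have hK1 : K * (u - f x) = n := by rw [hK]; field_simp
  obtain ⟨M, hM, h3⟩ := edmonds_approx hends hx fun e => ⌈(K + 1) * (a e + R)⌉₊
  have h4 := h2 _ (subset_convexHull ℝ _ ⟨M, hM, rfl⟩)
  have h5 := (edmonds_ind hends hM).sum_eq hends
  have h6 := hx.sum_eq hends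
  have h7 : ∑ e, pmIndicator M e * ((K + 1) * (a e + R)) ≤
      ∑ e ∈ M, (⌈(K + 1) * (a e + R)⌉₊ : ℝ) := by
    simp only [pmIndicator, ite_mul, one_mul, zero_mul, sum_ite_mem, univ_inter]
    exact sum_le_sum fun e _ => Nat.le_ceil _
  have h8 : ∑ e, x e * (⌈(K + 1) * (a e + R)⌉₊ : ℝ) ≤ ∑ e, x e * ((K + 1) * (a e + R) + 1) :=
    sum_le_sum fun e _ => mul_le_mul_of_nonneg_left
      (Nat.ceil_lt_add_one (mul_nonneg hK0 (hR e))).le (hx.nonneg e)
  have h9 : ∀ y : Fin k → ℝ, ∑ e, y e * ((K + 1) * (a e + R)) =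
      (K + 1) * (f y + R * ∑ e, y e) := fun y => by
    simp only [ha, mul_sum, ← sum_add_distrib]
    exact sum_congr rfl fun e _ => by ring
  simp only [mul_add _ _ (1 : ℝ), sum_add_distrib, mul_one, h9] at h8
  rw [h9] at h7
  have h10 : ∑ e, pmIndicator M e = ∑ e, x e := by linarith
  rw [h10] at h7
  have h11 : (K + 1) * u ≤ (K + 1) * f (pmIndicator M) := mul_le_mul_of_nonneg_left h4.le hK0
  nlinarith

end Crest.Agent.R304
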