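import Crest.Agent.R304.EntTwo

/-!
# Row 304: the entropy bound
-/

set_option autoImplicit false

namespace Crest.Agent.R304

open Finset Crest.Matchings

section Abstract

open scoped RealInnerProductSpace

/-- The trace of a quadratic inequality on the span of a finite family. -/
theorem Ent_trace {ι E : Type} [Fintype ι] [NormedAddCommGroup E] [InnerProductSpace ℝ E]
    [FiniteDimensional ℝ E] (ξ : ι → E) (D : ι → ℝ)
    (hD : ∀ w : ι → ℝ, ‖∑ e, w e • ξ e‖ ^ 2 ≤ ∑ e, D e * ⟪ξ e, ∑ e', w e' • ξ e'⟫ ^ 2) :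
    (Module.finrank ℝ (Submodule.span ℝ (Set.range ξ)) : ℝ) ≤ ∑ e, D e * ‖ξ e‖ ^ 2 := by
  set W := Submodule.span ℝ (Set.range ξ) with hW
  let b := stdOrthonormalBasis ℝ W
  have hξ : ∀ e, ξ e ∈ W := fun e => Submodule.subset_span ⟨e, rfl⟩
  have h1 : ∀ i, (1 : ℝ) ≤ ∑ e, D e * ⟪(⟨ξ e, hξ e⟩ : W), b i⟫ ^ 2 := fun i => by
    obtain ⟨w, hw⟩ := (Submodule.mem_span_range_iff_exists_fun ℝ).1 (b i).2
    have h := hD w
    rw [hw, Submodule.norm_coe, b.orthonormal.1 i, one_pow] at h
    exact h
  calc (Module.finrank ℝ W : ℝ) = ∑ _i : Fin (Module.finrank ℝ W), (1 : ℝ) := by simp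
    _ ≤ ∑ i, ∑ e, D e * ⟪(⟨ξ e, hξ e⟩ : W), b i⟫ ^ 2 := Finset.sum_le_sum fun i _ => h1 i
    _ = ∑ e, D e * ‖ξ e‖ ^ 2 := by
      rw [Finset.sum_comm]
      refine Finset.sum_congr rfl fun e _ => ?_
      rw [← Finset.mul_sum, b.sum_sq_inner_left]
      rfl

/-- Vectors orthogonal to all linear relations of a family span a space of dimension at most the
rank of the family. -/
theorem Ent_rank {ι E : Type} [Fintype ι] [DecidableEq ι] [AddCommGroup E] [Module ℝ E]
    (ξ : ι → E) (S : Set (ι → ℝ))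
    (hS : ∀ h ∈ S, ∀ w : ι → ℝ, ∑ e, w e • ξ e = 0 → ∑ e, w e * h e = 0) :
    Module.finrank ℝ (Submodule.span ℝ S) ≤
      Module.finrank ℝ (Submodule.span ℝ (Set.range ξ)) := by
  rw [← Fintype.range_linearCombination, ← LinearMap.finrank_range_dualMap_eq_finrank_range,
    LinearMap.range_dualMap_eq_dualAnnihilator_ker,
    ← LinearEquiv.finrank_map_eq (dotProductEquiv ℝ ι) (Submodule.span ℝ S)]
  refine Submodule.finrank_mono ?_
  rw [Submodule.map_le_iff_le_comap, Submodule.span_le]
  intro h hh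
  simp only [SetLike.mem_coe, Submodule.mem_comap, Submodule.mem_dualAnnihilator,
    LinearMap.mem_ker, Fintype.linearCombination_apply]
  intro w hw
  have := hS h hh w hw
  simpa [dotProductEquiv, dotProduct, mul_comm] using this

end Abstract

variable {n k : ℕ} {ends : Fin k → Fin n × Fin n}

theorem Ent_sum_marginal (p : Finset (Fin k) → ℝ) (w : Fin k → ℝ) :
    ∑ e, w e * marginal p e = ∑ M, p M * ∑ e ∈ M, w e := by
  simp only [marginal, Finset.sum_filter, Finset.mul_sum]
  rw [Finset.sum_comm]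
  refine Finset.sum_congr rfl fun M _ => ?_
  simp [mul_comm]

theorem Ent_marginal_nonneg {p : Finset (Fin k) → ℝ} (hp : IsMatchingLaw ends p) (e : Fin k) :
    0 ≤ marginal p e := Finset.sum_nonneg fun M _ => hp.1 M

theorem Ent_marginal_le {p : Finset (Fin k) → ℝ} (hp : IsMatchingLaw ends p) (e : Fin k) :
    marginal p e ≤ 1 := by
  rw [← hp.2.1]
  exact Finset.sum_le_sum_of_subset_of_nonneg (Finset.subset_univ _) fun M _ _ => hp.1 M

theorem Ent_mean_lin {q : Finset (Fin k) → ℝ} (hq : IsMatchingLaw ends q) (w : Fin k → ℝ) :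
    ∑ M, q M * lin q w M = 0 := by
  simp only [lin, mul_sub, Finset.sum_sub_distrib]
  rw [← Finset.sum_mul, hq.2.1, one_mul, Ent_sum_marginal, sub_self]

/-- The centred edge indicators in `L²(q)`. -/
noncomputable def EntXi (q : Finset (Fin k) → ℝ) (e : Fin k) :
    EuclideanSpace ℝ (Finset (Fin k)) :=
  WithLp.toLp 2 fun M => Real.sqrt (q M) * ((if e ∈ M then 1 else 0) - marginal q e)

theorem EntXi_sum (q : Finset (Fin k) → ℝ) (w : Fin k → ℝ) (M : Finset (Fin k)) :
    (∑ e, w e • EntXi q e) M = Real.sqrt (q M) * lin q w M := by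
  have : ∑ e ∈ M, w e = ∑ e, w e * if e ∈ M then 1 else 0 := by simp
  simp only [lin, this, WithLp.ofLp_sum, Finset.sum_apply, WithLp.ofLp_smul, Pi.smul_apply, EntXi,
    smul_eq_mul, ← Finset.sum_sub_distrib, Finset.mul_sum]
  exact Finset.sum_congr rfl fun e _ => by ring

theorem Ent_dir {q : Finset (Fin k) → ℝ} (hq : q ∈ eK ends) {h : Fin k → ℝ}
    (hh : h ∈ pmDirections ends (marginal q)) {w : Fin k → ℝ}
    (hw : ∀ M, 0 < q M → lin q w M = 0) : ∑ e, w e * h e = 0 := by
  obtain ⟨ε, hε, hh⟩ := hh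
  obtain ⟨p, hp, e1⟩ := exists_law_of_mem (hh (ε / 2) (by rw [abs_of_pos] <;> linarith))
  obtain ⟨p', hp', e2⟩ := exists_law_of_mem (hh (-(ε / 2)) (by rw [abs_neg, abs_of_pos] <;> linarith))
  have hl : IsMatchingLaw ends fun M => (p M + p' M) / 2 := by
    refine ⟨fun M => by linarith [hp.1 M, hp'.1 M], ?_, fun M hM => ?_⟩
    · rw [← Finset.sum_div, Finset.sum_add_distrib, hp.2.1, hp'.2.1]
      norm_num
    · by_contra hc
      have h1 : p M = 0 := by_contra fun h => hc (hp.2.2 M h)
      have h2 : p' M = 0 := by_contra fun h => hc (hp'.2.2 M h)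
      exact hM (by simp [h1, h2])
  have hm : marginal (fun M => (p M + p' M) / 2) = marginal q := by
    funext e
    have h1 := congrFun e1 e
    have h2 := congrFun e2 e
    simp only [Pi.add_apply, Pi.smul_apply, smul_eq_mul] at h1 h2
    have h3 : marginal (fun M => (p M + p' M) / 2) e = (marginal p e + marginal p' e) / 2 := by
      simp only [marginal, ← Finset.sum_div, Finset.sum_add_distrib]
    rw [h3, h1, h2]
    ring
  have h1 : ∑ M, p M * ∑ e ∈ M, w e = ∑ M, p M * ∑ e, w e * marginal q e := by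
    refine Finset.sum_congr rfl fun M _ => ?_
    rcases (hp.1 M).eq_or_lt with h0 | h0
    · rw [← h0, zero_mul, zero_mul]
    · have := hw M (eK_support hq hl hm (M := M) (by linarith [hp'.1 M]))
      rw [lin, sub_eq_zero] at this
      rw [this]
  rw [← Ent_sum_marginal, ← Finset.sum_mul, hp.2.1, one_mul, e1] at h1
  simp only [Pi.add_apply, Pi.smul_apply, smul_eq_mul, mul_add, Finset.sum_add_distrib,
    mul_left_comm _ (ε / 2), ← Finset.mul_sum] at h1
  have h2 : ε / 2 * ∑ e, w e * h e = 0 := by linarith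
  exact (mul_eq_zero.1 h2).resolve_left (by linarith)

/-- The trace of the second-order condition. -/
theorem trace_bound (h : ∃ M, IsPerfectMatching ends M) {q : Finset (Fin k) → ℝ}
    (hq : q ∈ eK ends) {D : Fin k → ℝ}
    (hD : ∀ w : Fin k → ℝ, ∑ M, q M * lin q w M ^ 2 ≤ ∑ e, D e * cov q w e ^ 2) :
    (pmFaceDim ends (marginal q) : ℝ) ≤ ∑ e, D e * (marginal q e * (1 - marginal q e)) := by
  have hl := eK_law h hq
  have hs : ∀ M, Real.sqrt (q M) * Real.sqrt (q M) = q M := fun M => Real.mul_self_sqrt (hl.1 M)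
  have h1 : pmFaceDim ends (marginal q) ≤
      Module.finrank ℝ (Submodule.span ℝ (Set.range (EntXi q))) := by
    refine Ent_rank _ _ fun v hv w hw => Ent_dir hq hv fun M hM => ?_
    have := EntXi_sum q w M
    rw [hw] at this
    exact (mul_eq_zero.1 this.symm).resolve_left (Real.sqrt_pos.2 hM).ne'
  have h2 := Ent_trace (EntXi q) D fun w => by
    have a1 : ‖∑ e, w e • EntXi q e‖ ^ 2 = ∑ M, q M * lin q w M ^ 2 := by
      rw [EuclideanSpace.real_norm_sq_eq]
      refine Finset.sum_congr rfl fun M _ => ?_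
      rw [EntXi_sum, mul_pow, sq (Real.sqrt _), hs]
    have a2 : ∀ e, inner ℝ (EntXi q e) (∑ e', w e' • EntXi q e') = cov q w e := fun e => by
      have b : ∀ M, inner ℝ ((EntXi q e) M) ((∑ e', w e' • EntXi q e') M) =
          (if e ∈ M then q M * lin q w M else 0) - marginal q e * (q M * lin q w M) := fun M => by
        rw [EntXi_sum]
        simp only [EntXi, RCLike.inner_apply, conj_trivial]
        split_ifs
        · linear_combination (lin q w M * (1 - marginal q e)) * hs M
        · linear_combination (-lin q w M * marginal q e) * hs M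
      rw [PiLp.inner_apply]
      simp only [b, Finset.sum_sub_distrib, ← Finset.mul_sum, Ent_mean_lin hl, mul_zero, sub_zero,
        cov, Finset.sum_filter]
    simp only [a1, a2]
    exact hD w
  refine ((Nat.cast_le.2 h1).trans h2).trans_eq (Finset.sum_congr rfl fun e _ => ?_)
  congr 1
  have b : ∀ M, (EntXi q e M) ^ 2 = (if e ∈ M then q M else 0) * (1 - 2 * marginal q e) +
      marginal q e ^ 2 * q M := fun M => by
    simp only [EntXi]
    rw [mul_pow, sq (Real.sqrt _), hs]
    split_ifs <;> ring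
  rw [EuclideanSpace.real_norm_sq_eq]
  simp only [b, Finset.sum_add_distrib, ← Finset.mul_sum, ← Finset.sum_mul, hl.2.1,
    ← Finset.sum_filter]
  rw [← marginal]
  ring

theorem Ent_cont (c : ℝ) :
    Continuous fun q : Finset (Fin k) → ℝ => lawEntropy q - Phi c (marginal q) := by
  have hm : ∀ e, Continuous fun q : Finset (Fin k) → ℝ => marginal q e := fun e =>
    continuous_finsetSum _ fun M _ => continuous_apply M
  refine Continuous.sub
    (continuous_finsetSum _ fun M _ => Real.continuous_negMulLog.comp (continuous_apply M))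
    (Continuous.sub (continuous_finsetSum _ fun e _ => Real.continuous_negMulLog.comp (hm e))
      (continuous_const.mul (continuous_finsetSum _ fun e _ =>
        Real.continuous_negMulLog.comp (continuous_const.sub (hm e)))))

/-- The bound with a strictly larger constant, on the whole closure. -/
theorem Ent_strict {m : ℕ} (hm : 1 ≤ m) {ends : Fin k → Fin (2 * m) × Fin (2 * m)}
    (hends : ∀ e, (ends e).1 ≠ (ends e).2) (h : ∃ M, IsPerfectMatching ends M) {c : ℝ}
    (hc : 2 - 2 / (m : ℝ) < c) {q : Finset (Fin k) → ℝ} (hq : q ∈ eK ends) :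
    Phi c (marginal q) ≤ lawEntropy q := by
  obtain ⟨q₀, hq₀, hmin⟩ := (isCompact_eK h).exists_isMinOn ⟨q, hq⟩ (Ent_cont c).continuousOn
  have hl := eK_law h hq₀
  have hm' : (0 : ℝ) < m := Nat.cast_pos.2 hm
  have hfr : frac (marginal q₀) = ∅ := by
    by_contra hne
    have hne' := Finset.nonempty_iff_ne_empty.2 hne
    have h1 := trace_bound h hq₀ (D := fun e => if e ∈ frac (marginal q₀) then
      1 / marginal q₀ e - c / (1 - marginal q₀ e) else 0) fun w => by
        refine (second_order h hq₀ (fun q' hq' => hmin hq') w).trans_eq ?_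
        simp only [ite_mul, zero_mul]
        rw [Finset.sum_ite_mem, Finset.univ_inter]
    simp only [ite_mul, zero_mul] at h1
    rw [Finset.sum_ite_mem, Finset.univ_inter] at h1
    have h2 : ∑ e ∈ frac (marginal q₀), (1 / marginal q₀ e - c / (1 - marginal q₀ e)) *
        (marginal q₀ e * (1 - marginal q₀ e)) =
        (frac (marginal q₀)).card - (1 + c) * ∑ e ∈ frac (marginal q₀), marginal q₀ e := by
      rw [Finset.card_eq_sum_ones, Nat.cast_sum, Finset.mul_sum, ← Finset.sum_sub_distrib]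
      refine Finset.sum_congr rfl fun e he => ?_
      obtain ⟨a1, a2⟩ := (Finset.mem_filter.1 he).2
      have a3 : 1 - marginal q₀ e ≠ 0 := by linarith
      field_simp
      push_cast
      ring
    have h3 := face_frac hends (marginal_mem hl) hne'
    have h4 : 0 < ∑ e ∈ frac (marginal q₀), marginal q₀ e :=
      Finset.sum_pos (fun e he => (Finset.mem_filter.1 he).2.1) hne'
    have h5 : ∑ e ∈ frac (marginal q₀), marginal q₀ e ≤ m := by
      have a1 := (edm_of_mem hends (marginal_mem hl)).sum_eq hends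
      have a2 : ∑ e ∈ frac (marginal q₀), marginal q₀ e ≤ ∑ e, marginal q₀ e :=
        Finset.sum_le_sum_of_subset_of_nonneg (Finset.subset_univ _)
          fun e _ _ => Ent_marginal_nonneg hl e
      push_cast at a1
      linarith
    rw [h2] at h1
    generalize ∑ e ∈ frac (marginal q₀), marginal q₀ e = s at h1 h3 h4 h5
    have h6 : (2 - c) * s < 2 / m * s := mul_lt_mul_of_pos_right (by linarith) h4
    have h7 : 2 / m * s ≤ 2 := by
      rw [div_mul_eq_mul_div, div_le_iff₀ hm']
      linarith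
    linarith
  have h01 : ∀ e, marginal q₀ e = 0 ∨ marginal q₀ e = 1 := fun e => by
    by_contra hn
    rw [not_or] at hn
    have : e ∈ frac (marginal q₀) := Finset.mem_filter.2 ⟨Finset.mem_univ _,
      (Ent_marginal_nonneg hl e).lt_of_ne' hn.1, (Ent_marginal_le hl e).lt_of_ne hn.2⟩
    rw [hfr] at this
    exact Finset.notMem_empty _ this
  have h0 : Phi c (marginal q₀) = 0 := by
    rw [Phi, Finset.sum_eq_zero, Finset.sum_eq_zero, mul_zero, sub_zero] <;>
      exact fun e _ => by rcases h01 e with h | h <;> simp [h]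
  have h1 : 0 ≤ lawEntropy q₀ := Finset.sum_nonneg fun M _ => Real.negMulLog_nonneg (hl.1 M) (by
    rw [← hl.2.1]
    exact Finset.single_le_sum (fun M _ => hl.1 M) (Finset.mem_univ M))
  have h2 : lawEntropy q₀ - Phi c (marginal q₀) ≤ lawEntropy q - Phi c (marginal q) := hmin hq
  linarith

theorem entropy_bound (m : ℕ) (hm : 1 ≤ m) (k : ℕ)
    (ends : Fin k → Fin (2 * m) × Fin (2 * m)) (hends : ∀ e, (ends e).1 ≠ (ends e).2)
    (p : Finset (Fin k) → ℝ) (hp : IsMatchingLaw ends p) :
    ∃ q : Finset (Fin k) → ℝ, IsMatchingLaw ends q ∧ (∀ e, marginal q e = marginal p e) ∧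
      ∑ e, Real.negMulLog (marginal p e) - (2 - 2 / (m : ℝ)) * ∑ e, Real.negMulLog (1 - marginal p e)
        ≤ lawEntropy q := by
  have h : ∃ M, IsPerfectMatching ends M := by
    obtain ⟨M, -, hM⟩ := Finset.exists_ne_zero_of_sum_ne_zero (hp.2.1.trans_ne one_ne_zero)
    exact ⟨M, hp.2.2 M hM⟩
  obtain ⟨q, hq, e⟩ := exists_eK hp
  refine ⟨q, eK_law h hq, congrFun e, le_of_forall_pos_le_add fun ε hε => ?_⟩
  set B := ∑ e, Real.negMulLog (1 - marginal p e) with hB
  have hB1 : 0 < |B| + 1 := by positivity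
  have h1 := Ent_strict hm hends h (c := 2 - 2 / (m : ℝ) + ε / (|B| + 1))
    (lt_add_of_pos_right _ (div_pos hε hB1)) hq
  rw [e, Phi, ← hB] at h1
  have h2 : ε / (|B| + 1) * B ≤ ε := by
    rw [div_mul_eq_mul_div, div_le_iff₀ hB1]
    exact mul_le_mul_of_nonneg_left (by linarith [le_abs_self B]) hε.le
  linarith

end Crest.Agent.R304
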