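import Crest.Agent.R304.Edmonds

/-!
# Row 304: the closure of the exponential family of laws on perfect matchings
-/

set_option autoImplicit false

namespace Crest.Agent.R304

open Finset Crest.Matchings

variable {n k : ℕ}

open Classical in
/-- The partition function. -/
noncomputable def eZ (ends : Fin k → Fin n × Fin n) (θ : Fin k → ℝ) : ℝ :=
  ∑ M : Finset (Fin k), if IsPerfectMatching ends M then Real.exp (∑ e ∈ M, θ e) else 0

open Classical in
/-- The Gibbs law with fields `θ`. -/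
noncomputable def eLaw (ends : Fin k → Fin n × Fin n) (θ : Fin k → ℝ) (M : Finset (Fin k)) : ℝ :=
  (if IsPerfectMatching ends M then Real.exp (∑ e ∈ M, θ e) else 0) / eZ ends θ

/-- The closure of the family of Gibbs laws. -/
def eK (ends : Fin k → Fin n × Fin n) : Set (Finset (Fin k) → ℝ) := closure (Set.range (eLaw ends))

variable {ends : Fin k → Fin n × Fin n}

namespace EntK

open Filter Topology

theorem sum_marg (p : Finset (Fin k) → ℝ) (θ : Fin k → ℝ) :
    ∑ e, θ e * marginal p e = ∑ M, p M * ∑ e ∈ M, θ e := by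
  simp only [marginal, sum_filter, mul_sum]
  rw [sum_comm]
  refine sum_congr rfl fun M _ => ?_
  simp only [mul_ite, mul_zero]
  rw [← sum_filter, filter_mem_eq_inter, univ_inter]
  exact sum_congr rfl fun e _ => mul_comm _ _

theorem law_exists {p : Finset (Fin k) → ℝ} (hp : IsMatchingLaw ends p) :
    ∃ M, IsPerfectMatching ends M := by
  by_contra h
  have : ∑ M, p M = 0 := sum_eq_zero fun M _ => by_contra fun hM => h ⟨M, hp.2.2 M hM⟩
  rw [hp.2.1] at this
  exact one_ne_zero this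

theorem law_le_one {p : Finset (Fin k) → ℝ} (hp : IsMatchingLaw ends p) (M : Finset (Fin k)) :
    p M ≤ 1 := hp.2.1 ▸ single_le_sum (fun M _ => hp.1 M) (mem_univ M)

theorem eZ_pos (h : ∃ M, IsPerfectMatching ends M) (θ : Fin k → ℝ) : 0 < eZ ends θ := by
  obtain ⟨M, hM⟩ := h
  refine sum_pos' (fun M _ => ?_) ⟨M, mem_univ _, ?_⟩
  · split_ifs
    · exact (Real.exp_pos _).le
    · exact le_rfl
  · rw [if_pos hM]
    exact Real.exp_pos _

theorem eLaw_pos {M : Finset (Fin k)} (hM : IsPerfectMatching ends M) (θ : Fin k → ℝ) :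
    0 < eLaw ends θ M := by
  rw [eLaw, if_pos hM]
  exact div_pos (Real.exp_pos _) (eZ_pos ⟨M, hM⟩ θ)

theorem eLaw_law (h : ∃ M, IsPerfectMatching ends M) (θ : Fin k → ℝ) :
    IsMatchingLaw ends (eLaw ends θ) := by
  refine ⟨fun M => ?_, ?_, fun M hM => ?_⟩
  · by_cases hM : IsPerfectMatching ends M
    · exact (eLaw_pos hM θ).le
    · rw [eLaw, if_neg hM, zero_div]
  · simp only [eLaw]
    rw [← sum_div]
    exact div_self (eZ_pos h θ).ne'
  · by_contra h'
    exact hM (by rw [eLaw, if_neg h', zero_div])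

theorem cross {p : Finset (Fin k) → ℝ} (hp : IsMatchingLaw ends p) (θ : Fin k → ℝ) :
    ∑ M, p M * Real.log (eLaw ends θ M) =
      ∑ e, θ e * marginal p e - Real.log (eZ ends θ) := by
  rw [sum_marg, ← one_mul (Real.log (eZ ends θ)), ← hp.2.1, sum_mul, ← sum_sub_distrib]
  refine sum_congr rfl fun M _ => ?_
  by_cases h : p M = 0
  · simp [h]
  · have hM := hp.2.2 M h
    rw [eLaw, if_pos hM, Real.log_div (Real.exp_pos _).ne' (eZ_pos ⟨M, hM⟩ θ).ne', Real.log_exp,
      mul_sub]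

/-- Gibbs' inequality. -/
theorem gibbs {p : Finset (Fin k) → ℝ} (hp : IsMatchingLaw ends p) (θ : Fin k → ℝ) :
    lawEntropy p ≤ Real.log (eZ ends θ) - ∑ e, θ e * marginal p e := by
  have hq := eLaw_law (law_exists hp) θ
  have h1 : ∑ M, (Real.negMulLog (p M) + p M * Real.log (eLaw ends θ M)) ≤
      ∑ M, (eLaw ends θ M - p M) := by
    refine sum_le_sum fun M _ => ?_
    rcases (hp.1 M).eq_or_lt with h | h
    · rw [← h]
      simpa using hq.1 M
    · have h2 := eLaw_pos (hp.2.2 M h.ne') θ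
      have h3 := Real.log_le_sub_one_of_pos (div_pos h2 h)
      rw [Real.log_div h2.ne' h.ne'] at h3
      have h4 := mul_le_mul_of_nonneg_left h3 h.le
      rw [mul_sub (p M) (_ / _), mul_div_cancel₀ _ h.ne'] at h4
      rw [Real.negMulLog]
      linarith
  rw [sum_add_distrib, sum_sub_distrib, hq.2.1, hp.2.1, cross hp] at h1
  unfold lawEntropy
  linarith

theorem le_log_eZ {p : Finset (Fin k) → ℝ} (hp : IsMatchingLaw ends p) (θ : Fin k → ℝ) :
    ∑ e, θ e * marginal p e ≤ Real.log (eZ ends θ) := by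
  have h1 := gibbs hp θ
  have h2 : 0 ≤ lawEntropy p :=
    sum_nonneg fun M _ => Real.negMulLog_nonneg (hp.1 M) (law_le_one hp M)
  linarith

theorem eZ_add (h : ∃ M, IsPerfectMatching ends M) (θ w : Fin k → ℝ) :
    eZ ends (θ + w) = eZ ends θ * ∑ M, eLaw ends θ M * Real.exp (∑ e ∈ M, w e) := by
  rw [mul_sum, eZ]
  refine sum_congr rfl fun M _ => ?_
  rw [eLaw, ← mul_assoc, mul_div_cancel₀ _ (eZ_pos h θ).ne']
  split_ifs
  · simp only [Pi.add_apply, sum_add_distrib, Real.exp_add]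
  · rw [zero_mul]

theorem sum_exp_pos {q : Finset (Fin k) → ℝ} (hq : IsMatchingLaw ends q)
    (f : Finset (Fin k) → ℝ) : 0 < ∑ M, q M * Real.exp (f M) := by
  obtain ⟨M, -, hM⟩ := exists_ne_zero_of_sum_ne_zero (hq.2.1 ▸ one_ne_zero : ∑ M, q M ≠ 0)
  exact sum_pos' (fun M _ => mul_nonneg (hq.1 M) (Real.exp_pos _).le)
    ⟨M, mem_univ _, mul_pos ((hq.1 M).lt_of_ne' hM) (Real.exp_pos _)⟩

theorem continuous_eZ : Continuous (eZ ends) := by
  refine continuous_finsetSum _ fun M _ => ?_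
  split_ifs
  · fun_prop
  · exact continuous_const

theorem continuous_marginal : Continuous (marginal (k := k)) := by
  refine continuous_pi fun e => ?_
  unfold marginal
  fun_prop

theorem hasDerivAt_log_eZ (h : ∃ M, IsPerfectMatching ends M) (θ d : Fin k → ℝ) :
    HasDerivAt (fun t : ℝ => Real.log (eZ ends (θ + t • d)))
      (∑ e, d e * marginal (eLaw ends θ) e) 0 := by
  have h1 : HasDerivAt (fun t : ℝ => ∑ M, eLaw ends θ M * Real.exp (t * ∑ e ∈ M, d e))
      (∑ M, eLaw ends θ M * (Real.exp (0 * ∑ e ∈ M, d e) * (1 * ∑ e ∈ M, d e))) 0 :=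
    HasDerivAt.fun_sum fun M _ => (((hasDerivAt_id (0 : ℝ)).mul_const _).exp).const_mul _
  have h2 : ∑ M, eLaw ends θ M * Real.exp (0 * ∑ e ∈ M, d e) = 1 := by
    simpa using (eLaw_law h θ).2.1
  have h3 := ((h1.log (by rw [h2]; exact one_ne_zero)).const_add (Real.log (eZ ends θ)))
  rw [h2] at h3
  refine (h3.congr_of_eventuallyEq (Eventually.of_forall fun t => ?_)).congr_deriv ?_
  · beta_reduce
    rw [eZ_add h, Real.log_mul (eZ_pos h θ).ne' (sum_exp_pos (eLaw_law h θ) _).ne']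
    simp only [Pi.smul_apply, smul_eq_mul, mul_sum]
  · rw [sum_marg]
    simp

theorem exists_near {p : Finset (Fin k) → ℝ} (hp : IsMatchingLaw ends p) {ε : ℝ} (hε : 0 < ε) :
    ∃ θ, dist (marginal p) (marginal (eLaw ends θ)) < ε := by
  have h := law_exists hp
  set L := Real.log (eZ ends 0) with hL
  have hL0 : 0 ≤ L := by simpa using le_log_eZ hp 0
  set ρ := ε ^ 2 / (2 * L + 1) with hρ
  have hρ0 : 0 < ρ := by positivity
  set G : (Fin k → ℝ) → ℝ := fun θ =>
    Real.log (eZ ends θ) - ∑ e, θ e * marginal p e + ρ / 2 * ∑ e, θ e ^ 2 with hG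
  have hGc : Continuous G :=
    ((continuous_eZ.log fun θ => (eZ_pos h θ).ne').sub (by fun_prop)).add (by fun_prop)
  have hG0 : G 0 = L := by simp [hG, hL]
  have hGle : ∀ θ, ρ / 2 * ∑ e, θ e ^ 2 ≤ G θ := fun θ => by
    have := le_log_eZ hp θ
    simp only [hG]
    linarith
  have hsq : ∀ (θ : Fin k → ℝ) (e : Fin k), θ e ^ 2 ≤ ∑ e, θ e ^ 2 := fun θ e =>
    single_le_sum (f := fun e => θ e ^ 2) (fun _ _ => sq_nonneg _) (mem_univ e)
  obtain ⟨θ, hθ⟩ := hGc.exists_forall_le' 0 (by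
    filter_upwards [(isCompact_closedBall (0 : Fin k → ℝ) (√(2 * L / ρ))).compl_mem_cocompact]
      with θ hθ
    rw [Set.mem_compl_iff, mem_closedBall_zero_iff, not_le] at hθ
    have h1 : ‖θ‖ ≤ √(∑ e, θ e ^ 2) :=
      (pi_norm_le_iff_of_nonneg (Real.sqrt_nonneg _)).2 fun e => Real.abs_le_sqrt (hsq θ e)
    have h2 := (Real.sqrt_lt_sqrt_iff (by positivity)).1 (hθ.trans_le h1)
    rw [div_lt_iff₀ hρ0] at h2
    rw [hG0]
    linarith [hGle θ])
  set d : Fin k → ℝ := fun e => marginal (eLaw ends θ) e - marginal p e + ρ * θ e with hd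
  have h1 : HasDerivAt (fun t : ℝ => G (θ + t • d)) (∑ e, d e * marginal (eLaw ends θ) e -
      ∑ e, 1 * d e * marginal p e + ρ / 2 * ∑ e, (2 : ℕ) * (θ e + 0 * d e) ^ (2 - 1) * (1 * d e))
      0 := by
    refine ((hasDerivAt_log_eZ h θ d).sub (HasDerivAt.fun_sum fun e _ => ?_)).add
      ((HasDerivAt.fun_sum fun e _ => ?_).const_mul _)
    · exact (((hasDerivAt_id (0 : ℝ)).mul_const _).const_add _).mul_const _
    · exact (((hasDerivAt_id (0 : ℝ)).mul_const _).const_add _).pow 2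
  have h2 := IsLocalMin.hasDerivAt_eq_zero (Eventually.of_forall fun t => by
    simpa using hθ (θ + t • d)) h1
  have h3 : ∑ e, d e ^ 2 = 0 := by
    rw [← h2, mul_sum, ← sum_sub_distrib, ← sum_add_distrib]
    refine sum_congr rfl fun e _ => ?_
    simp only [hd]
    push_cast
    ring
  refine ⟨θ, (dist_pi_lt_iff hε).2 fun e => ?_⟩
  have h4 : d e = 0 := pow_eq_zero_iff two_ne_zero |>.1
    (le_antisymm (h3 ▸ hsq d e) (sq_nonneg _))
  have h5 : marginal p e - marginal (eLaw ends θ) e = ρ * θ e := by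
    simp only [hd] at h4
    linarith
  rw [Real.dist_eq, h5]
  refine abs_lt_of_sq_lt_sq ?_ hε.le
  have h6 : ρ / 2 * θ e ^ 2 ≤ L :=
    (mul_le_mul_of_nonneg_left (hsq θ e) (by positivity)).trans ((hGle θ).trans (hG0 ▸ hθ 0))
  have h7 : ρ * (2 * L + 1) = ε ^ 2 := by
    rw [hρ]
    field_simp
  nlinarith

theorem tendsto_cross {q : Finset (Fin k) → ℝ} {u : ℕ → Finset (Fin k) → ℝ}
    (hu : Tendsto u atTop (𝓝 q)) :
    Tendsto (fun j => ∑ M, q M * Real.log (u j M)) atTop (𝓝 (-lawEntropy q)) := by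
  rw [lawEntropy, ← sum_neg_distrib]
  refine tendsto_finsetSum _ fun M _ => ?_
  rw [Real.negMulLog, neg_mul, neg_neg]
  by_cases h : q M = 0
  · simp [h]
  · exact ((tendsto_pi_nhds.1 hu M).log h).const_mul _

theorem exists_seq {q : Finset (Fin k) → ℝ} (hq : q ∈ eK ends) :
    ∃ θ : ℕ → Fin k → ℝ, Tendsto (fun j => eLaw ends (θ j)) atTop (𝓝 q) := by
  obtain ⟨u, hu, hu'⟩ := mem_closure_iff_seq_limit.1 hq
  choose θ hθ using hu
  exact ⟨θ, by simpa only [hθ] using hu'⟩

end EntK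

open EntK Filter Topology

theorem marginal_mem {p : Finset (Fin k) → ℝ} (hp : IsMatchingLaw ends p) :
    marginal p ∈ pmPolytope ends := by
  have h1 : marginal p = ∑ M ∈ univ.filter (fun M => p M ≠ 0), p M • pmIndicator M := by
    rw [sum_filter_of_ne (p := fun M => p M ≠ 0) (f := fun M => p M • pmIndicator M)
      fun M _ h h' => h (by rw [h', zero_smul])]
    funext e
    simp [marginal, pmIndicator, sum_filter]
  rw [h1]
  refine (convex_convexHull ℝ _).sum_mem (fun M _ => hp.1 M) ?_ fun M hM =>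
    subset_convexHull ℝ _ ⟨M, hp.2.2 M (mem_filter.1 hM).2, rfl⟩
  rw [sum_filter_ne_zero, hp.2.1]

theorem exists_law_of_mem {x : Fin k → ℝ} (hx : x ∈ pmPolytope ends) :
    ∃ p, IsMatchingLaw ends p ∧ marginal p = x := by
  refine convexHull_min (t := {x | ∃ p, IsMatchingLaw ends p ∧ marginal p = x}) ?_ ?_ hx
  · rintro _ ⟨M, hM, rfl⟩
    refine ⟨fun M' => if M' = M then 1 else 0, ⟨fun M' => ?_, by simp, fun M' h => ?_⟩, ?_⟩
    · dsimp only
      split_ifs <;> norm_num
    · dsimp only at h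
      split_ifs at h with h'
      · exact h' ▸ hM
      · exact absurd rfl h
    · funext e
      simp [marginal, pmIndicator]
  · rintro _ ⟨p, hp, rfl⟩ _ ⟨q, hq, rfl⟩ a b ha hb hab
    refine ⟨fun M => a * p M + b * q M, ⟨fun M => ?_, ?_, fun M h => ?_⟩, ?_⟩
    · exact add_nonneg (mul_nonneg ha (hp.1 M)) (mul_nonneg hb (hq.1 M))
    · rw [sum_add_distrib, ← mul_sum, ← mul_sum, hp.2.1, hq.2.1, mul_one, mul_one, hab]
    · by_contra h'
      have h1 : p M = 0 := by_contra fun h1 => h' (hp.2.2 M h1)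
      have h2 : q M = 0 := by_contra fun h2 => h' (hq.2.2 M h2)
      exact h (by simp [h1, h2])
    · funext e
      simp [marginal, sum_add_distrib, mul_sum]

theorem eK_law (h : ∃ M, IsPerfectMatching ends M) {q : Finset (Fin k) → ℝ} (hq : q ∈ eK ends) :
    IsMatchingLaw ends q := by
  obtain ⟨θ, hθ⟩ := exists_seq hq
  have h1 := tendsto_pi_nhds.1 hθ
  refine ⟨fun M => ge_of_tendsto' (h1 M) fun j => (eLaw_law h _).1 M, ?_, fun M hM => ?_⟩
  · refine tendsto_nhds_unique (tendsto_finsetSum univ fun M _ => h1 M) ?_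
    simp only [(eLaw_law h _).2.1]
    exact tendsto_const_nhds
  · by_contra h'
    refine hM (tendsto_nhds_unique (h1 M) ?_)
    simp only [eLaw, if_neg h', zero_div]
    exact tendsto_const_nhds

theorem isCompact_eK (h : ∃ M, IsPerfectMatching ends M) : IsCompact (eK ends) := by
  refine (isCompact_Icc (a := (0 : Finset (Fin k) → ℝ)) (b := 1)).of_isClosed_subset
    isClosed_closure fun q hq => ?_
  exact ⟨(eK_law h hq).1, law_le_one (eK_law h hq)⟩

/-- Every marginal vector is attained in the closure. -/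
theorem exists_eK {p : Finset (Fin k) → ℝ} (hp : IsMatchingLaw ends p) :
    ∃ q ∈ eK ends, marginal q = marginal p := by
  have h1 := ((isCompact_eK (law_exists hp)).image continuous_marginal).isClosed
  refine h1.closure_subset_iff.2 subset_rfl (Metric.mem_closure_iff.2 fun ε hε => ?_)
  obtain ⟨θ, hθ⟩ := exists_near hp hε
  exact ⟨_, ⟨_, subset_closure ⟨θ, rfl⟩, rfl⟩, hθ⟩

/-- A law of the closure has the largest support among the laws with its marginals. -/
theorem eK_support {p q : Finset (Fin k) → ℝ} (hq : q ∈ eK ends) (hp : IsMatchingLaw ends p)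
    (h : marginal p = marginal q) {M : Finset (Fin k)} (hM : 0 < p M) : 0 < q M := by
  have hex := law_exists hp
  have hq' := eK_law hex hq
  obtain ⟨θ, hθ⟩ := exists_seq hq
  refine (Real.exp_pos ((-lawEntropy q - 1) / p M)).trans_le
    (ge_of_tendsto (tendsto_pi_nhds.1 hθ M) ?_)
  filter_upwards [(tendsto_cross hθ).eventually
    (lt_mem_nhds (by linarith : -lawEntropy q - 1 < -lawEntropy q))] with j hj
  rw [cross hq', ← h, ← cross hp] at hj
  rw [← Real.le_log_iff_exp_le (eLaw_pos (hp.2.2 M hM.ne') _), div_le_iff₀ hM, mul_comm]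
  refine hj.le.trans ?_
  rw [← add_sum_erase _ _ (mem_univ M)]
  refine add_le_of_nonpos_right (sum_nonpos fun M' _ => mul_nonpos_of_nonneg_of_nonpos (hp.1 M') ?_)
  exact Real.log_nonpos ((eLaw_law hex _).1 M') (law_le_one (eLaw_law hex _) M')

/-- The symmetric Gibbs bound. -/
theorem eK_gibbs {p p' q : Finset (Fin k) → ℝ} (hq : q ∈ eK ends) (hp : IsMatchingLaw ends p)
    (hp' : IsMatchingLaw ends p') {v : Fin k → ℝ} (h : marginal p = marginal q + v)
    (h' : marginal p' = marginal q - v) (w : Fin k → ℝ) :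
    lawEntropy p + lawEntropy p' ≤ 2 * lawEntropy q +
      Real.log (∑ M, q M * Real.exp (∑ e ∈ M, w e)) +
      Real.log (∑ M, q M * Real.exp (-∑ e ∈ M, w e)) - 2 * ∑ e, w e * v e := by
  have hex := law_exists hp
  have hq' := eK_law hex hq
  obtain ⟨θ, hθ⟩ := exists_seq hq
  have h1 : ∀ f : Finset (Fin k) → ℝ, Tendsto
      (fun j => Real.log (∑ M, eLaw ends (θ j) M * Real.exp (f M))) atTop
      (𝓝 (Real.log (∑ M, q M * Real.exp (f M)))) := fun f =>
    (tendsto_finsetSum _ fun M _ => (tendsto_pi_nhds.1 hθ M).mul_const _).log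
      (sum_exp_pos hq' f).ne'
  have h2 := ((((tendsto_cross hθ).const_mul (-2)).add (h1 fun M => ∑ e ∈ M, w e)).add
    (h1 fun M => -∑ e ∈ M, w e)).sub_const (2 * ∑ e, w e * v e)
  refine (ge_of_tendsto' h2 fun j => ?_).trans (le_of_eq (by ring))
  have g1 := gibbs hp (θ j + w)
  have g2 := gibbs hp' (θ j + -w)
  rw [eZ_add hex, Real.log_mul (eZ_pos hex _).ne' (sum_exp_pos (eLaw_law hex _) _).ne'] at g1 g2
  rw [h] at g1
  rw [h'] at g2
  simp only [Pi.add_apply, Pi.sub_apply, Pi.neg_apply, add_mul, mul_add, mul_sub, neg_mul,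
    sum_add_distrib, sum_sub_distrib, sum_neg_distrib] at g1 g2
  rw [cross hq']
  linarith

end Crest.Agent.R304
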