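import Crest.Agent.R304.Uncross

/-!
# Row 304: the dimension of the minimal face
-/

set_option autoImplicit false

namespace Crest.Agent.R304

open Finset Crest.Matchings

variable {n k : ℕ}

/-- The fractional edges. -/
noncomputable def frac (x : Fin k → ℝ) : Finset (Fin k) := univ.filter fun e => 0 < x e ∧ x e < 1

namespace FaceH

open Filter Topology

variable {ends : Fin k → Fin n × Fin n} {x : Fin k → ℝ}

theorem mem_frac {e : Fin k} : e ∈ frac x ↔ 0 < x e ∧ x e < 1 := by simp [frac]

theorem cross_single (hends : ∀ e, (ends e).1 ≠ (ends e).2) {v : Fin n} {e : Fin k} :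
    Cross ends {v} e ↔ (ends e).1 = v ∨ (ends e).2 = v := by
  have := hends e
  simp only [Cross, mem_singleton]
  constructor
  · intro h
    by_cases h1 : (ends e).1 = v
    · exact Or.inl h1
    · exact Or.inr (by_contra fun h2 => h1 (h.2 h2))
  · rintro (h | h)
    · exact ⟨fun _ h2 => this (h.trans h2.symm), fun _ => h⟩
    · exact ⟨fun h1 _ => this (h1.trans h.symm), fun h1 => absurd h h1⟩

theorem le_cut (hx : Edm ends x) {S : Finset (Fin n)} {e : Fin k} (he : Cross ends S e) :
    x e ≤ cut ends x S :=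
  single_le_sum (f := x) (fun e _ => hx.nonneg e) (mem_filter.2 ⟨mem_univ _, he⟩)

theorem two_le_cut (hx : Edm ends x) {S : Finset (Fin n)} {e e' : Fin k} (he : Cross ends S e)
    (he' : Cross ends S e') (hne : e ≠ e') : x e + x e' ≤ cut ends x S := by
  rw [← sum_pair hne]
  refine sum_le_sum_of_subset_of_nonneg ?_ fun e _ _ => hx.nonneg e
  intro a ha
  simp only [mem_insert, mem_singleton] at ha
  rcases ha with rfl | rfl
  · exact mem_filter.2 ⟨mem_univ _, he⟩
  · exact mem_filter.2 ⟨mem_univ _, he'⟩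

theorem le_one (hends : ∀ e, (ends e).1 ≠ (ends e).2) (hx : Edm ends x) (e : Fin k) : x e ≤ 1 := by
  rw [← hx.deg (ends e).1]
  exact le_cut hx ((cross_single hends).2 (Or.inl rfl))

/-- The ends of the fractional edges. -/
noncomputable def UU (ends : Fin k → Fin n × Fin n) (x : Fin k → ℝ) : Finset (Fin n) :=
  univ.filter fun v => ∃ e ∈ frac x, (ends e).1 = v ∨ (ends e).2 = v

theorem ends_mem {e : Fin k} (he : e ∈ frac x) :
    (ends e).1 ∈ UU ends x ∧ (ends e).2 ∈ UU ends x :=
  ⟨mem_filter.2 ⟨mem_univ _, e, he, Or.inl rfl⟩, mem_filter.2 ⟨mem_univ _, e, he, Or.inr rfl⟩⟩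

theorem frac_of_end (hends : ∀ e, (ends e).1 ≠ (ends e).2) (hx : Edm ends x) {e : Fin k}
    (h0 : 0 < x e) (h : (ends e).1 ∈ UU ends x ∨ (ends e).2 ∈ UU ends x) : e ∈ frac x := by
  have key : ∀ v ∈ UU ends x, (ends e).1 = v ∨ (ends e).2 = v → e ∈ frac x := by
    intro v hv he
    obtain ⟨-, e', he', h'⟩ := mem_filter.1 hv
    by_cases hne : e = e'
    · rwa [hne]
    · have h1 := two_le_cut hx ((cross_single hends).2 he) ((cross_single hends).2 h') hne
      rw [hx.deg] at h1
      exact mem_frac.2 ⟨h0, by linarith [(mem_frac.1 he').1]⟩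
  rcases h with h | h
  · exact key _ h (Or.inl rfl)
  · exact key _ h (Or.inr rfl)

theorem cut_eq (hx : Edm ends x) {S : Finset (Fin n)}
    (h : ∀ e, Cross ends S e → 0 < x e → e ∈ frac x) :
    cut ends x S = ∑ e ∈ frac x with Cross ends S e, x e := by
  symm
  refine sum_subset (filter_subset_filter _ (subset_univ _)) fun e he he' => ?_
  by_contra hne
  have h1 := (mem_filter.1 he).2
  exact he' (mem_filter.2 ⟨h e h1 (lt_of_le_of_ne (hx.nonneg e) (Ne.symm hne)), h1⟩)

theorem cut_eq_of_sub (hends : ∀ e, (ends e).1 ≠ (ends e).2) (hx : Edm ends x)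
    {S : Finset (Fin n)} (hS : S ⊆ UU ends x) :
    cut ends x S = ∑ e ∈ frac x with Cross ends S e, x e := by
  refine cut_eq hx fun e he h0 => frac_of_end hends hx h0 ?_
  by_cases h1 : (ends e).1 ∈ S
  · exact Or.inl (hS h1)
  · exact Or.inr (hS (by_contra fun h2 => h1 (he.2 h2)))

theorem even_UU (hends : ∀ e, (ends e).1 ≠ (ends e).2) (hx : Edm ends x) :
    Even (UU ends x).card := by
  by_contra hodd
  have h1 := hx.odd _ (Nat.not_even_iff_odd.1 hodd)
  rw [cut_eq_of_sub hends hx Subset.rfl, sum_eq_zero] at h1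
  · linarith
  · intro e he
    obtain ⟨h2, h3⟩ := mem_filter.1 he
    exact absurd (ends_mem h2).2 (h3.1 (ends_mem h2).1)

theorem card_UU (hends : ∀ e, (ends e).1 ≠ (ends e).2) (hx : Edm ends x) :
    ((UU ends x).card : ℝ) = 2 * ∑ e ∈ frac x, x e := by
  calc ((UU ends x).card : ℝ) = ∑ v ∈ UU ends x, cut ends x {v} := by simp [hx.deg]
    _ = ∑ v ∈ UU ends x, ∑ e ∈ frac x, if Cross ends {v} e then x e else 0 :=
        sum_congr rfl fun v hv => by
          rw [cut_eq_of_sub hends hx (singleton_subset_iff.2 hv), sum_filter]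
    _ = ∑ e ∈ frac x, 2 * x e := by
        rw [sum_comm]
        refine sum_congr rfl fun e he => ?_
        have : (UU ends x).filter (fun v => Cross ends {v} e) = {(ends e).1, (ends e).2} := by
          ext v
          simp only [mem_filter, cross_single hends, mem_insert, mem_singleton]
          constructor
          · rintro ⟨-, h | h⟩
            · exact Or.inl h.symm
            · exact Or.inr h.symm
          · rintro (rfl | rfl)
            · exact ⟨(ends_mem he).1, Or.inl rfl⟩
            · exact ⟨(ends_mem he).2, Or.inr rfl⟩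
        rw [← sum_filter, this, sum_pair (hends e), two_mul]
    _ = _ := by rw [mul_sum]

theorem cut_zero (hends : ∀ e, (ends e).1 ≠ (ends e).2) (hx : Edm ends x) {h : Fin k → ℝ}
    (h0 : ∀ e, e ∉ frac x → h e = 0)
    (h1 : ∀ S ⊆ UU ends x, Odd S.card → ∑ e ∈ frac x with Cross ends S e, x e = 1 →
      h ⬝ᵥ chi ends (frac x) S = 0)
    {S : Finset (Fin n)} (hodd : Odd S.card) (ht : cut ends x S = 1) : cut ends h S = 0 := by
  by_cases hc : ∃ e, Cross ends S e ∧ x e = 1
  · obtain ⟨e, he, he1⟩ := hc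
    refine sum_eq_zero fun e' he' => h0 e' fun hf => ?_
    have h2 := mem_frac.1 hf
    have hne : e ≠ e' := by rintro rfl; linarith [h2.2]
    have := two_le_cut hx he (mem_filter.1 he').2 hne
    linarith [h2.1]
  · have hfr : ∀ e, Cross ends S e → 0 < x e → e ∈ frac x := fun e he hp =>
      mem_frac.2 ⟨hp, lt_of_le_of_ne (le_one hends hx e) fun h => hc ⟨e, he, h⟩⟩
    have hT : ¬ Odd (S \ UU ends x).card := by
      intro ho
      have h2 := hx.odd _ ho
      have h3 : cut ends x (S \ UU ends x) = 0 := by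
        refine sum_eq_zero fun e he => ?_
        by_contra hne
        have hp : 0 < x e := lt_of_le_of_ne (hx.nonneg e) (Ne.symm hne)
        have hcr := (mem_filter.1 he).2
        have hnf : e ∉ frac x := by
          intro hf
          have := ends_mem (ends := ends) hf
          simp [Cross, this.1, this.2] at hcr
        have hU : ¬ ((ends e).1 ∈ UU ends x ∨ (ends e).2 ∈ UU ends x) := fun h =>
          hnf (frac_of_end hends hx hp h)
        rw [not_or] at hU
        refine hnf (hfr e ?_ hp)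
        simpa [Cross, hU.1, hU.2] using hcr
      linarith
    have hS' : Odd (S ∩ UU ends x).card := by
      rw [← card_sdiff_add_card_inter S (UU ends x), Nat.odd_add'] at hodd
      exact hodd.2 (Nat.not_odd_iff_even.1 hT)
    have hcr : ∀ e ∈ frac x, Cross ends (S ∩ UU ends x) e ↔ Cross ends S e := by
      intro e he
      have := ends_mem (ends := ends) he
      simp [Cross, this.1, this.2]
    have h2 := h1 _ inter_subset_right hS' (by
      rw [filter_congr hcr, ← cut_eq hx hfr, ht])
    rw [← h2, cut, sum_filter]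
    refine sum_congr rfl fun e _ => ?_
    by_cases he : e ∈ frac x
    · simp [chi, he, hcr e he]
    · simp [h0 e he]

theorem cut_add (h : Fin k → ℝ) (t : ℝ) (S : Finset (Fin n)) :
    cut ends (x + t • h) S = cut ends x S + t * cut ends h S := by
  simp [cut, sum_add_distrib, mul_sum]

theorem ev_lt {a b : ℝ} (c : ℝ) (h : a < b) : ∀ᶠ t in 𝓝 (0 : ℝ), a ≤ b + t * c := by
  have h1 : Tendsto (fun t : ℝ => b + t * c) (𝓝 0) (𝓝 (b + 0 * c)) :=
    (by fun_prop : Continuous fun t : ℝ => b + t * c).tendsto 0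
  rw [zero_mul, add_zero] at h1
  exact (h1.eventually (lt_mem_nhds h)).mono fun _ h => h.le

theorem mem_dir (hends : ∀ e, (ends e).1 ≠ (ends e).2) (hx : Edm ends x) {h : Fin k → ℝ}
    (h0 : ∀ e, e ∉ frac x → h e = 0)
    (h1 : ∀ S : Finset (Fin n), Odd S.card → cut ends x S = 1 → cut ends h S = 0) :
    h ∈ pmDirections ends x := by
  have a1 : ∀ᶠ t in 𝓝 (0 : ℝ), ∀ e, 0 ≤ x e + t * h e := by
    refine eventually_all.2 fun e => ?_
    by_cases he : e ∈ frac x
    · exact ev_lt _ (mem_frac.1 he).1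
    · exact Eventually.of_forall fun t => by simpa [h0 e he] using hx.nonneg e
  have a2 : ∀ᶠ t in 𝓝 (0 : ℝ), ∀ S : Finset (Fin n), Odd S.card →
      1 ≤ cut ends x S + t * cut ends h S := by
    refine eventually_all.2 fun S => ?_
    by_cases hS : Odd S.card
    · rcases (hx.odd S hS).eq_or_lt with h2 | h2
      · exact Eventually.of_forall fun t _ => by rw [h1 S hS h2.symm, ← h2]; simp
      · exact (ev_lt _ h2).mono fun t ht _ => ht
    · exact Eventually.of_forall fun t h2 => absurd h2 hS
  obtain ⟨ε, hε, H⟩ := Metric.eventually_nhds_iff.1 (a1.and a2)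
  refine ⟨ε, hε, fun t ht => Edm.mem hends ?_⟩
  obtain ⟨b1, b2⟩ := H (y := t) (by simpa using ht)
  refine ⟨b1, fun v => ?_, fun S hS => ?_⟩
  · rw [cut_add, h1 _ (by simp) (hx.deg v), hx.deg]; simp
  · rw [cut_add]; exact b2 S hS

theorem dim_le (E : Finset (Fin k)) (W D : Submodule ℝ (Fin k → ℝ))
    (H : ∀ h : Fin k → ℝ, (∀ e, e ∉ E → h e = 0) → (∀ w ∈ W, h ⬝ᵥ w = 0) → h ∈ D) :
    E.card ≤ Module.finrank ℝ D + Module.finrank ℝ W := by
  let ψ : (Fin k → ℝ) →ₗ[ℝ] (Module.Dual ℝ W × ({e // e ∉ E} → ℝ)) :=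
    LinearMap.prod ((dotProductBilin ℝ ℝ).domRestrict₂ W) (LinearMap.funLeft ℝ ℝ Subtype.val)
  have h1 : LinearMap.ker ψ ≤ D := by
    intro h hh
    rw [LinearMap.mem_ker] at hh
    refine H h (fun e he => congrFun (congrArg Prod.snd hh) ⟨e, he⟩) fun w hw => ?_
    exact LinearMap.congr_fun (congrArg Prod.fst hh) ⟨w, hw⟩
  have h2 := Submodule.finrank_mono h1
  have h3 := LinearMap.finrank_range_add_finrank_ker ψ
  have h4 := Submodule.finrank_le (LinearMap.range ψ)
  rw [Module.finrank_prod, Subspace.dual_finrank_eq, Module.finrank_fintype_fun_eq_card,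
    Fintype.card_subtype_compl, Fintype.card_coe, Fintype.card_fin] at h4
  rw [Module.finrank_fintype_fun_eq_card, Fintype.card_fin] at h3
  have h5 : E.card ≤ k := by simpa using card_le_univ E
  omega

end FaceH

open FaceH in
/-- The bound for the fractional part of the support. -/
theorem face_frac {ends : Fin k → Fin n × Fin n} (hends : ∀ e, (ends e).1 ≠ (ends e).2)
    {x : Fin k → ℝ} (hx : x ∈ pmPolytope ends) (hne : (frac x).Nonempty) :
    ((frac x).card : ℝ) + 2 ≤ pmFaceDim ends x + 3 * ∑ e ∈ frac x, x e := by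
  have hE := edm_of_mem hends hx
  obtain ⟨e0, he0⟩ := hne
  have h1 := finrank_tight_le (ends := ends) (x := x) (E := frac x) (U := UU ends x)
    ⟨_, (ends_mem he0).1⟩ (even_UU hends hE) (fun e he => (mem_frac.1 he).1)
    (fun e he => ends_mem he) fun S hS ho => by
      rw [← cut_eq_of_sub hends hE hS]; exact hE.odd S ho
  have h2 := dim_le (frac x) (Submodule.span ℝ (chi ends (frac x) ''
      {S | S ⊆ UU ends x ∧ Odd S.card ∧ ∑ e ∈ frac x with Cross ends S e, x e = 1}))
    (Submodule.span ℝ (pmDirections ends x)) fun h h0 hw =>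
      Submodule.subset_span (mem_dir hends hE h0 fun S ho ht =>
        cut_zero hends hE h0 (fun T a b c => hw _ (Submodule.subset_span ⟨T, ⟨a, b, c⟩, rfl⟩)) ho ht)
  have h3 := card_UU hends hE
  have h4 : 2 * (frac x).card + 4 ≤ 2 * pmFaceDim ends x + 3 * (UU ends x).card := by
    unfold pmFaceDim
    omega
  have h5 : 2 * ((frac x).card : ℝ) + 4 ≤ 2 * pmFaceDim ends x + 3 * (UU ends x).card := by
    exact_mod_cast h4
  linarith

open FaceH in
theorem face_bound (m : ℕ) (hm : 1 ≤ m) (k : ℕ)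
    (ends : Fin k → Fin (2 * m) × Fin (2 * m)) (hends : ∀ e, (ends e).1 ≠ (ends e).2)
    (x : Fin k → ℝ) (hx : x ∈ pmPolytope ends) :
    ((Finset.univ.filter fun e => 0 < x e).card : ℤ) - (pmFaceDim ends x : ℤ) ≤ 3 * (m : ℤ) - 2 := by
  have hE := edm_of_mem hends hx
  have h1 := hE.sum_eq hends
  set P := Finset.univ.filter fun e => 0 < x e with hP
  have hsub : frac x ⊆ P := fun e he => mem_filter.2 ⟨mem_univ _, (mem_frac.1 he).1⟩
  have h2 : ((P \ frac x).card : ℝ) + (frac x).card = P.card := by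
    exact_mod_cast card_sdiff_add_card_eq_card hsub
  have h3 : ∑ e ∈ P \ frac x, x e = (P \ frac x).card := by
    rw [card_eq_sum_ones]
    push_cast
    refine sum_congr rfl fun e he => ?_
    obtain ⟨a, b⟩ := mem_sdiff.1 he
    exact le_antisymm (le_one hends hE e)
      (not_lt.1 fun h => b (mem_frac.2 ⟨(mem_filter.1 a).2, h⟩))
  have h4 : ∑ e ∈ P, x e ≤ ∑ e, x e :=
    sum_le_sum_of_subset_of_nonneg (subset_univ _) fun e _ _ => hE.nonneg e
  rw [← sum_sdiff hsub, h3] at h4
  have h5 : (0 : ℝ) ≤ (P \ frac x).card := Nat.cast_nonneg _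
  have h6 : (0 : ℝ) ≤ pmFaceDim ends x := Nat.cast_nonneg _
  have h7 : (1 : ℝ) ≤ m := by exact_mod_cast hm
  push_cast at h1
  have h8 : (P.card : ℝ) - pmFaceDim ends x ≤ 3 * m - 2 := by
    rcases (frac x).eq_empty_or_nonempty with h | h
    · have a1 : ((frac x).card : ℝ) = 0 := by simp [h]
      have a2 : ∑ e ∈ frac x, x e = 0 := by simp [h]
      linarith
    · have := face_frac hends hx h
      linarith
  exact_mod_cast h8

end Crest.Agent.R304
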