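import Crest.Agent.R304.EntK
import Crest.Agent.R304.Face

/-!
# Row 304: the second-order condition at a minimiser
-/

set_option autoImplicit false

namespace Crest.Agent.R304

open Finset Crest.Matchings

variable {n k : ℕ} {ends : Fin k → Fin n × Fin n}

/-- The separable comparison function. -/
noncomputable def Phi (c : ℝ) (x : Fin k → ℝ) : ℝ :=
  ∑ e, Real.negMulLog (x e) - c * ∑ e, Real.negMulLog (1 - x e)

/-- The centred linear statistic. -/
noncomputable def lin (q : Finset (Fin k) → ℝ) (w : Fin k → ℝ) (M : Finset (Fin k)) : ℝ :=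
  ∑ e ∈ M, w e - ∑ e, w e * marginal q e

/-- The covariance of the edge indicator with the linear statistic. -/
noncomputable def cov (q : Finset (Fin k) → ℝ) (w : Fin k → ℝ) (e : Fin k) : ℝ :=
  ∑ M with e ∈ M, q M * lin q w M

namespace EntTwoH

open Filter Topology

theorem swap_sum (g : Finset (Fin k) → ℝ) (w : Fin k → ℝ) :
    ∑ e, w e * ∑ M with e ∈ M, g M = ∑ M, g M * ∑ e ∈ M, w e := by
  simp only [sum_filter, mul_sum]
  rw [sum_comm]
  refine sum_congr rfl fun M _ => ?_
  simp only [mul_ite, mul_zero]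
  rw [← sum_filter, filter_mem_eq_inter, univ_inter]
  exact sum_congr rfl fun _ _ => mul_comm _ _

theorem sum_lin {q : Finset (Fin k) → ℝ} (h1 : ∑ M, q M = 1) (w : Fin k → ℝ) :
    ∑ M, q M * lin q w M = 0 := by
  simp only [lin, mul_sub, sum_sub_distrib]
  rw [← sum_mul, h1, one_mul, ← swap_sum]
  exact sub_self _

theorem sum_cov {q : Finset (Fin k) → ℝ} (h1 : ∑ M, q M = 1) (w : Fin k → ℝ) :
    ∑ e, w e * cov q w e = ∑ M, q M * lin q w M ^ 2 := by
  have e : ∀ M, q M * lin q w M * ∑ e ∈ M, w e =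
      q M * lin q w M ^ 2 + (∑ e, w e * marginal q e) * (q M * lin q w M) := fun M => by
    have : ∑ e ∈ M, w e = lin q w M + ∑ e, w e * marginal q e := by
      rw [lin, sub_add_cancel]
    rw [this]
    ring
  unfold cov
  rw [swap_sum]
  simp only [e]
  rw [sum_add_distrib, ← mul_sum, sum_lin h1, mul_zero, add_zero]

theorem cov_zero {q : Finset (Fin k) → ℝ} (h0 : ∀ M, 0 ≤ q M) (h1 : ∑ M, q M = 1)
    (w : Fin k → ℝ) {e : Fin k} (he : e ∉ frac (marginal q)) : cov q w e = 0 := by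
  have h2 := sum_filter_add_sum_filter_not univ (fun M : Finset (Fin k) => e ∈ M) q
  have h3 := sum_filter_add_sum_filter_not univ (fun M : Finset (Fin k) => e ∈ M)
    fun M => q M * lin q w M
  have h4 : 0 ≤ ∑ M with e ∈ M, q M := sum_nonneg fun M _ => h0 M
  have h5 : 0 ≤ ∑ M with e ∉ M, q M := sum_nonneg fun M _ => h0 M
  have he' : ∑ M with e ∈ M, q M ≤ 0 ∨ 1 ≤ ∑ M with e ∈ M, q M := by
    by_contra H
    rw [not_or, not_le, not_le] at H
    exact he (mem_filter.2 ⟨mem_univ _, H⟩)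
  rcases he' with he | he
  · refine sum_eq_zero fun M hM => ?_
    rw [(sum_eq_zero_iff_of_nonneg fun M _ => h0 M).1 (le_antisymm he h4) M hM, zero_mul]
  · have h6 : ∑ M with e ∉ M, q M * lin q w M = 0 := sum_eq_zero fun M hM => by
      rw [(sum_eq_zero_iff_of_nonneg fun M _ => h0 M).1 (le_antisymm (by linarith) h5) M hM,
        zero_mul]
    rw [sum_lin h1, h6, add_zero] at h3
    exact h3

theorem tilt {q : Finset (Fin k) → ℝ} (hq : IsMatchingLaw ends q) (w : Fin k → ℝ) {s : ℝ}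
    (hs : ∀ M, |s * lin q w M| ≤ 1) :
    IsMatchingLaw ends (fun M => q M * (1 + s * lin q w M)) ∧
      marginal (fun M => q M * (1 + s * lin q w M)) = marginal q + fun e => s * cov q w e := by
  have e : ∀ M, q M * (1 + s * lin q w M) = q M + s * (q M * lin q w M) := fun M => by ring
  refine ⟨⟨fun M => mul_nonneg (hq.1 M) (by linarith [(abs_le.1 (hs M)).1]), ?_,
    fun M hM => hq.2.2 M (left_ne_zero_of_mul hM)⟩, ?_⟩
  · simp only [e]
    rw [sum_add_distrib, ← mul_sum, sum_lin hq.2.1, hq.2.1, mul_zero, add_zero]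
  · funext a
    simp only [e, marginal, cov, Pi.add_apply]
    rw [sum_add_distrib, ← mul_sum]

theorem exp_add_exp_le {s : ℝ} (hs : |s| ≤ 1) :
    Real.exp s + Real.exp (-s) ≤ 2 + s ^ 2 + s ^ 4 := by
  have h1 := Real.cosh_le_exp_half_sq s
  have h2 : s ^ 2 ≤ 1 := (sq_le_one_iff_abs_le_one s).2 hs
  have h3 := Real.abs_exp_sub_one_sub_id_le (x := s ^ 2 / 2)
    (by rw [abs_of_nonneg (by positivity)]; linarith)
  rw [Real.cosh_eq] at h1
  have h4 := (abs_le.1 h3).2
  nlinarith [sq_nonneg (s ^ 2)]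

theorem log_add_log_le {q : Finset (Fin k) → ℝ} (h0 : ∀ M, 0 ≤ q M) (h1 : ∑ M, q M = 1)
    (w : Fin k → ℝ) {t : ℝ} (ht : ∀ M, |t * lin q w M| ≤ 1) :
    Real.log (∑ M, q M * Real.exp (∑ e ∈ M, t * w e)) +
      Real.log (∑ M, q M * Real.exp (-∑ e ∈ M, t * w e)) ≤
      t ^ 2 * ∑ M, q M * lin q w M ^ 2 + t ^ 4 * ∑ M, q M * lin q w M ^ 4 := by
  obtain ⟨M₀, -, hM₀⟩ := exists_ne_zero_of_sum_ne_zero (h1.trans_ne one_ne_zero)
  have hpos : ∀ g : Finset (Fin k) → ℝ, 0 < ∑ M, q M * Real.exp (g M) := fun g =>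
    sum_pos' (fun M _ => mul_nonneg (h0 M) (Real.exp_pos _).le)
      ⟨M₀, mem_univ _, mul_pos ((h0 M₀).lt_of_ne' hM₀) (Real.exp_pos _)⟩
  have e : ∀ M, ∑ e ∈ M, t * w e = t * (∑ e, w e * marginal q e) + t * lin q w M := fun M => by
    rw [← mul_sum, lin]
    ring
  have e1 : ∑ M, q M * Real.exp (∑ e ∈ M, t * w e) =
      Real.exp (t * ∑ e, w e * marginal q e) * ∑ M, q M * Real.exp (t * lin q w M) := by
    rw [mul_sum]
    exact sum_congr rfl fun M _ => by rw [e, Real.exp_add]; ring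
  have e2 : ∑ M, q M * Real.exp (-∑ e ∈ M, t * w e) =
      Real.exp (-(t * ∑ e, w e * marginal q e)) * ∑ M, q M * Real.exp (-(t * lin q w M)) := by
    rw [mul_sum]
    exact sum_congr rfl fun M _ => by rw [e, neg_add, Real.exp_add]; ring
  rw [e1, e2, Real.log_mul (Real.exp_pos _).ne' (hpos _).ne',
    Real.log_mul (Real.exp_pos _).ne' (hpos _).ne', Real.log_exp, Real.log_exp]
  have h2 := Real.log_le_sub_one_of_pos (hpos fun M => t * lin q w M)
  have h3 := Real.log_le_sub_one_of_pos (hpos fun M => -(t * lin q w M))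
  have h4 : ∑ M, q M * Real.exp (t * lin q w M) + ∑ M, q M * Real.exp (-(t * lin q w M)) ≤
      2 * ∑ M, q M + (t ^ 2 * ∑ M, q M * lin q w M ^ 2 + t ^ 4 * ∑ M, q M * lin q w M ^ 4) := by
    simp only [mul_sum, ← sum_add_distrib]
    refine sum_le_sum fun M _ => ?_
    have := mul_le_mul_of_nonneg_left (exp_add_exp_le (ht M)) (h0 M)
    linarith
  rw [h1] at h4
  linarith

theorem sym_log {u : ℝ} (hu : |u| ≤ 1 / 2) :
    |(1 + u) * Real.log (1 + u) + (1 - u) * Real.log (1 - u) - u ^ 2| ≤ 4 * |u| ^ 3 := by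
  have key : ∀ x : ℝ, |x| ≤ 1 / 2 → |x + x ^ 2 / 2 + Real.log (1 - x)| ≤ 2 * |x| ^ 3 := by
    intro x hx
    have h := Real.abs_log_sub_add_sum_range_le (x := x) (by linarith) 2
    have e : ∑ i ∈ range 2, x ^ (i + 1) / ((i : ℝ) + 1) = x + x ^ 2 / 2 := by
      norm_num [sum_range_succ]
    rw [e] at h
    refine h.trans ?_
    rw [div_le_iff₀ (by linarith)]
    change |x| ^ 3 ≤ _
    nlinarith [mul_nonneg (pow_nonneg (abs_nonneg x) 3) (sub_nonneg.2 hx)]
  have h1 := abs_le.1 (key u hu)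
  have h2 := abs_le.1 (key (-u) (by rwa [abs_neg]))
  rw [abs_neg, sub_neg_eq_add] at h2
  have h3 := abs_le.1 hu
  rw [abs_le]
  constructor
  · nlinarith [mul_le_mul_of_nonneg_left h1.1 (show 0 ≤ 1 - u by linarith),
      mul_le_mul_of_nonneg_left h2.1 (show 0 ≤ 1 + u by linarith)]
  · nlinarith [mul_le_mul_of_nonneg_left h1.2 (show 0 ≤ 1 - u by linarith),
      mul_le_mul_of_nonneg_left h2.2 (show 0 ≤ 1 + u by linarith)]

/-- the symmetric second difference quotient of `negMulLog` -/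
noncomputable def dq (a s t : ℝ) : ℝ :=
  (Real.negMulLog (a + t * s) + Real.negMulLog (a - t * s) - 2 * Real.negMulLog a) / t ^ 2

theorem tendsto_dq {a s : ℝ} (h : 0 < a ∨ s = 0) :
    Tendsto (dq a s) (𝓝[>] 0) (𝓝 (-(s ^ 2 / a))) := by
  rcases h with ha | rfl
  · have h1 : Tendsto (fun t : ℝ => |t * s / a|) (𝓝[>] 0) (𝓝 |0 * s / a|) :=
      (Continuous.tendsto (by fun_prop) 0).mono_left nhdsWithin_le_nhds
    have h2 : Tendsto (fun t : ℝ => 4 * |s| ^ 3 / a ^ 2 * t) (𝓝[>] 0)
        (𝓝 (4 * |s| ^ 3 / a ^ 2 * 0)) :=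
      (Continuous.tendsto (by fun_prop) 0).mono_left nhdsWithin_le_nhds
    rw [mul_zero] at h2
    rw [tendsto_iff_norm_sub_tendsto_zero]
    refine squeeze_zero' (Eventually.of_forall fun _ => norm_nonneg _) ?_ h2
    filter_upwards [h1.eventually_le_const (show |0 * s / a| < 1 / 2 by simp),
      self_mem_nhdsWithin] with t ht (ht0 : 0 < t)
    have h3 := sym_log ht
    have h4 := abs_le.1 ht
    have e1 : a + t * s = a * (1 + t * s / a) := by field_simp
    have e2 : a - t * s = a * (1 - t * s / a) := by field_simp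
    have e3 : dq a s t - -(s ^ 2 / a) = -(a / t ^ 2) *
        ((1 + t * s / a) * Real.log (1 + t * s / a) + (1 - t * s / a) * Real.log (1 - t * s / a) -
          (t * s / a) ^ 2) := by
      unfold dq Real.negMulLog
      rw [e1, e2, Real.log_mul ha.ne' (by linarith), Real.log_mul ha.ne' (by linarith)]
      field_simp
      ring
    rw [e3, Real.norm_eq_abs, abs_mul, abs_neg, abs_of_pos (by positivity : 0 < a / t ^ 2)]
    refine (mul_le_mul_of_nonneg_left h3 (by positivity)).trans_eq ?_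
    rw [abs_div, abs_mul, abs_of_pos ht0, abs_of_pos ha]
    field_simp
  · have : dq a 0 = fun _ => 0 := by
      funext t
      simp only [dq, mul_zero, add_zero, sub_zero]
      ring
    rw [this]
    simp

end EntTwoH

open EntTwoH Filter Topology in
theorem second_order (h : ∃ M, IsPerfectMatching ends M) {c : ℝ} {q : Finset (Fin k) → ℝ}
    (hq : q ∈ eK ends)
    (hmin : ∀ q' ∈ eK ends, lawEntropy q - Phi c (marginal q) ≤ lawEntropy q' - Phi c (marginal q'))
    (w : Fin k → ℝ) :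
    ∑ M, q M * lin q w M ^ 2 ≤
      ∑ e ∈ frac (marginal q), (1 / marginal q e - c / (1 - marginal q e)) * cov q w e ^ 2 := by
  have hl := eK_law h hq
  have hcase : ∀ e, (0 < marginal q e ∧ marginal q e < 1) ∨ cov q w e = 0 := fun e => by
    by_cases he : e ∈ frac (marginal q)
    · exact Or.inl (mem_filter.1 he).2
    · exact Or.inr (cov_zero hl.1 hl.2.1 w he)
  have h1 : Tendsto (fun t => ∑ e, (dq (marginal q e) (cov q w e) t -
      c * dq (1 - marginal q e) (cov q w e) t)) (𝓝[>] 0)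
      (𝓝 (∑ e, (-(cov q w e ^ 2 / marginal q e) - c * -(cov q w e ^ 2 / (1 - marginal q e))))) :=
    tendsto_finsetSum _ fun e _ => (tendsto_dq ((hcase e).imp_left fun h => h.1)).sub
      ((tendsto_dq ((hcase e).imp_left fun h => sub_pos.2 h.2)).const_mul c)
  have h2 : Tendsto (fun t : ℝ => -∑ M, q M * lin q w M ^ 2 + t ^ 2 * ∑ M, q M * lin q w M ^ 4)
      (𝓝[>] 0) (𝓝 (-∑ M, q M * lin q w M ^ 2 + 0 ^ 2 * ∑ M, q M * lin q w M ^ 4)) :=
    (Continuous.tendsto (by fun_prop) 0).mono_left nhdsWithin_le_nhds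
  have h3 : ∀ᶠ t in 𝓝[>] (0 : ℝ), ∀ M, |t * lin q w M| ≤ 1 := eventually_all.2 fun M => by
    have : Tendsto (fun t : ℝ => |t * lin q w M|) (𝓝[>] 0) (𝓝 |0 * lin q w M|) :=
      (Continuous.tendsto (by fun_prop) 0).mono_left nhdsWithin_le_nhds
    exact this.eventually_le_const (by simp)
  have h4 := le_of_tendsto_of_tendsto h1 h2 (by
    filter_upwards [h3, self_mem_nhdsWithin] with t ht (ht0 : 0 < t)
    obtain ⟨a1, a2⟩ := tilt hl w ht
    obtain ⟨b1, b2⟩ := tilt hl w (s := -t) fun M => by rw [neg_mul, abs_neg]; exact ht M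
    obtain ⟨p, hp, hp'⟩ := exists_eK a1
    obtain ⟨r, hr, hr'⟩ := exists_eK b1
    rw [a2] at hp'
    have hr'' : marginal r = marginal q - fun e => t * cov q w e := by
      rw [hr', b2]
      funext e
      simp only [Pi.add_apply, Pi.sub_apply]
      ring
    have c1 := hmin p hp
    have c2 := hmin r hr
    have c3 := eK_gibbs hq (eK_law h hp) (eK_law h hr) hp' hr'' fun e => t * w e
    have c4 := log_add_log_le hl.1 hl.2.1 w ht
    have c5 : ∑ e, t * w e * (t * cov q w e) = t ^ 2 * ∑ M, q M * lin q w M ^ 2 := by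
      rw [← sum_cov hl.2.1, mul_sum]
      exact sum_congr rfl fun e _ => by ring
    have c6 : t ^ 2 * ∑ e, (dq (marginal q e) (cov q w e) t -
        c * dq (1 - marginal q e) (cov q w e) t) =
        Phi c (marginal p) + Phi c (marginal r) - 2 * Phi c (marginal q) := by
      rw [hp', hr'']
      simp only [Phi, mul_sum, mul_sub, ← sum_add_distrib, ← sum_sub_distrib, Pi.add_apply,
        Pi.sub_apply]
      refine sum_congr rfl fun e _ => ?_
      unfold dq
      rw [show 1 - (marginal q e + t * cov q w e) = 1 - marginal q e - t * cov q w e by ring,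
        show 1 - (marginal q e - t * cov q w e) = 1 - marginal q e + t * cov q w e by ring]
      field_simp
      ring
    refine le_of_mul_le_mul_left ?_ (pow_pos ht0 2)
    rw [c6]
    rw [c5] at c3
    nlinarith)
  have h5 : ∑ e ∈ frac (marginal q), (1 / marginal q e - c / (1 - marginal q e)) * cov q w e ^ 2 =
      -∑ e, (-(cov q w e ^ 2 / marginal q e) - c * -(cov q w e ^ 2 / (1 - marginal q e))) := by
    rw [← sum_neg_distrib, sum_subset (subset_univ _) fun e _ he => by
      rw [cov_zero hl.1 hl.2.1 w he]; ring]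
    exact sum_congr rfl fun e _ => by ring
  rw [h5]
  linarith

end Crest.Agent.R304
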