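import Crest.Agent.R304.Stage

/-!
# Row 304: the estimator is accurate with probability `15 / 16`
-/

set_option autoImplicit false
set_option linter.unusedSectionVars false

namespace Crest.Agent.R304

open Finset Crest.Agent.R309

variable {n : ℕ} [NeZero n] {ℓ : ℕ}

namespace EstAux

theorem back_nonneg (d : Mat n) (σ : PM n) : 0 ≤ back ℓ d σ := by
  unfold back rho rr
  positivity

theorem fin_nonneg (adj : Gr n) (κ : Mat n) (σ : PM n) : 0 ≤ fin ℓ adj κ σ := by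
  unfold fin
  split_ifs
  · exact back_nonneg _ _
  · exact le_rfl

theorem mean_nonneg {f : PM n → ℚ} (hf : ∀ σ, 0 ≤ f σ) (x : Pop n ℓ) : 0 ≤ mean f x :=
  div_nonneg (Finset.sum_nonneg fun _ _ => hf _) (Nat.cast_nonneg _)

omit [NeZero n] in
theorem symm_sum {ds : List (Mat n)} (h : ∀ d ∈ ds, Symm d) : Symm ds.sum := by
  induction ds with
  | nil => intro u v; rfl
  | cons d ds ih =>
    intro u v
    rw [List.sum_cons, Pi.add_apply, Pi.add_apply, Pi.add_apply, Pi.add_apply,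
      h d (by simp) u v, ih (fun e he => h e (by simp [he])) u v]

omit [NeZero n] in
theorem isDir_getLastD {ds : List (Mat n)} (h : ∀ d ∈ ds, IsDir d) : IsDir (ds.getLastD 0) := by
  rcases List.eq_nil_or_concat ds with rfl | ⟨l, d, rfl⟩
  · exact ⟨fun _ _ => rfl, fun _ _ => by simp⟩
  · simpa using h d (by simp)

theorem Pr_not_le {m : ℕ} {p q : List Bool → Prop} {c : ℝ} (hq : Pr m (fun u => ¬ q u) ≤ c)
    (h : ∀ u, q u → p u) : Pr m (fun u => ¬ p u) ≤ c :=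
  (Pr_mono fun u _ hu hx => hu (h u hx)).trans hq

end EstAux

open EstAux

theorem est_nonneg (σ0 : PM n) (adj : Gr n) (u : List Bool) : 0 ≤ est ℓ σ0 adj u := by
  have key := foldT_inv (step := stage ℓ σ0 adj) (B := Bsamp n ℓ)
    (fun _ (s : List (Mat n) × ℚ × Option ℚ) => 0 ≤ s.2.1 ∧ ∀ z ∈ s.2.2, 0 ≤ z)
    (s := ([], (z0 n : ℚ), none)) ⟨Nat.cast_nonneg _, by simp⟩ ?_ (RR ℓ) u
  · unfold est
    cases h : (foldT (stage ℓ σ0 adj) (Bsamp n ℓ) (RR ℓ) ([], (z0 n : ℚ), none) u).2.2 with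
    | none => exact le_rfl
    | some z => exact key.2 z h
  · intro _ s v hs
    unfold stage
    split_ifs
    · exact hs
    · unfold upd
      have h1 := div_nonneg hs.1
        (mean_nonneg (back_nonneg (ℓ := ℓ) (s.1.getLastD 0)) (samp ℓ σ0 s.1 v))
      cases dir adj s.1.sum (samp ℓ σ0 s.1 v) with
      | none =>
        refine ⟨hs.1, fun z hz => ?_⟩
        obtain rfl := Option.some.inj hz
        exact mul_nonneg h1 (mean_nonneg (fin_nonneg _ _) _)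
      | some d => exact ⟨h1, by simp⟩

theorem est_of_good (hℓ : Big n ℓ) {adj : Gr n}
    (hG : ∃ σ : PM n, ∀ v, adj v (σ.1 v) = true) {s : List (Mat n) × ℚ × Option ℚ}
    (hg : Good ℓ adj (RR ℓ) s) :
    |((s.2.2.getD 0 : ℚ) : ℝ) - numPM adj| ≤ numPM adj / 2 ^ ℓ := by
  cases h : s.2.2 with
  | some z => exact hg.1 z h
  | none =>
    exfalso
    obtain ⟨-, hA, -, h0, hP, -⟩ := hg.2 h
    have h1 := psi_nonneg (ℓ := ℓ) (symm_sum fun d hd => (hA.1 d hd).1) h0 hG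
    have hn1 : (1 : ℝ) ≤ n := by exact_mod_cast Nat.one_le_iff_ne_zero.2 (NeZero.ne n)
    have hB : (2 : ℝ) ^ 36 * (n : ℝ) ^ 35 ≤ (RR ℓ : ℝ) := by
      have : 2 ^ 36 * n ^ 35 ≤ RR ℓ := hℓ
      exact_mod_cast this
    have h2 : (n : ℝ) ^ 2 < (RR ℓ : ℝ) / (128 * (n : ℝ) ^ 3) := by
      rw [lt_div_iff₀ (by positivity)]
      have h5 : (n : ℝ) ^ 5 ≤ (n : ℝ) ^ 35 := pow_le_pow_right₀ hn1 (by norm_num)
      have h6 : (0 : ℝ) < (n : ℝ) ^ 35 := by positivity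
      nlinarith
    linarith

theorem stage_good (hℓ : Big n ℓ) (σ0 : PM n) {adj : Gr n} (ha : Symm adj) {i : ℕ}
    {s : List (Mat n) × ℚ × Option ℚ} (hi : i < RR ℓ) (hs : Good ℓ adj i s) :
    Pr (Bsamp n ℓ) (fun u => ¬ Good ℓ adj (i + 1) (stage ℓ σ0 adj s u)) ≤ 1 / (16 * 2 ^ ℓ) := by
  have hn : Even n := IsPM.even σ0.2
  cases h : s.2.2 with
  | some z =>
    have : ∀ u, Good ℓ adj (i + 1) (stage ℓ σ0 adj s u) := fun u => by
      have e : stage ℓ σ0 adj s u = s := if_pos (by rw [h]; rfl)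
      rw [e]
      exact ⟨hs.1, fun h' => by rw [h] at h'; cases h'⟩
    simp only [Pr, ind_false (not_not.2 (this _)), Ex_const]
    positivity
  | none =>
    obtain ⟨hl, hA, -, h0, -⟩ := hs.2 h
    have hf : ∀ σ, 0 ≤ (back ℓ (s.1.getLastD 0) σ : ℝ) ∧ (back ℓ (s.1.getLastD 0) σ : ℝ) ≤ 2 :=
      fun σ => by
        have := back_mem (ℓ := ℓ) (isDir_getLastD hA.1) σ
        exact ⟨by linarith [this.1], this.2⟩
    have hg : ∀ σ, 0 ≤ (fin ℓ adj s.1.sum σ : ℝ) ∧ (fin ℓ adj s.1.sum σ : ℝ) ≤ 2 := fun σ => by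
      have := fin_mem (ℓ := ℓ) h0 σ
      exact ⟨this.1, by linarith [this.2]⟩
    have hlen : s.1.length ≤ RR ℓ := hl ▸ hi.le
    have key := samp_nice hℓ σ0 hA hlen hf hg
    refine Pr_not_le key fun u hx => ?_
    have e : stage ℓ σ0 adj s u = upd ℓ adj s (samp ℓ σ0 s.1 u) := if_neg (by rw [h]; simp)
    rw [e]
    exact good_upd hn hℓ ha hi hs h hx

theorem est_good (hℓ : Big n ℓ) (σ0 : PM n) {adj : Gr n} (ha : Symm adj)
    (hG : ∃ σ : PM n, ∀ v, adj v (σ.1 v) = true) :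
    Pr (Btot n ℓ) (fun u => ¬ |(est ℓ σ0 adj u : ℝ) - numPM adj| ≤ numPM adj / 2 ^ ℓ) ≤ 1 / 16 := by
  have hn : Even n := IsPM.even σ0.2
  have hB : RR ℓ * Bsamp n ℓ ≤ Btot n ℓ := le_of_eq (by unfold Btot; rfl)
  have key := Pr_foldT_bad (step := stage ℓ σ0 adj) hB (Good ℓ adj) (good_zero hn adj)
    (f := 1 / (16 * 2 ^ ℓ)) fun i s hi hs => stage_good hℓ σ0 ha hi hs
  have e : (RR ℓ : ℝ) * (1 / (16 * 2 ^ ℓ)) = 1 / 16 := by
    unfold RR
    push_cast
    field_simp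
  rw [e] at key
  refine Pr_not_le key fun u hg => ?_
  unfold est
  exact est_of_good hℓ hG hg

end Crest.Agent.R304
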