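import Crest.Agent.R304.Haf

/-!
# Row 304: the deterministic approximation of the number of perfect matchings
-/

set_option autoImplicit false

namespace Crest.Agent.R304

open Finset

variable {n : ℕ}

/-- The gain of a pair that has been used `cnt u v` times. -/
def lam (w cnt : Fin n → Fin n → ℕ) : Fin n → Fin n → ℕ :=
  fun u v => Nat.log 2 (w u v * n / (cnt u v + 1))

/-- The cost of a pair. -/
def fwc (w : Fin n → Fin n → ℕ) (Λ : ℕ) (cnt : Fin n → Fin n → ℕ) : Fin n → Fin n → ℕ :=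
  fun u v => if w u v = 0 then n * Λ + 1 else Λ - lam w cnt u v

/-- One round: choose a perfect matching of maximum gain. -/
def fwStep (w : Fin n → Fin n → ℕ) (Λ : ℕ) (s : (Fin n → Fin n → ℕ) × ℕ) :
    (Fin n → Fin n → ℕ) × ℕ :=
  (fun u v => s.1 u v + if mcpm (fwc w Λ s.1) (n * Λ + 1) u = v then 1 else 0,
    s.2 + cost (lam w s.1) (mcpm (fwc w Λ s.1) (n * Λ + 1)))

/-- The approximation. -/
def fwVal (w : Fin n → Fin n → ℕ) (Λ : ℕ) : ℕ :=
  if hasPM (fun u v => decide (w u v ≠ 0)) = true then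
    2 ^ (((fwStep w Λ)^[n] (0, 0)).2 / n - 5 * n)
  else 0

section
variable {w cnt : Fin n → Fin n → ℕ} {Λ : ℕ}

theorem FW_lt (hw : Symm w) (σ : PM n) {v : Fin n} (h : w v (σ.1 v) = 0) :
    ∃ u, u < σ.1 u ∧ w u (σ.1 u) = 0 := by
  rcases lt_or_gt_of_ne (σ.2.2 v) with h' | h'
  · exact ⟨σ.1 v, by rwa [σ.2.1], by rwa [σ.2.1, hw]⟩
  · exact ⟨v, h', h⟩

theorem FW_wt_zero (hw : Symm w) (σ : PM n) (h : ¬ ∀ v, w v (σ.1 v) ≠ 0) : wt w σ.1 = 0 := by
  push Not at h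
  obtain ⟨v, hv⟩ := h
  obtain ⟨u, h1, h2⟩ := FW_lt hw σ hv
  exact prod_eq_zero (mem_univ u) (by rw [if_pos h1, h2])

theorem FW_cast (w : Fin n → Fin n → ℕ) : ((ZZ w : ℕ) : ℝ) = ZZ fun u v => (w u v : ℝ) := by
  simp [ZZ, wt]

theorem FW_cost (hΛ : ∀ u v, w u v * n < 2 ^ Λ) (σ : PM n) (h : ∀ v, w v (σ.1 v) ≠ 0) :
    cost (fwc w Λ cnt) σ.1 + cost (lam w cnt) σ.1 = n / 2 * Λ := by
  rw [← cost_add, ← smul_eq_mul, ← cost_const Λ σ]
  refine cost_congr fun v _ => ?_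
  rw [fwc, if_neg (h v)]
  exact Nat.sub_add_cancel ((Nat.log_mono_right ((Nat.div_le_self _ _).trans (hΛ _ _).le)).trans_eq
    (Nat.log_pow one_lt_two Λ))

theorem FW_best (hw : Symm w) (hc : Symm cnt) (hΛ : ∀ u v, w u v * n < 2 ^ Λ) {σ₀ : PM n}
    (h₀ : ∀ v, w v (σ₀.1 v) ≠ 0) : ∃ s : PM n, mcpm (fwc w Λ cnt) (n * Λ + 1) = s.1 ∧
      (∀ v, w v (s.1 v) ≠ 0) ∧
      ∀ σ : PM n, (∀ v, w v (σ.1 v) ≠ 0) → cost (lam w cnt) σ.1 ≤ cost (lam w cnt) s.1 := by
  have h1 : Symm (fwc w Λ cnt) := fun u v => by simp only [fwc, lam, hw u v, hc u v]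
  have h2 : ∀ u v, fwc w Λ cnt u v ≤ n * Λ + 1 := fun u v => by
    have := Nat.le_mul_of_pos_left Λ u.pos
    unfold fwc
    split_ifs <;> omega
  obtain ⟨s, hs⟩ : ∃ s : PM n, mcpm (fwc w Λ cnt) (n * Λ + 1) = s.1 :=
    ⟨⟨_, mcpm_pm σ₀.2.even h1 h2⟩, rfl⟩
  have h3 := mcpm_min h1 h2
  rw [hs] at h3
  have h4 : ∀ v, w v (s.1 v) ≠ 0 := fun v hv => by
    obtain ⟨u, a1, a2⟩ := FW_lt hw s hv
    have a3 : n * Λ + 1 ≤ cost (fwc w Λ cnt) s.1 := le_trans (by rw [if_pos a1, fwc, if_pos a2])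
      (single_le_sum (f := fun v => if v < s.1 v then fwc w Λ cnt v (s.1 v) else 0)
        (fun _ _ => Nat.zero_le _) (mem_univ u))
    have a4 := FW_cost (cnt := cnt) hΛ σ₀ h₀
    have a5 := Nat.mul_le_mul_right Λ (Nat.div_le_self n 2)
    have := h3 σ₀
    omega
  refine ⟨s, hs, h4, fun σ hσ => ?_⟩
  have := h3 σ
  have := FW_cost (cnt := cnt) hΛ σ hσ
  have := FW_cost (cnt := cnt) hΛ s h4
  omega

theorem FW_upper (hn : 0 < n) (hw : Symm w) (hc : Symm cnt) (hr : ∀ u, ∑ v, cnt u v ≤ n) {g : ℕ}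
    (hg : ∀ σ : PM n, (∀ v, w v (σ.1 v) ≠ 0) → cost (lam w cnt) σ.1 ≤ g) : ZZ w ≤ 2 ^ (g + n) := by
  have hn' : (0 : ℝ) < n := by exact_mod_cast hn
  have h1 := ZZ_le_pow (W := fun u v => 2 * ((cnt u v : ℝ) + 1) / n) (D := 4)
    (fun u v => by simp only [hc u v]) (fun _ _ => by positivity) (by norm_num) fun u => by
      refine (sum_le_sum_of_subset_of_nonneg (filter_subset _ _) fun _ _ _ => by positivity).trans ?_
      have : ∑ v, (cnt u v : ℝ) ≤ n := by exact_mod_cast hr u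
      rw [← sum_div, ← mul_sum, sum_add_distrib, div_le_iff₀ hn']
      simp only [sum_const, card_univ, Fintype.card_fin, nsmul_eq_mul]
      linarith
  have h2 : ((ZZ w : ℕ) : ℝ) ≤ 2 ^ g * ZZ fun u v => 2 * ((cnt u v : ℝ) + 1) / n := by
    rw [ZZ, ZZ, mul_sum, Nat.cast_sum]
    refine sum_le_sum fun σ _ => ?_
    have h0 := wt_nonneg (W := fun u v => 2 * ((cnt u v : ℝ) + 1) / n) (fun _ _ => by positivity) σ.1
    by_cases h : ∀ v, w v (σ.1 v) ≠ 0
    swap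
    · rw [FW_wt_zero hw σ h, Nat.cast_zero]; positivity
    refine le_trans ?_ (mul_le_mul_of_nonneg_right (pow_le_pow_right₀ one_le_two (hg σ h)) h0)
    rw [wt, wt, cost, ← prod_pow_eq_pow_sum, ← prod_mul_distrib, Nat.cast_prod]
    refine prod_le_prod (fun _ _ => Nat.cast_nonneg _) fun v _ => ?_
    split_ifs
    · have := (Nat.div_lt_iff_lt_mul (Nat.succ_pos _)).1
        (Nat.lt_pow_succ_log_self one_lt_two (w v (σ.1 v) * n / (cnt v (σ.1 v) + 1)))
      rw [← mul_div_assoc, le_div_iff₀ hn', ← mul_assoc, ← pow_succ]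
      exact_mod_cast this.le
    · simp
  have h3 : (4 : ℝ) ^ (n / 2) ≤ 2 ^ n := by
    rw [show (4 : ℝ) = 2 ^ 2 by norm_num, ← pow_mul]
    exact pow_le_pow_right₀ one_le_two (by omega)
  have h4 : ((ZZ w : ℕ) : ℝ) ≤ 2 ^ (g + n) := h2.trans (by rw [pow_add]; gcongr; exact h1.trans h3)
  exact_mod_cast h4

/-- The potential of the greedy algorithm. -/
noncomputable def FWpot (w cnt : Fin n → Fin n → ℕ) : ℝ := ∑ u, ∑ v,
  if u < v then cnt u v * Real.log (w u v * n) - Real.log (cnt u v).factorial else 0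

theorem FW_pot (hc : ∀ u v, cnt u v < n) (s : Fn n) (hs : ∀ v, w v (s v) ≠ 0) :
    FWpot w cnt + (cost (lam w cnt) s : ℕ) * Real.log 2 ≤
      FWpot w fun u v => cnt u v + if s u = v then 1 else 0 := by
  simp only [FWpot, cost_eq_sum, Nat.cast_sum, sum_mul, ← sum_add_distrib]
  refine sum_le_sum fun u _ => sum_le_sum fun v _ => ?_
  by_cases h1 : u < v <;> by_cases h2 : s u = v <;> simp only [h1, h2, if_true, if_false, and_true,
    and_false, Nat.cast_zero, zero_mul, add_zero, le_refl]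
  subst h2
  have h3 : cnt u (s u) + 1 ≤ w u (s u) * n :=
    (hc _ _).trans_le (Nat.le_mul_of_pos_left _ (Nat.pos_of_ne_zero (hs u)))
  have h4 := (Nat.le_div_iff_mul_le (Nat.succ_pos _)).1
    (Nat.pow_log_le_self 2 (Nat.div_pos h3 (Nat.succ_pos _)).ne')
  have h5 : (2 : ℝ) ^ lam w cnt u (s u) * (cnt u (s u) + 1) ≤ w u (s u) * n := by exact_mod_cast h4
  have h6 := Real.log_le_log (by positivity) h5
  rw [Real.log_mul (by positivity) (by positivity), Real.log_pow] at h6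
  rw [Nat.factorial_succ, Nat.cast_mul, Real.log_mul (x := ((_ + 1 : ℕ) : ℝ)) (by positivity)
    (by positivity)]
  push_cast
  linarith

theorem FW_inv (hw : Symm w) (hΛ : ∀ u v, w u v * n < 2 ^ Λ) {σ₀ : PM n}
    (h₀ : ∀ v, w v (σ₀.1 v) ≠ 0) {t : ℕ} (ht : t ≤ n) : ∃ μ : PM n → ℕ, ∑ σ, μ σ = t ∧
      (∀ σ, μ σ ≠ 0 → ∀ v, w v (σ.1 v) ≠ 0) ∧
      (∀ u v, ((fwStep w Λ)^[t] (0, 0)).1 u v = ∑ σ : PM n, if σ.1 u = v then μ σ else 0) ∧
      ZZ w ^ t ≤ 2 ^ (((fwStep w Λ)^[t] (0, 0)).2 + n * t) ∧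
      (((fwStep w Λ)^[t] (0, 0)).2 : ℕ) * Real.log 2 ≤ FWpot w ((fwStep w Λ)^[t] (0, 0)).1 := by
  induction t with
  | zero => exact ⟨0, by simp, by simp, by simp, by simp, by simp [FWpot]⟩
  | succ t ih =>
    obtain ⟨μ, h1, h2, h3, h4, h5⟩ := ih (by omega)
    rw [Function.iterate_succ_apply']
    generalize (fwStep w Λ)^[t] (0, 0) = S at h3 h4 h5
    obtain ⟨cnt, G⟩ := S
    dsimp only at h3 h4 h5
    have hc : Symm cnt := fun u v => by
      rw [h3, h3]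
      exact sum_congr rfl fun σ _ => if_congr σ.2.1.eq_iff rfl rfl
    have hr : ∀ u, ∑ v, cnt u v = t := fun u => by
      simp only [h3]
      rw [sum_comm, ← h1]
      simp
    obtain ⟨s, e, b1, b2⟩ := FW_best hw hc hΛ h₀
    simp only [fwStep, e]
    refine ⟨fun σ => μ σ + if σ = s then 1 else 0, by simp [sum_add_distrib, h1], fun σ hσ => ?_,
      fun u v => ?_, ?_, ?_⟩
    · by_cases h : σ = s
      · exact h ▸ b1
      · exact h2 σ (by simpa [h] using hσ)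
    · rw [h3, ← Fintype.sum_ite_eq' s fun σ => if σ.1 u = v then 1 else 0, ← sum_add_distrib]
      refine sum_congr rfl fun σ _ => ?_
      dsimp only
      split_ifs <;> rfl
    · rw [pow_succ]
      refine (Nat.mul_le_mul h4 (FW_upper (by omega) hw hc (fun u => by rw [hr]; omega) b2)).trans_eq ?_
      rw [← pow_add]
      congr 1
      ring
    · refine le_trans ?_ (FW_pot (fun u v => ?_) s.1 b1)
      · push_cast
        linarith
      · have := single_le_sum (f := cnt u) (fun _ _ => Nat.zero_le _) (mem_univ v)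
        rw [hr] at this
        omega

theorem FW_lower (hn : 0 < n) {μ : PM n → ℕ} (h1 : ∑ σ, μ σ = n)
    (h2 : ∀ σ, μ σ ≠ 0 → ∀ v, w v (σ.1 v) ≠ 0)
    (h3 : ∀ u v, cnt u v = ∑ σ : PM n, if σ.1 u = v then μ σ else 0) :
    0 < ZZ w ∧ FWpot w cnt ≤ n * (Real.log (ZZ w : ℕ) + 2 * n) := by
  have hn' : (0 : ℝ) < n := by exact_mod_cast hn
  obtain ⟨a1, a2⟩ := haf_lower hn (w := fun u v => (w u v : ℝ)) (fun _ _ => Nat.cast_nonneg _)
    (p := fun σ => μ σ / n) (fun _ => by positivity)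
    (by rw [← sum_div, ← Nat.cast_sum, h1, div_self hn'.ne'])
    (fun σ hσ v => Nat.cast_pos.2 (Nat.pos_of_ne_zero (h2 σ (fun e => hσ (by simp [e])) v)))
    (x := fun u v => cnt u v / n) fun u v => by
      rw [h3, Nat.cast_sum, sum_div]
      refine sum_congr rfl fun σ _ => ?_
      split_ifs <;> simp
  rw [← FW_cast] at a1 a2
  refine ⟨by exact_mod_cast a1, ?_⟩
  have hr : ∑ u, ∑ v, (cnt u v : ℝ) = n * n := by
    have : ∀ u, ∑ v, cnt u v = n := fun u => by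
      simp only [h3]
      rw [sum_comm]
      simpa using h1
    simp [← Nat.cast_sum, this]
  refine le_trans ?_ ((add_le_add (mul_le_mul_of_nonneg_left a2 hn'.le) hr.le).trans_eq (by ring))
  simp only [FWpot, mul_sum, ← sum_add_distrib]
  refine sum_le_sum fun u _ => sum_le_sum fun v _ => ?_
  split_ifs
  swap
  · simp
  rcases Nat.eq_zero_or_pos (cnt u v) with h | h
  · simp [h]
  have hw : w u v ≠ 0 := fun e => by
    rw [h3] at h
    obtain ⟨σ, -, hσ⟩ := exists_ne_zero_of_sum_ne_zero h.ne'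
    split_ifs at hσ with h'
    exacts [h2 σ hσ u (h' ▸ e), hσ rfl]
  have a3 := Real.log_le_log (by positivity)
    (Real.pow_div_factorial_le_exp (cnt u v : ℝ) (Nat.cast_nonneg _) (cnt u v))
  rw [Real.log_exp, Real.log_div (by positivity) (by positivity), Real.log_pow] at a3
  rw [Real.log_mul (by positivity) hn'.ne', Real.negMulLog, Real.log_div (by positivity) hn'.ne']
  field_simp
  linarith

end

theorem fw_spec {w : Fin n → Fin n → ℕ} (hw : Symm w) {Λ : ℕ} (hΛ : ∀ u v, w u v * n < 2 ^ Λ) :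
    ZZ w ≤ 512 ^ n * fwVal w Λ ∧ fwVal w Λ ≤ ZZ w := by
  rw [fwVal]
  have hs : Symm fun u v => decide (w u v ≠ 0) := fun u v => by simp only [hw u v]
  split_ifs with h
  swap
  · rw [hasPM_iff hs] at h
    have : ZZ w = 0 := sum_eq_zero fun σ _ => FW_wt_zero hw σ fun h' => h ⟨σ, by simpa using h'⟩
    simp [this]
  obtain ⟨σ₀, h₀⟩ := (hasPM_iff hs).1 h
  rcases Nat.eq_zero_or_pos n with rfl | hn
  · simp [ZZ, Fintype.sum_subsingleton _ σ₀, wt]
  obtain ⟨μ, h1, h2, h3, h4, h5⟩ := FW_inv hw hΛ (σ₀ := σ₀) (by simpa using h₀) le_rfl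
  obtain ⟨a1, a2⟩ := FW_lower hn h1 h2 h3
  generalize ((fwStep w Λ)^[n] (0, 0)).2 = G at h4 h5
  constructor
  · have h6 : ZZ w ≤ 2 ^ (G / n + 1 + n) := by
      refine (Nat.pow_le_pow_iff_left hn.ne').1 (h4.trans ?_)
      rw [← pow_mul]
      exact Nat.pow_le_pow_right two_pos (by nlinarith [Nat.lt_div_mul_add (a := G) hn])
    rw [show 512 = 2 ^ 9 by norm_num, ← pow_mul, ← pow_add]
    exact h6.trans (Nat.pow_le_pow_right two_pos (by omega))
  · rcases le_total (G / n) (5 * n) with h6 | h6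
    · rwa [Nat.sub_eq_zero_of_le h6]
    obtain ⟨k, hk⟩ := Nat.exists_eq_add_of_le h6
    have h7 : ((5 * n + k : ℕ) : ℝ) * n ≤ G := by exact_mod_cast hk ▸ Nat.div_mul_le_self G n
    have hn' : (0 : ℝ) < n := by exact_mod_cast hn
    have h8 : (5 * n + k) * Real.log 2 ≤ _ := le_of_mul_le_mul_left (le_trans (le_of_eq (by
      push_cast; ring)) ((mul_le_mul_of_nonneg_right h7 (Real.log_pos one_lt_two).le).trans
        (h5.trans a2))) hn'
    rw [hk, Nat.add_sub_cancel_left, ← Nat.cast_le (α := ℝ),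
      ← Real.log_le_log_iff (by positivity) (by positivity), Nat.cast_pow, Real.log_pow]
    push_cast
    nlinarith [Real.log_two_gt_d9]

end Crest.Agent.R304
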