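import Crest.Agent.R304.Dual

/-!
# Row 304: minimum-cost perfect matchings
-/

set_option autoImplicit false

namespace Crest.Agent.R304

open Finset

variable {n : ℕ} {c : Fin n → Fin n → ℕ}

theorem MW_cut {π : Finset (Fin n) → ℤ} (h : DInv c π) (σ : PM n) (S : Finset (Fin n)) :
    π S * 2 ≤ π S * ((univ.filter fun v => (v ∈ S ↔ σ.1 v ∉ S)).card : ℤ) := by
  by_cases h0 : π S = 0
  · simp [h0]
  by_cases h1 : S.card = 1
  · obtain ⟨a, rfl⟩ := card_eq_one.1 h1
    have : (univ.filter fun v => (v ∈ ({a} : Finset (Fin n)) ↔ σ.1 v ∉ ({a} : Finset (Fin n)))) =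
        {a, σ.1 a} := by
      ext v
      simp only [mem_filter, mem_univ, true_and, mem_singleton, mem_insert]
      constructor
      · intro hv
        by_cases hva : v = a
        · exact Or.inl hva
        · exact Or.inr (σ.2.1.eq_iff.1 (not_not.1 fun hn => hva (hv.2 hn))).symm
      · rintro (rfl | rfl)
        · exact iff_of_true rfl (σ.2.2 _)
        · exact iff_of_false (σ.2.2 _) (not_not.2 (σ.2.1 _))
    rw [this, card_pair (σ.2.2 a).symm]; rfl
  refine mul_le_mul_of_nonneg_left ?_ (h.nonneg S h1)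
  obtain ⟨v, hv, hv'⟩ : ∃ v ∈ S, σ.1 v ∉ S := by
    by_contra! H
    have h2 := card_closed_mod σ.2.1 H
    rw [filter_false_of_mem fun v _ => σ.2.2 v] at h2
    have h3 := Nat.odd_iff.1 (h.odd S h0)
    simp [h3] at h2
  have h2 : ({v, σ.1 v} : Finset (Fin n)) ⊆ univ.filter fun v => (v ∈ S ↔ σ.1 v ∉ S) := by
    intro w hw
    simp only [mem_insert, mem_singleton] at hw
    rcases hw with rfl | rfl
    · exact mem_filter.2 ⟨mem_univ _, iff_of_true hv hv'⟩
    · exact mem_filter.2 ⟨mem_univ _, iff_of_false hv' (by rw [σ.2.1]; exact not_not.2 hv)⟩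
  have h3 := card_le_card h2
  rw [card_pair (σ.2.2 v).symm] at h3
  exact_mod_cast h3

/-- Weak duality. -/
theorem DInv.weak {π : Finset (Fin n) → ℤ} (h : DInv c π) (σ : PM n) :
    ∑ S, π S ≤ ((cost c σ.1 : ℕ) : ℤ) := by
  set L : Fin n → Fin n → ℤ := fun u v => ∑ S with (u ∈ S ↔ v ∉ S), π S with hL
  have hLs : Symm L := fun u v => sum_congr (filter_congr fun S _ => by tauto) fun _ _ => rfl
  have h1 : cost L σ.1 ≤ ((cost c σ.1 : ℕ) : ℤ) := by
    rw [cast_cost]
    exact cost_le_of_le fun v hv => h.feas v _ hv.symm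
  have h2 := cost_two hLs σ.2.1
  rw [sum_congr rfl fun v _ => if_neg (σ.2.2 v)] at h2
  have h3 : ∑ v, L v (σ.1 v) =
      ∑ S, π S * ((univ.filter fun v => (v ∈ S ↔ σ.1 v ∉ S)).card : ℤ) := by
    simp only [hL, sum_filter, card_filter, Nat.cast_sum, mul_sum]
    rw [sum_comm]
    refine sum_congr rfl fun S _ => sum_congr rfl fun v _ => ?_
    split_ifs <;> simp
  have h4 : ∑ S, π S * 2 ≤ _ := sum_le_sum fun S (_ : S ∈ univ) => MW_cut h σ S
  rw [← sum_mul, ← h3, ← h2] at h4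
  linarith

theorem MW_cost_le {B : ℕ} (hB : ∀ u v, c u v ≤ B) (σ : Fn n) : cost c σ ≤ n * B := by
  have := sum_le_card_nsmul (univ : Finset (Fin n))
    (fun v => if v < σ v then c v (σ v) else 0) B fun v _ => by
      split_ifs
      · exact hB _ _
      · exact Nat.zero_le _
  simpa [cost] using this

theorem MW_iter (hc : Symm c) (i : ℕ) : ∃ π, DInv c π ∧ ((dstep c)^[i] (0, 0)).1 = hOf π ∧
    (((dstep c)^[i] (0, 0)).2 : ℤ) = ∑ S, π S ∧
    (geDef (cadj c (hOf π)) ≤ inact (hOf π) ∨ i ≤ ((dstep c)^[i] (0, 0)).2) := by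
  induction i with
  | zero => exact ⟨0, dinv_zero c, hOf_zero.symm, by simp, Or.inr (Nat.zero_le _)⟩
  | succ i ih =>
    obtain ⟨π, h, h1, h2, h3⟩ := ih
    rw [Function.iterate_succ_apply']
    generalize (dstep c)^[i] (0, 0) = s at h1 h2 h3
    unfold dstep
    rw [h1]
    split_ifs with ht
    · exact ⟨π, h, h1, h2, Or.inl ht⟩
    · obtain ⟨π', h', h4, h5⟩ := h.step hc (ge_spec (cadj_simple hc π))
      refine ⟨π', h', h4.symm, ?_, Or.inr ?_⟩
      · rw [Nat.cast_add, Nat.cast_sub (not_le.1 ht).le]; linarith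
      · have := h3.resolve_left ht
        dsimp only
        omega

theorem drun_spec (hn : Even n) (hc : Symm c) {B : ℕ} (hB : ∀ u v, c u v ≤ B) :
    ∃ π, DInv c π ∧ ((drun c B).2 : ℤ) = ∑ S, π S ∧
      ∃ N : PM n, 2 * ((cost c N.1 : ℕ) : ℤ) ≤ 2 * ∑ S, π S + n := by
  obtain ⟨π, h, -, h2, h3⟩ := MW_iter hc (n * B + 1)
  refine ⟨π, h, h2, h.final hc (ge_spec (cadj_simple hc π)) (h3.resolve_right fun h4 => ?_)⟩
  have h5 := h.weak ⟨sig0 hn, isPM_sig0 hn⟩
  have h6 := MW_cost_le hB (sig0 hn)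
  rw [← h2] at h5
  dsimp only at h5
  omega

theorem MW_cost_smul (a : ℕ) (σ : Fn n) : cost (fun u v => a * c u v) σ = a * cost c σ := by
  simp only [cost, mul_sum, mul_ite, mul_zero]

theorem MW_scaled (hn : Even n) (hc : Symm c) {B : ℕ} (hB : ∀ u v, c u v ≤ B) :
    (∀ σ : PM n, (drun (fun u v => (n + 1) * c u v) ((n + 1) * B)).2 ≤ (n + 1) * cost c σ.1) ∧
      ∃ N : PM n, (n + 1) * cost c N.1 ≤
        (drun (fun u v => (n + 1) * c u v) ((n + 1) * B)).2 + n := by
  obtain ⟨π, h, h1, N, hN⟩ := drun_spec (c := fun u v => (n + 1) * c u v) hn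
    (fun u v => congrArg _ (hc u v)) fun u v => Nat.mul_le_mul_left (n + 1) (hB u v)
  refine ⟨fun σ => ?_, N, ?_⟩
  · have h2 := h.weak σ
    rw [← h1, MW_cost_smul] at h2
    exact_mod_cast h2
  · rw [← h1, MW_cost_smul] at hN
    omega

theorem optVal_le (hc : Symm c) {B : ℕ} (hB : ∀ u v, c u v ≤ B) (σ : PM n) :
    optVal c B ≤ cost c σ.1 := by
  have h := (MW_scaled σ.2.even hc hB).1 σ
  refine Nat.lt_succ_iff.1 ((Nat.div_lt_iff_lt_mul (Nat.succ_pos n)).2 ?_)
  nlinarith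

theorem exists_optVal (hn : Even n) (hc : Symm c) {B : ℕ} (hB : ∀ u v, c u v ≤ B) :
    ∃ σ : PM n, cost c σ.1 = optVal c B := by
  obtain ⟨N, hN⟩ := (MW_scaled hn hc hB).2
  refine ⟨N, le_antisymm ((Nat.le_div_iff_mul_le (Nat.succ_pos n)).2 ?_) (optVal_le hc hB N)⟩
  rwa [mul_comm]

/-- `σ` has minimum cost. -/
def MW_Opt (c : Fin n → Fin n → ℕ) (σ : PM n) : Prop := ∀ τ : PM n, cost c σ.1 ≤ cost c τ.1

theorem MW_opt_iff (hc : Symm c) {B : ℕ} (hB : ∀ u v, c u v ≤ B) (σ : PM n) :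
    MW_Opt c σ ↔ cost c σ.1 = optVal c B := by
  refine ⟨fun h => le_antisymm ?_ (optVal_le hc hB σ), fun h τ => h ▸ optVal_le hc hB τ⟩
  obtain ⟨τ, hτ⟩ := exists_optVal σ.2.even hc hB
  exact hτ ▸ h τ

theorem MW_bump_symm (hc : Symm c) (a b : Fin n) : Symm (bump c a b) := fun u v => by
  unfold bump
  rw [hc u v]
  exact if_congr (by tauto) rfl rfl

theorem MW_le_bump (a b u v : Fin n) : c u v ≤ bump c a b u v := by
  unfold bump; split_ifs <;> omega

theorem MW_bump_of_ne {a b : Fin n} (σ : PM n) (h : σ.1 a ≠ b) (v : Fin n) :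
    bump c a b v (σ.1 v) = c v (σ.1 v) := by
  refine if_neg ?_
  rintro (⟨rfl, h1⟩ | ⟨rfl, h1⟩)
  · exact h h1
  · exact h (σ.2.1.eq_iff.1 h1)

theorem MW_cost_le_bump (a b : Fin n) (σ : Fn n) : cost c σ ≤ cost (bump c a b) σ :=
  cost_le_of_le fun _ _ => MW_le_bump _ _ _ _

theorem MW_cost_lt_bump {a b : Fin n} (hab : a < b) {σ : Fn n} (h : σ a = b) :
    cost c σ < cost (bump c a b) σ := by
  refine sum_lt_sum (fun v _ => ?_) ⟨a, mem_univ _, ?_⟩
  · split_ifs
    · exact MW_le_bump _ _ _ _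
    · exact le_rfl
  · simp [h, hab, bump]

/-- The invariant of the self-reduction. -/
structure MW_Inv (c : Fin n → Fin n → ℕ) (l : List (Fin n × Fin n)) (c' : Fin n → Fin n → ℕ) :
    Prop where
  symm : Symm c'
  le : ∀ u v, c' u v ≤ c u v + 1
  new : ∀ u v, u < v → (u, v) ∉ l → c' u v = c u v
  opt : ∀ σ, MW_Opt c' σ → (∀ v, c' v (σ.1 v) = c v (σ.1 v)) ∧ MW_Opt c σ ∧
    ∀ u v, (u, v) ∈ l → u < v → c' u v = c u v → σ.1 u = v

theorem MW_Inv.step (hc : Symm c) {B : ℕ} (hB : ∀ u v, c u v ≤ B) {l : List (Fin n × Fin n)}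
    {c' : Fin n → Fin n → ℕ} (h : MW_Inv c l c') {a b : Fin n} (hl : (a, b) ∉ l) :
    MW_Inv c (l ++ [(a, b)])
      (if a < b ∧ optVal (bump c' a b) (B + 1) = optVal c' (B + 1) then bump c' a b else c') := by
  have hB' : ∀ u v, c' u v ≤ B + 1 := fun u v => (h.le u v).trans (Nat.succ_le_succ (hB u v))
  have hle : a < b → ∀ u v, bump c' a b u v ≤ c u v + 1 := by
    intro hab u v
    unfold bump
    split_ifs with h1
    · rcases h1 with ⟨rfl, rfl⟩ | ⟨rfl, rfl⟩
      · rw [h.new _ _ hab hl]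
      · rw [h.symm, hc, h.new _ _ hab hl]
    · exact h.le u v
  have hB'' : a < b → ∀ u v, bump c' a b u v ≤ B + 1 := fun hab u v =>
    (hle hab u v).trans (Nat.succ_le_succ (hB u v))
  have hs := MW_bump_symm h.symm a b
  have hne : ∀ u v, a < b → u < v → (u, v) ≠ (a, b) → bump c' a b u v = c' u v := by
    intro u v hab huv h1
    refine if_neg ?_
    rintro (⟨rfl, rfl⟩ | ⟨rfl, rfl⟩)
    · exact h1 rfl
    · exact lt_asymm hab huv
  split_ifs with H
  · obtain ⟨hab, H⟩ := H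
    refine ⟨hs, hle hab, fun u v huv h1 => ?_, fun σ hσ => ?_⟩
    · simp only [List.mem_append, List.mem_singleton, not_or] at h1
      rw [hne u v hab huv h1.2, h.new u v huv h1.1]
    · have h1 := (MW_opt_iff hs (hB'' hab) σ).1 hσ
      have h2 := optVal_le h.symm hB' σ
      have h3 := MW_cost_le_bump (c := c') a b σ.1
      have h4 : σ.1 a ≠ b := fun h4 => by
        have := MW_cost_lt_bump (c := c') hab h4
        omega
      obtain ⟨h5, h6, h7⟩ := h.opt σ ((MW_opt_iff h.symm hB' σ).2 (by omega))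
      refine ⟨fun v => (MW_bump_of_ne σ h4 v).trans (h5 v), h6, fun u v h8 huv h9 => ?_⟩
      by_cases h10 : (u, v) = (a, b)
      · obtain ⟨rfl, rfl⟩ := Prod.mk.inj h10
        simp [bump, h.new _ _ hab hl] at h9
      · rw [hne u v hab huv h10] at h9
        exact h7 u v ((List.mem_append.1 h8).resolve_right (by simpa using h10)) huv h9
  · refine ⟨h.symm, h.le, fun u v huv h1 => h.new u v huv fun h2 => h1 (List.mem_append_left _ h2),
      fun σ hσ => ?_⟩
    obtain ⟨h5, h6, h7⟩ := h.opt σ hσ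
    refine ⟨h5, h6, fun u v h8 huv h9 => ?_⟩
    rcases List.mem_append.1 h8 with h8 | h8
    · exact h7 u v h8 huv h9
    · obtain ⟨rfl, rfl⟩ := Prod.mk.inj (List.mem_singleton.1 h8)
      by_contra h4
      refine H ⟨huv, ?_⟩
      have h1 := (MW_opt_iff h.symm hB' σ).1 hσ
      have h2 := optVal_le hs (hB'' huv) σ
      rw [cost_congr (W' := c') fun w _ => MW_bump_of_ne σ h4 w] at h2
      obtain ⟨τ, hτ⟩ := exists_optVal σ.2.even hs (hB'' huv)
      have h3 := MW_cost_le_bump (c := c') u v τ.1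
      have h10 := hσ τ
      omega

theorem MW_fold (hc : Symm c) {B : ℕ} (hB : ∀ u v, c u v ≤ B) (l : List (Fin n × Fin n))
    (hl : l.Nodup) : MW_Inv c l (l.foldl (fun c' p =>
      if p.1 < p.2 ∧ optVal (bump c' p.1 p.2) (B + 1) = optVal c' (B + 1) then bump c' p.1 p.2
      else c') c) := by
  induction l using List.reverseRecOn with
  | nil => exact ⟨hc, fun _ _ => Nat.le_succ _, fun _ _ _ _ => rfl,
      fun σ hσ => ⟨fun _ => rfl, hσ, fun _ _ h => absurd h List.not_mem_nil⟩⟩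
  | append_singleton l p ih =>
    rw [List.foldl_append, List.foldl_cons, List.foldl_nil]
    have h1 := List.nodup_append.1 hl
    exact (ih h1.1).step hc hB fun h => h1.2.2 _ h _ (List.mem_singleton_self _) rfl

theorem MW_mcpm (hn : Even n) (hc : Symm c) {B : ℕ} (hB : ∀ u v, c u v ≤ B) :
    ∃ σ : PM n, MW_Opt c σ ∧ mcpm c B = σ.1 := by
  have h : MW_Inv c ((List.finRange n).product (List.finRange n)) (redu c B) :=
    MW_fold hc hB _ (List.Nodup.product (List.nodup_finRange n) (List.nodup_finRange n))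
  have hB' : ∀ u v, redu c B u v ≤ B + 1 := fun u v => (h.le u v).trans (Nat.succ_le_succ (hB u v))
  obtain ⟨σ, hσ⟩ := exists_optVal hn h.symm hB'
  obtain ⟨h1, h2, h3⟩ := h.opt σ ((MW_opt_iff h.symm hB' σ).2 hσ)
  have hm : ∀ u v, (u, v) ∈ (List.finRange n).product (List.finRange n) := fun u v =>
    List.pair_mem_product.2 ⟨List.mem_finRange _, List.mem_finRange _⟩
  refine ⟨σ, h2, funext fun v => ?_⟩
  unfold mcpm
  cases hf : (List.finRange n).find? fun u => decide (u ≠ v ∧ redu c B v u = c v u) with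
  | none =>
    exact absurd (decide_eq_true ⟨σ.2.2 v, h1 v⟩)
      (List.find?_eq_none.1 hf (σ.1 v) (List.mem_finRange _))
  | some u =>
    have h4 := List.find?_some hf
    obtain ⟨h4, h5⟩ := of_decide_eq_true h4
    rcases lt_or_gt_of_ne h4 with h6 | h6
    · rw [h.symm, hc] at h5
      exact (σ.2.1.eq_iff.1 (h3 u v (hm u v) h6 h5)).symm
    · exact (h3 v u (hm v u) h6 h5).symm

theorem mcpm_pm (hn : Even n) (hc : Symm c) {B : ℕ} (hB : ∀ u v, c u v ≤ B) :
    IsPM (mcpm c B) := by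
  obtain ⟨σ, -, h⟩ := MW_mcpm hn hc hB
  exact h ▸ σ.2

theorem mcpm_min (hc : Symm c) {B : ℕ} (hB : ∀ u v, c u v ≤ B) (σ : PM n) :
    cost c (mcpm c B) ≤ cost c σ.1 := by
  obtain ⟨τ, h1, h⟩ := MW_mcpm σ.2.even hc hB
  exact h ▸ h1 σ

/-- The test for a perfect matching of a graph. -/
def hasPM (adj : Gr n) : Bool :=
  decide (Even n ∧ optVal (fun u v => if adj u v = true then 0 else 1) 1 = 0)

theorem hasPM_iff {adj : Gr n} (h : Symm adj) :
    hasPM adj = true ↔ ∃ σ : PM n, ∀ v, adj v (σ.1 v) = true := by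
  have hs : Symm fun u v => if adj u v = true then 0 else 1 := fun u v => by
    simp only [h u v]
  have hB : ∀ u v, (if adj u v = true then 0 else 1) ≤ 1 := fun u v => by split_ifs <;> omega
  rw [hasPM, decide_eq_true_iff]
  constructor
  · rintro ⟨hn, h0⟩
    obtain ⟨σ, hσ⟩ := exists_optVal hn hs hB
    rw [h0, cost, sum_eq_zero_iff] at hσ
    have h1 : ∀ v, v < σ.1 v → adj v (σ.1 v) = true := fun v hv => by
      simpa [hv] using hσ v (mem_univ _)
    refine ⟨σ, fun v => ?_⟩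
    rcases lt_or_gt_of_ne (σ.2.2 v) with h2 | h2
    · have h3 := h1 (σ.1 v) (by rwa [σ.2.1])
      rwa [σ.2.1, h] at h3
    · exact h1 v h2
  · rintro ⟨σ, hσ⟩
    refine ⟨σ.2.even, Nat.le_zero.1 ((optVal_le hs hB σ).trans (le_of_eq ?_))⟩
    simp [cost, hσ]

end Crest.Agent.R304
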