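import Crest.Agent.R304.ImplA
import Crest.Agent.R304.MW

/-!
# Row 304: minimum-cost perfect matchings in polynomial time (costs in unary)
-/

set_option autoImplicit false

namespace Crest.Agent.R304

open Finset Crest.Agent.Lib.PolyTime

namespace ImplB

variable {α : Type} [PEnc α] {n : α → ℕ}

theorem app2 {δ : Type} [PEnc δ] {h : ∀ a, Fin (n a) → Fin (n a) → δ} {u v : ∀ a, Fin (n a)}
    (hh : DP h) (hu : DP u) (hv : DP v) : Poly fun a => h a (u a) (v a) :=
  DP.poly (f := fun a => h a (u a) (v a)) ((hh.app hu).app hv)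

theorem app1 {δ : Type} [PEnc δ] {h : ∀ a, Fin (n a) → δ} {u : ∀ a, Fin (n a)}
    (hh : DP h) (hu : DP u) : Poly fun a => h a (u a) := 
  DP.poly (f := fun a => h a (u a)) (hh.app hu)

theorem poly_same {h : ∀ a, Mat (n a)} {u v : ∀ a, Fin (n a)} (hh : DP h) (hu : DP u)
    (hv : DP v) : Poly fun a => same (h a) (u a) (v a) :=
  Poly.decide_or (hu.decide_eq hv) (Poly.decide_intLt (poly_const 0) (app2 hh hu hv))

theorem dp_rep (hn : Poly n) (hb : PB n) {h : ∀ a, Mat (n a)} {v : ∀ a, Fin (n a)} (hh : DP h)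
    (hv : DP v) : DP fun a => rep (h a) (v a) :=
  ((DP.finRange hn hb).find? (f := fun a u => same (h a) u (v a))
    (poly_same (n := fun p : Σ a, Fin (n a) => n p.1) (hh.comp poly_fst) DP.snd
      (hv.comp poly_fst))).optGetD hv

theorem dp_repAll (hn : Poly n) (hb : PB n) {h : ∀ a, Mat (n a)} (hh : DP h) :
    DP fun a => rep (h a) :=
  DP.fn hn hb (dp_rep (n := fun p : Σ a, Fin (n a) => n p.1) (hn.comp poly_fst) (hb.comp poly_fst)
    (hh.comp poly_fst) DP.snd)

theorem poly_load {h : ∀ a, Mat (n a)} {u v : ∀ a, Fin (n a)} (hh : DP h) (hu : DP u)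
    (hv : DP v) : Poly fun a => load (h a) (u a) (v a) :=
  ((app2 hh hu hu).intAdd (app2 hh hv hv)).intSub ((poly_const 2).intMul (app2 hh hu hv))

theorem poly_cadj (hn : Poly n) (hb : PB n) {c : ∀ a, Fin (n a) → Fin (n a) → ℕ}
    {h : ∀ a, Mat (n a)} {p q : ∀ a, Fin (n a)} (hc : DP c) (hh : DP h) (hp : DP p) (hq : DP q) :
    Poly fun a => cadj (c a) (h a) (p a) (q a) := by
  have hr := dp_repAll hn hb hh
  refine Poly.decide_and (Poly.decide_not (hp.decide_eq hq)) (Poly.decide_exists_fin hn hb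
    (Poly.decide_exists_fin (n := fun x : Σ a, Fin (n a) => n x.1) (hn.comp poly_fst)
      (hb.comp poly_fst) ?_))
  have f2 : Poly fun y : Σ x : (Σ a, Fin (n a)), Fin (n x.1) => y.1.1 := poly_fst.comp poly_fst
  have ha : DP fun y : Σ x : (Σ a, Fin (n a)), Fin (n x.1) => y.1.2 := DP.snd.comp poly_fst
  have hb' : DP fun y : Σ x : (Σ a, Fin (n a)), Fin (n x.1) => y.2 := DP.snd
  exact Poly.decide_and (((hr.comp f2).app ha).decide_eq (hp.comp f2))
    (Poly.decide_and (((hr.comp f2).app hb').decide_eq (hq.comp f2))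
      (Poly.decide_intLe (app2 (hc.comp f2) ha hb').natCastInt
        ((poly_load (hh.comp f2) ha hb').intAdd (poly_const 1))))

theorem dp_cadj (hn : Poly n) (hb : PB n) {c : ∀ a, Fin (n a) → Fin (n a) → ℕ}
    {h : ∀ a, Mat (n a)} (hc : DP c) (hh : DP h) : DP fun a => cadj (c a) (h a) := by
  have f2 : Poly fun y : Σ x : (Σ a, Fin (n a)), Fin (n x.1) => y.1.1 := poly_fst.comp poly_fst
  exact DP.fn₂ hn hb hn hb (poly_cadj (n := fun y : Σ x : (Σ a, Fin (n a)), Fin (n x.1) => n y.1.1)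
    (hn.comp f2) (hb.comp f2) (hc.comp f2) (hh.comp f2) (DP.snd.comp poly_fst) DP.snd)

theorem poly_inact (hn : Poly n) (hb : PB n) {h : ∀ a, Mat (n a)} (hh : DP h) :
    Poly fun a => inact (h a) :=
  Poly.card_filter_fin hn hb (Poly.decide_not
    ((((dp_repAll hn hb hh).comp poly_fst).app DP.snd).decide_eq DP.snd))

theorem dp_dupd (hn : Poly n) (hb : PB n) {g : ∀ a, Gr (n a)} {D : ∀ a, Fin (n a) → Bool}
    {h : ∀ a, Mat (n a)} (hg : DP g) (hD : DP D) (hh : DP h) :
    DP fun a => dupd (g a) (D a) (h a) := by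
  have f2 : Poly fun y : Σ x : (Σ a, Fin (n a)), Fin (n x.1) => y.1.1 := poly_fst.comp poly_fst
  have hu : DP fun y : Σ x : (Σ a, Fin (n a)), Fin (n x.1) => y.1.2 := DP.snd.comp poly_fst
  have hv : DP fun y : Σ x : (Σ a, Fin (n a)), Fin (n x.1) => y.2 := DP.snd
  have hr := (dp_repAll hn hb hh).comp f2
  have hru := hr.app hu
  have hrv := hr.app hv
  refine DP.fn₂ hn hb hn hb (((app2 (hh.comp f2) hu hv).intAdd
    (Poly.ite (Poly.decide_and (app1 (hD.comp f2) hru).decide_true
      (app1 (dp_comp (hn.comp f2) (hb.comp f2) (hg.comp f2) (hD.comp f2) hru) hrv).decide_true)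
      (poly_const 1) (poly_const 0))).intSub
    (Poly.ite (Poly.decide_and (app1 ((dp_geA hn hb hg hD).comp f2) hru).decide_true
      (hru.decide_eq hrv)) (poly_const 1) (poly_const 0)))

theorem dp_dstep (hn : Poly n) (hb : PB n) {c : ∀ a, Fin (n a) → Fin (n a) → ℕ}
    {s : ∀ a, Mat (n a) × ℕ} (hc : DP c) (hs : DP s) : DP fun a => dstep (c a) (s a) := by
  have hg := dp_cadj hn hb hc hs.fst
  have hd := poly_geDef hn hb hg
  have hi := poly_inact hn hb hs.fst
  exact DP.ite (Poly.decide_le hd hi) hs ((dp_dupd hn hb hg (dp_geD hn hb hg) hs.fst).pair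
    (DP.of_poly ((DP.poly (f := fun a => (s a).2) hs.snd').add (hd.sub hi))))

theorem geDef_le {m : ℕ} (adj : Gr m) : geDef adj ≤ m := by
  unfold geDef
  generalize (sat adj).map nfix = l
  induction l with
  | nil => exact le_rfl
  | cons x l ih => exact (min_le_right _ _).trans ih

theorem dstep_bound {m : ℕ} (c : Fin m → Fin m → ℕ) (i : ℕ) :
    (∀ u v, (((dstep c)^[i] (0, 0)).1 u v).natAbs ≤ i) ∧ ((dstep c)^[i] (0, 0)).2 ≤ i * m := by
  induction i with
  | zero => simp
  | succ i ih =>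
    rw [Function.iterate_succ_apply']
    generalize (dstep c)^[i] (0, 0) = s at ih
    unfold dstep
    split_ifs
    · exact ⟨fun u v => (ih.1 u v).trans (Nat.le_succ _), ih.2.trans (by nlinarith)⟩
    · refine ⟨fun u v => ?_, ?_⟩
      · have := ih.1 u v
        simp only [dupd]
        split_ifs <;> omega
      · have h1 := geDef_le (cadj c s.1)
        have h2 := ih.2
        simp only
        rw [Nat.succ_mul]
        omega

theorem dp_bump (hn : Poly n) (hb : PB n) {c : ∀ a, Fin (n a) → Fin (n a) → ℕ}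
    {p q : ∀ a, Fin (n a)} (hc : DP c) (hp : DP p) (hq : DP q) :
    DP fun a => bump (c a) (p a) (q a) := by
  have f2 : Poly fun y : Σ x : (Σ a, Fin (n a)), Fin (n x.1) => y.1.1 := poly_fst.comp poly_fst
  have hu : DP fun y : Σ x : (Σ a, Fin (n a)), Fin (n x.1) => y.1.2 := DP.snd.comp poly_fst
  have hv : DP fun y : Σ x : (Σ a, Fin (n a)), Fin (n x.1) => y.2 := DP.snd
  have h := app2 (hc.comp f2) hu hv
  exact DP.fn₂ hn hb hn hb (Poly.ite (Poly.decide_or
    (Poly.decide_and (hu.decide_eq (hp.comp f2)) (hv.decide_eq (hq.comp f2)))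
    (Poly.decide_and (hu.decide_eq (hq.comp f2)) (hv.decide_eq (hp.comp f2))))
    (h.add (poly_const 1)) h)

theorem sz_entry_le {m : ℕ} (c : Fin m → Fin m → ℕ) (u v : Fin m) : sz (c u v) ≤ sz c := by
  have h1 : sz (c u v) ≤ sz (List.ofFn (c u)) := sz_le_of_mem (List.mem_ofFn.2 ⟨v, rfl⟩)
  have h2 : sz (c u) ≤ sz (List.ofFn c) := sz_le_of_mem (List.mem_ofFn.2 ⟨u, rfl⟩)
  exact h1.trans h2

theorem foldl_bump_le {m : ℕ} (P : (Fin m → Fin m → ℕ) → Fin m × Fin m → Prop)
    [∀ c p, Decidable (P c p)] (l : List (Fin m × Fin m)) (c : Fin m → Fin m → ℕ) (u v : Fin m) :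
    l.foldl (fun c' p => if P c' p then bump c' p.1 p.2 else c') c u v ≤ c u v + l.length := by
  induction l generalizing c with
  | nil => simp
  | cons p l ih =>
    rw [List.foldl_cons, List.length_cons]
    refine (ih _).trans ?_
    split_ifs
    · unfold bump
      split_ifs <;> omega
    · omega

end ImplB

open ImplB

variable {α : Type} [PEnc α] {n B : α → ℕ} {c : ∀ a, Fin (n a) → Fin (n a) → ℕ}

theorem dp_drun (hn : Poly n) (hb : PB n) (hB : Poly B) (hB' : PB B) (hc : DP c) :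
    DP fun a => drun (c a) (B a) := by
  have h0 : DP fun a => ((0 : Mat (n a)), (0 : ℕ)) :=
    (DP.fn₂ hn hb hn hb (v := fun a => (0 : Mat (n a))) (poly_const (0 : ℤ))).pair
      (DP.of_poly (poly_const 0))
  refine DP.iterate_inv (T := fun a => n a * B a + 1) h0
    (dp_dstep (n := fun p : Σ a, Mat (n a) × ℕ => n p.1) (hn.comp poly_fst) (hb.comp poly_fst)
      (hc.comp poly_fst) DP.snd)
    ((hn.mul hB).add (poly_const 1)) (by fun_prop)
    (B := fun a => n a * (n a * (4 * (n a * B a + 1) + 6) + 1 + 1) + 1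
      + (4 * ((n a * B a + 1) * n a) + 1) + 1) (by fun_prop) fun a i hi => ?_
  obtain ⟨h1, h2⟩ := dstep_bound (c a) i
  rw [sz_prod]
  have e1 := sz_fun_le (v := ((dstep (c a))^[i] (0, 0)).1)
    (B := n a * (4 * (n a * B a + 1) + 6) + 1) fun u =>
      sz_fun_le (B := 4 * (n a * B a + 1) + 5) fun v => by
        have k1 := sz_int_le (((dstep (c a))^[i] (0, 0)).1 u v)
        have k2 := sz_le_self (((dstep (c a))^[i] (0, 0)).1 u v).natAbs
        have k3 := h1 u v
        omega
  have e2 := sz_le_self ((dstep (c a))^[i] (0, 0)).2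
  have e3 : i * n a ≤ (n a * B a + 1) * n a := Nat.mul_le_mul_right _ hi
  omega

theorem poly_optVal (hn : Poly n) (hb : PB n) (hB : Poly B) (hB' : PB B) (hc : DP c) :
    Poly fun a => optVal (c a) (B a) := by
  have f2 : Poly fun y : Σ x : (Σ a, Fin (n a)), Fin (n x.1) => y.1.1 := poly_fst.comp poly_fst
  have hn1 : Poly fun a => n a + 1 := hn.add (poly_const 1)
  have hc' : DP fun a => fun u v => (n a + 1) * c a u v :=
    DP.fn₂ hn hb hn hb ((hn1.comp f2).mul (app2 (hc.comp f2) (DP.snd.comp poly_fst) DP.snd))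
  have h := dp_drun hn hb (hn1.mul hB) (by fun_prop) hc'
  exact ((DP.poly (f := fun a => (drun (fun u v => (n a + 1) * c a u v) ((n a + 1) * B a)).2)
    h.snd').add hn).div hn1

theorem dp_redu (hn : Poly n) (hb : PB n) (hB : Poly B) (hB' : PB B) (hc : DP c) :
    DP fun a => redu (c a) (B a) := by
  have hl := (DP.finRange hn hb).product (DP.finRange hn hb)
  have f1 : Poly fun p : Σ a, (Fin (n a) → Fin (n a) → ℕ) × (Fin (n a) × Fin (n a)) => p.1 :=
    poly_fst
  have k0 : DP fun p : Σ a, (Fin (n a) → Fin (n a) → ℕ) × (Fin (n a) × Fin (n a)) => p.2.1 :=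
    DP.snd.fst
  have k1 : DP fun p : Σ a, (Fin (n a) → Fin (n a) → ℕ) × (Fin (n a) × Fin (n a)) => p.2.2.1 :=
    DP.snd.snd'.fst
  have k2 : DP fun p : Σ a, (Fin (n a) → Fin (n a) → ℕ) × (Fin (n a) × Fin (n a)) => p.2.2.2 :=
    DP.snd.snd'.snd'
  have hbump := dp_bump (hn.comp f1) (hb.comp f1) k0 k1 k2
  have hB1 : Poly fun a => B a + 1 := hB.add (poly_const 1)
  have hB1' : PB fun a => B a + 1 := by fun_prop
  have hsz := hc.pb_sz
  have hlen := hl.pb_length
  refine DP.foldl hl hc (DP.ite (Poly.decide_and (k1.decide_lt k2) (Poly.decide_eq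
    (poly_optVal (hn.comp f1) (hb.comp f1) (hB1.comp f1) (hB1'.comp f1) hbump)
    (poly_optVal (hn.comp f1) (hb.comp f1) (hB1.comp f1) (hB1'.comp f1) k0))) hbump k0)
    (B := fun a => n a * (n a * (4 * (sz (c a) + (4 * ((List.finRange (n a)).product
      (List.finRange (n a))).length + 1) + 1) + 2) + 2) + 1) (by fun_prop) fun a l hl' => ?_
  refine sz_fun_le (B := n a * (4 * (sz (c a) + (4 * ((List.finRange (n a)).product
      (List.finRange (n a))).length + 1) + 1) + 2) + 1) fun u => sz_fun_le fun v => ?_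
  have h1 := foldl_bump_le (fun c' p => p.1 < p.2 ∧
    optVal (bump c' p.1 p.2) (B a + 1) = optVal c' (B a + 1)) l (c a) u v
  have h2 := hl'.length_le
  have h3 := sz_entry_le (c a) u v
  have h4 := sz_nat_le (l.foldl (fun c' p => if p.1 < p.2 ∧ optVal (bump c' p.1 p.2) (B a + 1)
    = optVal c' (B a + 1) then bump c' p.1 p.2 else c') (c a) u v)
  have h5 := (Nat.size_le_size h1).trans (size_add_le _ _)
  have h6 := size_lt_sz (c a u v)
  have h7 := size_lt_sz l.length
  have h8 := sz_le_self l.length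
  omega

theorem dp_mcpm (hn : Poly n) (hb : PB n) (hB : Poly B) (hB' : PB B) (hc : DP c) :
    DP fun a => mcpm (c a) (B a) := by
  have f2 : Poly fun y : Σ x : (Σ a, Fin (n a)), Fin (n x.1) => y.1.1 := poly_fst.comp poly_fst
  have hv : DP fun y : Σ x : (Σ a, Fin (n a)), Fin (n x.1) => y.1.2 := DP.snd.comp poly_fst
  have hu : DP fun y : Σ x : (Σ a, Fin (n a)), Fin (n x.1) => y.2 := DP.snd
  have hr := dp_redu hn hb hB hB' hc
  have h1 : Poly fun y : Σ x : (Σ a, Fin (n a)), Fin (n x.1) =>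
      decide (y.2 ≠ y.1.2 ∧ redu (c y.1.1) (B y.1.1) y.1.2 y.2 = c y.1.1 y.1.2 y.2) :=
    Poly.decide_and (Poly.decide_not (hu.decide_eq hv))
      (Poly.decide_eq (app2 (hr.comp f2) hv hu) (app2 (hc.comp f2) hv hu))
  have h2 := ((DP.finRange (n := fun p : Σ a, Fin (n a) => n p.1) (hn.comp poly_fst)
    (hb.comp poly_fst)).find? (f := fun (p : Σ a, Fin (n a)) (u : Fin (n p.1)) =>
      decide (u ≠ p.2 ∧ redu (c p.1) (B p.1) p.2 u = c p.1 p.2 u)) h1).optGetD DP.snd
  exact DP.fn hn hb h2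

theorem poly_hasPM (hn : Poly n) (hb : PB n) {adj : ∀ a, Gr (n a)} (h : DP adj) :
    Poly fun a => hasPM (adj a) := by
  have f2 : Poly fun y : Σ x : (Σ a, Fin (n a)), Fin (n x.1) => y.1.1 := poly_fst.comp poly_fst
  have hc : DP fun a => fun u v => if adj a u v = true then (0 : ℕ) else 1 :=
    DP.fn₂ hn hb hn hb (Poly.ite (app2 (h.comp f2) (DP.snd.comp poly_fst) DP.snd).decide_true
      (poly_const 0) (poly_const 1))
  exact Poly.decide_and hn.decide_even (Poly.decide_eq
    (poly_optVal hn hb (poly_const 1) (PB.const 1) hc) (poly_const 0))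

end Crest.Agent.R304
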