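import Crest.Agent.R304.FW
import Crest.Agent.R304.ImplB
import Crest.Agent.Lib.PolyTime.Bridge
import Crest.Agent.Lib.PolyTime.Enc

/-!
# Row 304: the deterministic approximation runs in polynomial time
-/

set_option autoImplicit false

namespace Crest.Agent.R304

open Finset Crest.Agent.Lib.PolyTime Crest.Enc Crest.Matchings

section impl

variable {α : Type} [PEnc α] {n Λ : α → ℕ}

theorem fw_entry {δ : Type} [PEnc δ] {w : ∀ a, Fin (n a) → Fin (n a) → δ} (hw : DP w) :
    Poly fun q : Σ p : (Σ a, Fin (n a)), Fin (n p.1) => w q.1.1 q.1.2 q.2 :=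
  (((hw.comp (poly_fst.comp poly_fst)).app (DP.snd.comp poly_fst)).app DP.snd).poly

theorem dp_lam {w cnt : ∀ a, Fin (n a) → Fin (n a) → ℕ} (hn : Poly n) (hb : PB n) (hw : DP w)
    (hc : DP cnt) : DP fun a => lam (w a) (cnt a) :=
  DP.fn₂ hn hb hn hb (Poly.log (poly_const 2) (((fw_entry hw).mul
    (hn.comp (poly_fst.comp poly_fst))).div ((fw_entry hc).add (poly_const 1))))

theorem dp_fwc {w cnt : ∀ a, Fin (n a) → Fin (n a) → ℕ} (hn : Poly n) (hb : PB n) (hΛ : Poly Λ)
    (hw : DP w) (hc : DP cnt) : DP fun a => fwc (w a) (Λ a) (cnt a) :=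
  DP.fn₂ hn hb hn hb (Poly.ite (Poly.decide_eq (fw_entry hw) (poly_const 0))
    (((hn.mul hΛ).add (poly_const 1)).comp (poly_fst.comp poly_fst))
    ((hΛ.comp (poly_fst.comp poly_fst)).sub (fw_entry (dp_lam hn hb hw hc))))

theorem dp_fwStep {w : ∀ a, Fin (n a) → Fin (n a) → ℕ}
    {s : ∀ a, (Fin (n a) → Fin (n a) → ℕ) × ℕ} (hn : Poly n) (hb : PB n) (hΛ : Poly Λ)
    (hΛ' : PB Λ) (hw : DP w) (hs : DP s) : DP fun a => fwStep (w a) (Λ a) (s a) := by
  have hm : DP fun a => mcpm (fwc (w a) (Λ a) (s a).1) (n a * Λ a + 1) :=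
    dp_mcpm hn hb ((hn.mul hΛ).add (poly_const 1)) ((hb.mul hΛ').add (PB.const 1))
      (dp_fwc hn hb hΛ hw hs.fst)
  refine DP.pair (DP.fn₂ hn hb hn hb ((fw_entry hs.fst).add (Poly.ite (DP.decide_eq
    ((hm.comp (poly_fst.comp poly_fst)).app (DP.snd.comp poly_fst)) DP.snd)
      (poly_const 1) (poly_const 0)))) (DP.of_poly ?_)
  exact hs.snd'.poly.add (poly_cost hn hb (dp_lam hn hb hw hs.fst) hm)

end impl

theorem fw_entry_lt {n : ℕ} (w : Fin n → Fin n → ℕ) (u v : Fin n) : w u v < 2 ^ sz w := by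
  have h1 : sz (w u) ≤ sz w := sz_le_of_mem (l := List.ofFn w) (by simp)
  have h2 : sz (w u v) ≤ sz (w u) := sz_le_of_mem (l := List.ofFn (w u)) (by simp)
  exact (lt_two_pow_sz _).trans_le (Nat.pow_le_pow_right (by norm_num) (h2.trans h1))

theorem lam_le {n : ℕ} (w cnt : Fin n → Fin n → ℕ) (u v : Fin n) : lam w cnt u v ≤ sz w + n := by
  unfold lam
  refine (Nat.log_mono_right (Nat.div_le_self _ _)).trans ?_
  have h : w u v * n ≤ 2 ^ (sz w + n) := by
    rw [pow_add]
    exact Nat.mul_le_mul (fw_entry_lt w u v).le Nat.lt_two_pow_self.le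
  exact (Nat.log_mono_right h).trans (by rw [Nat.log_pow (by norm_num)])

theorem cost_lam_le {n : ℕ} (w cnt : Fin n → Fin n → ℕ) (σ : Fn n) :
    cost (lam w cnt) σ ≤ n * (sz w + n) := by
  unfold cost
  refine (Finset.sum_le_card_nsmul _ _ (sz w + n) fun v _ => ?_).trans (by simp)
  split_ifs
  · exact lam_le _ _ _ _
  · exact Nat.zero_le _

theorem fw_iter_le {n : ℕ} (w : Fin n → Fin n → ℕ) (Λ i : ℕ) :
    (∀ u v, ((fwStep w Λ)^[i] (0, 0)).1 u v ≤ i) ∧
      ((fwStep w Λ)^[i] (0, 0)).2 ≤ i * (n * (sz w + n)) := by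
  induction i with
  | zero => simp
  | succ i ih =>
    rw [Function.iterate_succ_apply']
    generalize (fwStep w Λ)^[i] (0, 0) = s at ih
    refine ⟨fun u v => ?_, ?_⟩
    · have := ih.1 u v
      simp only [fwStep]
      split_ifs <;> omega
    · have := cost_lam_le w s.1 (mcpm (fwc w Λ s.1) (n * Λ + 1))
      have h2 := ih.2
      simp only [fwStep]
      rw [add_mul, one_mul]
      omega

theorem poly_fwVal {α : Type} [PEnc α] {n Λ : α → ℕ} {w : ∀ a, Fin (n a) → Fin (n a) → ℕ}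
    (hn : Poly n) (hb : PB n) (hΛ : Poly Λ) (hΛ' : PB Λ) (hw : DP w) :
    Poly fun a => fwVal (w a) (Λ a) := by
  have hG : PB fun a => n a * (n a * (sz (w a) + n a)) := hb.mul (hb.mul (hw.pb_sz.add hb))
  have h0 : DP fun a => ((0, 0) : (Fin (n a) → Fin (n a) → ℕ) × ℕ) :=
    DP.pair (DP.fn₂ hn hb hn hb (poly_const 0)) (DP.of_poly (poly_const 0))
  have hit : DP fun a => (fwStep (w a) (Λ a))^[n a] (0, 0) := by
    refine DP.iterate_inv h0 (dp_fwStep (hn.comp poly_fst) (hb.comp poly_fst) (hΛ.comp poly_fst)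
      (hΛ'.comp poly_fst) (hw.comp poly_fst) DP.snd) hn hb
      (B := fun a => (n a * (n a * (4 * n a + 2) + 1 + 1) + 1) +
        (4 * (n a * (n a * (sz (w a) + n a))) + 1) + 1) ?_ fun a i hi => ?_
    · exact (((hb.mul (((hb.mul (((PB.const 4).mul hb).add (PB.const 2))).add (PB.const 1)).add
        (PB.const 1))).add (PB.const 1)).add (((PB.const 4).mul hG).add (PB.const 1))).add
        (PB.const 1)
    · obtain ⟨h1, h2⟩ := fw_iter_le (w a) (Λ a) i
      rw [sz_prod]
      have h3 : sz ((fwStep (w a) (Λ a))^[i] (0, 0)).1 ≤ n a * (n a * (4 * n a + 2) + 1 + 1) + 1 :=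
        sz_fun_le fun u => sz_natFun_le fun v => (h1 u v).trans hi
      have h4 := sz_le_self ((fwStep (w a) (Λ a))^[i] (0, 0)).2
      have h5 : i * (n a * (sz (w a) + n a)) ≤ n a * (n a * (sz (w a) + n a)) :=
        Nat.mul_le_mul_right _ hi
      omega
  have hadj : DP fun a => (fun u v => decide (w a u v ≠ 0) : Gr (n a)) :=
    DP.fn₂ hn hb hn hb (Poly.decide_congr (Poly.decide_lt (poly_const 0) (fw_entry hw))
      fun _ => Nat.pos_iff_ne_zero)
  unfold fwVal
  refine Poly.ite ((poly_hasPM hn hb hadj).congr fun a => by simp) ?_ (poly_const 0)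
  refine Poly.pow (poly_const 2) ((hit.snd'.poly.div hn).sub ((poly_const 5).mul hn)) ?_
  exact ((hG.mono fun a => (fw_iter_le (w a) (Λ a) (n a)).2).div _).sub _

/-- The table described by a list of triples. -/
def fwTab (n : ℕ) (L : List (ℕ × ℕ × ℕ)) : Fin n → Fin n → ℕ := fun u v =>
  ((L.find? fun t => decide (t.1 = min (u : ℕ) v) && decide (t.2.1 = max (u : ℕ) v)).map
    fun t => t.2.2).getD 0

/-- The output on a vertex number and a list of triples. -/
def fwOut (n : ℕ) (L : List (ℕ × ℕ × ℕ)) : ℕ :=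
  fwVal (fwTab n L) (Nat.size ((L.map fun t => t.2.2).sum * n))

/-- The parsed input. -/
def fwParse (s : List Bool) : ℕ × List (ℕ × ℕ × ℕ) :=
  ((pNat s).1, (pList (pSeq pNat (pSeq pNat pNat)) (pNat s).2).1)

theorem poly_fwParse : Poly fwParse := by unfold fwParse; fun_prop

/-- The triples listed in the code. -/
def fwList (n : ℕ) (w : Fin n → Fin n → ℕ) : List (ℕ × ℕ × ℕ) :=
  (posPairs n w).map fun q => ((q.1 : ℕ), (q.2 : ℕ), w q.1 q.2)

theorem fwParse_code (n : ℕ) (w : Fin n → Fin n → ℕ) :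
    fwParse (pairMultCode n w) = (n, fwList n w) := by
  have h := pList_code (p := pSeq pNat (pSeq pNat pNat))
    (c := fun q : Fin n × Fin n => natCode q.1 ++ natCode q.2 ++ natCode (w q.1 q.2))
    (v := fun q => ((q.1 : ℕ), (q.2 : ℕ), w q.1 q.2)) (l := posPairs n w)
    (fun q _ r => by simp [pSeq]) (fun q _ => by simp [natCode_ne_nil]) []
  rw [List.append_nil] at h
  simp only [fwParse, pairMultCode, List.append_assoc, pNat_code, fwList] at h ⊢
  rw [h]

theorem mem_posPairs {n : ℕ} {w : Fin n → Fin n → ℕ} {q : Fin n × Fin n} :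
    q ∈ posPairs n w ↔ q.1 < q.2 ∧ 0 < w q.1 q.2 := by
  obtain ⟨a, b⟩ := q
  simp [posPairs]

theorem fwTab_le (n : ℕ) (L : List (ℕ × ℕ × ℕ)) (u v : Fin n) :
    fwTab n L u v ≤ (L.map fun t => t.2.2).sum := by
  unfold fwTab
  cases h : L.find? fun t => decide (t.1 = min (u : ℕ) v) && decide (t.2.1 = max (u : ℕ) v) with
  | none => simp
  | some t =>
    exact List.single_le_sum (fun _ _ => Nat.zero_le _) _
      (List.mem_map.2 ⟨t, List.mem_of_find?_eq_some h, rfl⟩)

theorem fwTab_list {n : ℕ} {w : Fin n → Fin n → ℕ} (hs : ∀ i j, w i j = w j i)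
    (h0 : ∀ i, w i i = 0) : fwTab n (fwList n w) = w := by
  funext u v
  unfold fwTab
  cases h : (fwList n w).find?
      fun t => decide (t.1 = min (u : ℕ) v) && decide (t.2.1 = max (u : ℕ) v) with
  | none =>
    rw [List.find?_eq_none] at h
    by_contra hne
    have hw : 0 < w u v := Nat.pos_of_ne_zero fun e => hne (by simp [e])
    rcases lt_trichotomy u v with huv | huv | huv
    · have := h _ (List.mem_map.2 ⟨(u, v), mem_posPairs.2 ⟨huv, hw⟩, rfl⟩)
      have h' : (u : ℕ) ≤ v := huv.le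
      simp [h'] at this
    · subst huv
      rw [h0] at hw
      exact lt_irrefl _ hw
    · have := h _ (List.mem_map.2 ⟨(v, u), mem_posPairs.2 ⟨huv, hs u v ▸ hw⟩, rfl⟩)
      have h' : (v : ℕ) ≤ u := huv.le
      simp [h'] at this
  | some t =>
    obtain ⟨q, -, rfl⟩ := List.mem_map.1 (List.mem_of_find?_eq_some h)
    have h1 := List.find?_some h
    simp only [Bool.and_eq_true, decide_eq_true_eq] at h1
    simp only [Option.map_some, Option.getD_some]
    rcases le_total (u : ℕ) v with huv | huv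
    · rw [min_eq_left huv, max_eq_right huv] at h1
      rw [Fin.ext h1.1, Fin.ext h1.2]
    · rw [min_eq_right huv, max_eq_left huv] at h1
      rw [Fin.ext h1.1, Fin.ext h1.2, hs]

theorem ZZ_eq_zero_of_few {n : ℕ} {w : Fin n → Fin n → ℕ} (h : 2 * (posPairs n w).length < n) :
    ZZ w = 0 := by
  unfold ZZ
  refine Finset.sum_eq_zero fun σ _ => ?_
  by_contra hne
  unfold wt at hne
  have hp : ∀ v, v < σ.1 v → (v, σ.1 v) ∈ posPairs n w := fun v hv => by
    refine mem_posPairs.2 ⟨hv, Nat.pos_of_ne_zero fun e => hne ?_⟩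
    exact Finset.prod_eq_zero (Finset.mem_univ v) (by rw [if_pos hv]; exact e)
  have hsub : (univ : Finset (Fin n)) ⊆
      ((posPairs n w).map Prod.fst ++ (posPairs n w).map Prod.snd).toFinset := by
    intro v _
    rw [List.mem_toFinset, List.mem_append]
    rcases lt_trichotomy v (σ.1 v) with hv | hv | hv
    · exact Or.inl (List.mem_map.2 ⟨_, hp v hv, rfl⟩)
    · exact absurd hv.symm (σ.2.2 v)
    · exact Or.inr (List.mem_map.2 ⟨_, hp (σ.1 v) (by rw [σ.2.1 v]; exact hv), σ.2.1 v⟩)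
  have h1 := (Finset.card_le_card hsub).trans (List.toFinset_card_le _)
  simp only [Finset.card_univ, Fintype.card_fin, List.length_append, List.length_map] at h1
  omega

theorem poly_fwOut {α : Type} [PEnc α] {n : α → ℕ} {L : α → List (ℕ × ℕ × ℕ)} (hn : Poly n)
    (hb : PB n) (hL : Poly L) : Poly fun a => fwOut (n a) (L a) := by
  have hS : Poly fun a => ((L a).map fun t => t.2.2).sum * n a := by fun_prop
  refine poly_fwVal hn hb hS.size (PB.size hS) (DP.fn₂ hn hb hn hb ?_)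
  have hF : Poly fun x : List (ℕ × ℕ × ℕ) × ℕ × ℕ =>
      ((x.1.find? fun t => decide (t.1 = min x.2.1 x.2.2) && decide (t.2.1 = max x.2.1 x.2.2)).map
        fun t => t.2.2).getD 0 := by fun_prop
  have h1 : DP fun q : Σ p : (Σ a, Fin (n a)), Fin (n p.1) => q.1.2 := DP.snd.comp poly_fst
  have h2 : DP fun q : Σ p : (Σ a, Fin (n a)), Fin (n p.1) => q.2 := DP.snd
  exact hF.comp (g := fun q : Σ p : (Σ a, Fin (n a)), Fin (n p.1) =>
      (L q.1.1, (q.1.2 : ℕ), (q.2 : ℕ)))
    ((hL.comp (poly_fst.comp poly_fst)).pair (h1.val.pair h2.val))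

theorem det_approx :
    ∃ f : List Bool → List Bool, Crest.Complexity.PolyTime f ∧
      ∀ (n : ℕ) (w : Fin n → Fin n → ℕ), (∀ i j, w i j = w j i) → (∀ i, w i i = 0) →
        ∃ A : ℕ, f (pairMultCode n w) = natCode A ∧
          multNumPerfectMatchings w ≤ 512 ^ n * A ∧ A ≤ multNumPerfectMatchings w := by
  have hO : Poly fun x : ℕ × List (ℕ × ℕ × ℕ) => fwOut (min x.1 (2 * x.2.length)) x.2 :=
    poly_fwOut (by fun_prop) (by fun_prop) (by fun_prop)
  have hg : Poly fun x : ℕ × List (ℕ × ℕ × ℕ) =>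
      natCode (if 2 * x.2.length < x.1 then 0 else fwOut (min x.1 (2 * x.2.length)) x.2) :=
    (Poly.ite (by fun_prop) (poly_const 0) hO).natCode
  refine ⟨_, (hg.comp poly_fwParse).polyTime, fun n w hs h0 => ⟨_, rfl, ?_⟩⟩
  rw [fwParse_code, mult_eq]
  have hlen : (fwList n w).length = (posPairs n w).length := by simp [fwList]
  dsimp only
  split_ifs with h
  · rw [ZZ_eq_zero_of_few (hlen ▸ h)]
    simp
  · rw [min_eq_left (not_lt.1 h), fwOut]
    have hΛ : ∀ u v, w u v * n < 2 ^ Nat.size (((fwList n w).map fun t => t.2.2).sum * n) := by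
      intro u v
      refine lt_of_le_of_lt (Nat.mul_le_mul_right _ ?_) (Nat.lt_size_self _)
      have := fwTab_le n (fwList n w) u v
      rwa [fwTab_list hs h0] at this
    rw [fwTab_list hs h0]
    exact fw_spec hs hΛ

end Crest.Agent.R304
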