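import Crest.Agent.R304.ImplC

/-!
# Row 304: the estimator runs in polynomial time
-/

set_option autoImplicit false

namespace Crest.Agent.R304

open Finset Crest.Agent.Lib.PolyTime Crest.Agent.R309

namespace ImplD

theorem ht_inv (q : ℚ) : ht q⁻¹ ≤ ht q := by
  rw [ht_rat, ht_rat]
  rcases eq_or_ne q 0 with rfl | hq
  · simp
  · rw [Rat.num_inv, Rat.den_inv_of_ne_zero hq, Int.natAbs_mul, Int.natAbs_natCast,
      Int.natAbs_sign_of_ne_zero (Rat.num_ne_zero.2 hq)]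
    omega

theorem ht_mul_le {p q : ℚ} {A B : ℕ} (hp : ht p ≤ 2 ^ A) (hq : ht q ≤ 2 ^ B) :
    ht (p * q) ≤ 2 ^ (A + B) := by
  rw [pow_add]; exact (ht_mul _ _).trans (Nat.mul_le_mul hp hq)

theorem ht_div_le {p q : ℚ} {A B : ℕ} (hp : ht p ≤ 2 ^ A) (hq : ht q ≤ 2 ^ B) :
    ht (p / q) ≤ 2 ^ (A + B) := by
  rw [div_eq_mul_inv]; exact ht_mul_le hp ((ht_inv q).trans hq)

theorem ht_mono {q : ℚ} {A B : ℕ} (hq : ht q ≤ 2 ^ A) (h : A ≤ B) : ht q ≤ 2 ^ B :=
  hq.trans (Nat.pow_le_pow_right (by norm_num) h)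

theorem ht_pow_le {q : ℚ} {A : ℕ} (hq : ht q ≤ 2 ^ A) (k : ℕ) : ht (q ^ k) ≤ 2 ^ (k * A + 1) := by
  induction k with
  | zero => simp [ht_rat]
  | succ k ih => rw [pow_succ]; exact ht_mono (ht_mul_le ih hq) (by rw [Nat.succ_mul]; omega)

theorem ht_zpow_le {q : ℚ} {A : ℕ} (hq : ht q ≤ 2 ^ A) (z : ℤ) :
    ht (q ^ z) ≤ 2 ^ (z.natAbs * A + 1) := by
  rcases Int.natAbs_eq z with e | e
  · conv_lhs => rw [e, zpow_natCast]
    exact ht_pow_le hq _
  · conv_lhs => rw [e, zpow_neg, zpow_natCast]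
    exact (ht_inv _).trans (ht_pow_le hq _)

theorem ht_sum_le {ι : Type} (s : Finset ι) {f : ι → ℚ} {A : ℕ} (h : ∀ i, ht (f i) ≤ 2 ^ A) :
    ht (∑ i ∈ s, f i) ≤ 2 ^ (s.card * A) := by
  classical
  induction s using Finset.induction_on with
  | empty => simp [ht_rat]
  | insert i s hi ih =>
    rw [sum_insert hi, card_insert_of_notMem hi, Nat.succ_mul, add_comm _ A, pow_add]
    exact (ht_add _ _).trans (Nat.mul_le_mul (h i) ih)

theorem ht_natCast (k : ℕ) : ht (k : ℚ) ≤ 2 ^ k := by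
  rw [ht_rat, Rat.num_natCast, Rat.den_natCast, Int.natAbs_natCast]
  exact Nat.lt_two_pow_self

section Plain

variable {n ℓ : ℕ}

theorem natAbs_cost_le {d : Mat n} {K : ℕ} (h : ∀ u v, (d u v).natAbs ≤ K) (σ : Fn n) :
    (cost d σ).natAbs ≤ n * K := by
  refine (Int.natAbs_sum_le _ _).trans ?_
  refine (sum_le_card_nsmul _ _ K fun v _ => ?_).trans_eq (by simp)
  split_ifs
  · exact h _ _
  · simp

theorem natAbs_sum_le {ds : List (Mat n)} (h : ∀ d ∈ ds, ∀ u v, |d u v| ≤ 1) (u v : Fin n) :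
    (ds.sum u v).natAbs ≤ ds.length := by
  induction ds with
  | nil => simp
  | cons d ds ih =>
    have h1 := abs_le.1 (h d List.mem_cons_self u v)
    have h2 := ih fun d hd => h d (List.mem_cons_of_mem _ hd)
    rw [List.sum_cons, Pi.add_apply, Pi.add_apply, List.length_cons]
    omega

theorem natAbs_getLastD_le {ds : List (Mat n)} (h : ∀ d ∈ ds, ∀ u v, |d u v| ≤ 1) (u v : Fin n) :
    (ds.getLastD 0 u v).natAbs ≤ 1 := by
  rcases List.mem_cons.1 (List.getLastD_mem_cons (l := ds) (a := 0)) with e | e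
  · rw [e]; simp
  · have := abs_le.1 (h _ e u v)
    omega

theorem sum_apply (ds : List (Mat n)) (u v : Fin n) :
    ds.sum u v = (ds.map fun d => d u v).sum := by
  induction ds with
  | nil => rfl
  | cons d ds ih => rw [List.sum_cons, List.map_cons, List.sum_cons, ← ih]; rfl

theorem abs_dir_le {adj : Gr n} {κ d : Mat n} {x : Pop n ℓ} (h : dir adj κ x = some d)
    (u v : Fin n) : |d u v| ≤ 1 := by
  unfold dir at h
  split_ifs at h
  · obtain rfl := Option.some.inj h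
    dsimp only
    split_ifs <;> simp
  · obtain ⟨p, -, rfl⟩ := Option.map_eq_some_iff.1 h
    dsimp only
    split_ifs <;> simp

theorem ht_back_le {d : Mat n} {K : ℕ} (h : ∀ u v, (d u v).natAbs ≤ K) (σ : PM n) :
    ht (back ℓ d σ) ≤ 2 ^ (n * K * (2 * sz (rho n ℓ)) + 1) := by
  refine ht_mono (ht_zpow_le (ht_le _) _) ?_
  rw [Int.natAbs_neg]
  exact Nat.add_le_add_right (Nat.mul_le_mul_right _ (natAbs_cost_le h _)) 1

theorem ht_fin_le (adj : Gr n) {d : Mat n} {K : ℕ} (h : ∀ u v, (d u v).natAbs ≤ K) (σ : PM n) :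
    ht (fin ℓ adj d σ) ≤ 2 ^ (n * K * (2 * sz (rho n ℓ)) + 1) := by
  unfold fin
  split_ifs
  · exact ht_back_le h σ
  · exact Nat.one_le_two_pow

theorem ht_mean_le {f : PM n → ℚ} {A : ℕ} (h : ∀ σ, ht (f σ) ≤ 2 ^ A) (x : Pop n ℓ) :
    ht (mean f x) ≤ 2 ^ (NN ℓ * A + NN ℓ) := by
  have := ht_sum_le univ (f := fun i => f (x i)) fun i => h (x i)
  rw [card_univ, Fintype.card_fin] at this
  exact ht_div_le this (ht_natCast _)

/-- The growth of the heights in one stage. -/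
def MM (n ℓ : ℕ) : ℕ := NN ℓ * (n * (RR ℓ + 1) * (2 * sz (rho n ℓ)) + 1) + NN ℓ

/-- The invariant of the learning loop. -/
def Inv (ℓ c i : ℕ) (s : List (Mat n) × ℚ × Option ℚ) : Prop :=
  s.1.length ≤ i ∧ (∀ d ∈ s.1, ∀ u v, |d u v| ≤ 1) ∧ ht s.2.1 ≤ 2 ^ (c + i * MM n ℓ) ∧
    ∀ r, s.2.2 = some r → ht r ≤ 2 ^ (c + (i + 1) * MM n ℓ)

theorem inv_upd (adj : Gr n) {c i : ℕ} {s : List (Mat n) × ℚ × Option ℚ} (hi : i < RR ℓ)
    (h : Inv ℓ c i s) (x : Pop n ℓ) : Inv ℓ c (i + 1) (upd ℓ adj s x) := by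
  obtain ⟨h1, h2, h3, -⟩ := h
  have m1 : ht (mean (back ℓ (s.1.getLastD 0)) x) ≤ 2 ^ MM n ℓ :=
    ht_mean_le (fun σ => ht_back_le (fun u v => (natAbs_getLastD_le h2 u v).trans (by omega)) σ) x
  have m2 : ht (mean (fin ℓ adj s.1.sum) x) ≤ 2 ^ MM n ℓ :=
    ht_mean_le (fun σ => ht_fin_le adj (fun u v => (natAbs_sum_le h2 u v).trans (by omega)) σ) x
  have m3 := ht_div_le h3 m1
  unfold upd
  cases e : dir adj s.1.sum x with
  | none =>
    refine ⟨h1.trans (Nat.le_succ i), h2, ht_mono h3 (by rw [Nat.succ_mul]; omega), fun r hr => ?_⟩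
    obtain rfl := Option.some.inj hr
    exact ht_mono (ht_mul_le m3 m2) (by rw [Nat.succ_mul, Nat.succ_mul]; omega)
  | some d =>
    refine ⟨by simpa using h1, fun d' hd' => ?_, ht_mono m3 (by rw [Nat.succ_mul]; omega),
      fun r hr => by simp at hr⟩
    rcases List.mem_append.1 hd' with hd' | hd'
    · exact h2 d' hd'
    · obtain rfl := List.mem_singleton.1 hd'
      exact abs_dir_le e

theorem inv_stage [NeZero n] (σ0 : PM n) (adj : Gr n) {c i : ℕ} {s : List (Mat n) × ℚ × Option ℚ}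
    (hi : i < RR ℓ) (h : Inv ℓ c i s) (u : List Bool) : Inv ℓ c (i + 1) (stage ℓ σ0 adj s u) := by
  unfold stage
  split_ifs
  · exact ⟨h.1.trans (Nat.le_succ i), h.2.1, ht_mono h.2.2.1 (by rw [Nat.succ_mul]; omega),
      fun r hr => ht_mono (h.2.2.2 r hr) (by rw [Nat.succ_mul (i + 1)]; omega)⟩
  · exact inv_upd adj hi h _

theorem sz_le_of_inv {c i : ℕ} {s : List (Mat n) × ℚ × Option ℚ} (hi : i ≤ RR ℓ)
    (h : Inv ℓ c i s) : sz s ≤ RR ℓ * (n * (n * 10 + 2) + 2) +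
      2 * (8 * (c + (RR ℓ + 1) * MM n ℓ)) + 37 := by
  obtain ⟨h1, h2, h3, h4⟩ := h
  have e1 : sz s.1 ≤ s.1.length * (n * (n * (9 + 1) + 1 + 1) + 1 + 1) + 1 :=
    sz_list_le fun d hd => sz_fun_le fun u => sz_fun_le fun v =>
      sz_int_le_of_lt (k := 1) (by have := abs_le.1 (h2 d hd u v); omega)
  have e2 : s.1.length * (n * (n * (9 + 1) + 1 + 1) + 1 + 1) ≤ RR ℓ * (n * (n * 10 + 2) + 2) :=
    Nat.mul_le_mul_right _ (h1.trans hi)
  have e3 : (i + 1) * MM n ℓ ≤ (RR ℓ + 1) * MM n ℓ := Nat.mul_le_mul_right _ (by omega)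
  have e4 : i * MM n ℓ ≤ (RR ℓ + 1) * MM n ℓ := Nat.mul_le_mul_right _ (by omega)
  have e5 := PArith.sz_le _ _ h3
  have e6 : sz s.2.2 ≤ 8 * (c + (i + 1) * MM n ℓ) + 16 + 2 := by
    cases e : s.2.2 with
    | none => simp
    | some r => rw [sz_some]; exact Nat.add_le_add_right (PArith.sz_le _ _ (h4 r e)) 2
  rw [sz_prod, sz_prod]
  omega

end Plain

variable {α : Type} [PEnc α] {n ℓ : α → ℕ}

theorem pb_l (h : Par n ℓ) : PB ℓ := h.bl.mono fun _ => Nat.lt_two_pow_self.le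

theorem poly_NN (h : Par n ℓ) : Poly fun a => NN (ℓ a) :=
  (poly_const 2).pow ((poly_const 16).mul h.pl) ((PB.const 16).mul (pb_l h))

theorem pb_NN (h : Par n ℓ) : PB fun a => NN (ℓ a) :=
  (h.bl.pow 16).mono fun a => by rw [NN, mul_comm, pow_mul]

theorem poly_RR (h : Par n ℓ) : Poly fun a => RR (ℓ a) := (poly_const 2).pow h.pl (pb_l h)

theorem pb_RR (h : Par n ℓ) : PB fun a => RR (ℓ a) := h.bl

theorem pb_MM (h : Par n ℓ) : PB fun a => MM (n a) (ℓ a) :=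
  ((pb_NN h).mul (((h.bn.mul ((pb_RR h).add (PB.const 1))).mul
    ((PB.const 2).mul h.rho.pb_sz)).add (PB.const 1))).add (pb_NN h)

theorem poly_cnt (h : Par n ℓ) {x : ∀ a, Pop (n a) (ℓ a)} {u v : ∀ a, Fin (n a)} (hx : DP x)
    (hu : DP u) (hv : DP v) : Poly fun a => cnt (x a) (u a) (v a) :=
  Poly.card_filter_fin (poly_NN h) (pb_NN h) (DP.decide_eq
    (((hx.comp poly_fst).app DP.snd).val'.app (hu.comp poly_fst)) (hv.comp poly_fst))

theorem poly_low (h : Par n ℓ) {x : ∀ a, Pop (n a) (ℓ a)} {u v : ∀ a, Fin (n a)} (hx : DP x)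
    (hu : DP u) (hv : DP v) : Poly fun a => low (x a) (u a) (v a) :=
  Poly.decide_and (Poly.decide_not (hu.decide_eq hv)) (Poly.decide_lt
    (((poly_const 8).mul (h.pn.pow (poly_const 2) (PB.const 2))).mul (poly_cnt h hx hu hv))
    (poly_NN h))

theorem poly_high (h : Par n ℓ) {adj : ∀ a, Gr (n a)} {κ : ∀ a, Mat (n a)}
    {x : ∀ a, Pop (n a) (ℓ a)} {p : ∀ a, Fin (n a) × Fin (n a)} (ha : DP adj) (hκ : DP κ)
    (hx : DP x) (hp : DP p) : Poly fun a => high (adj a) (κ a) (x a) (p a) :=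
  Poly.decide_and (Poly.decide_not (hp.fst.decide_eq hp.snd')) (Poly.decide_and
    (Poly.decide_or
      (((ha.app hp.fst).app hp.snd').decide_eq (DP.of_poly (poly_const false)))
      (Poly.decide_intLt (poly_const 0) ((hκ.app hp.fst).app hp.snd').poly))
    (Poly.decide_lt (poly_NN h)
      (((poly_const 2).mul (h.pn.pow (poly_const 2) (PB.const 2))).mul
        (poly_cnt h hx hp.fst hp.snd'))))

theorem poly_sum_apply {ds : ∀ a, List (Mat (n a))} {u v : ∀ a, Fin (n a)} (hds : DP ds)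
    (hu : DP u) (hv : DP v) : Poly fun a => (ds a).sum (u a) (v a) := by
  have h0 : DP fun p : Σ a, Mat (n a) => p.2 := DP.snd
  have h1 : DP (β := fun _ => List ℤ) fun a => (ds a).map fun d => d (u a) (v a) :=
    hds.map (f := fun a d => d (u a) (v a)) ((h0.app (hu.comp poly_fst)).app (hv.comp poly_fst))
  exact (Poly.listSum h1.poly).congr fun a => (sum_apply _ _ _).symm

theorem dp_sum (h : Par n ℓ) {ds : ∀ a, List (Mat (n a))} (hds : DP ds) :
    DP fun a => (ds a).sum :=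
  DP.fn₂ h.pn h.bn h.pn h.bn (poly_sum_apply
    (n := fun q : Σ p : (Σ a, Fin (n a)), Fin (n p.1) => n q.1.1)
    ((hds.comp poly_fst).comp poly_fst) (DP.snd.comp poly_fst) DP.snd)

theorem dp_zero (h : Par n ℓ) : DP fun a => (0 : Mat (n a)) :=
  DP.fn₂ h.pn h.bn h.pn h.bn (poly_const (0 : ℤ))

theorem poly_back (h : Par n ℓ) {d : ∀ a, Mat (n a)} {σ : ∀ a, PM (n a)} {K : α → ℕ} (hd : DP d)
    (hK : PB K) (hdK : ∀ a u v, (d a u v).natAbs ≤ K a) (hσ : DP σ) :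
    Poly fun a => back (ℓ a) (d a) (σ a) :=
  Poly.ratZPow h.rho (poly_cost h.pn h.bn hd hσ.val').intNeg ((h.bn.mul hK).mono fun a => by
    rw [Int.natAbs_neg]; exact natAbs_cost_le (hdK a) _)

theorem poly_fin (h : Par n ℓ) {adj : ∀ a, Gr (n a)} {d : ∀ a, Mat (n a)} {σ : ∀ a, PM (n a)}
    {K : α → ℕ} (ha : DP adj) (hd : DP d) (hK : PB K) (hdK : ∀ a u v, (d a u v).natAbs ≤ K a)
    (hσ : DP σ) : Poly fun a => fin (ℓ a) (adj a) (d a) (σ a) :=
  Poly.ite (Poly.decide_forall_fin h.pn h.bn (Poly.decide_true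
    (((ha.comp poly_fst).app DP.snd).app ((hσ.val'.comp poly_fst).app DP.snd)).poly))
    (poly_back h hd hK hdK hσ) (poly_const 0)

theorem poly_mean (h : Par n ℓ) {f : ∀ a, PM (n a) → ℚ} {x : ∀ a, Pop (n a) (ℓ a)}
    (hf : Poly fun p : Σ a, PM (n a) => f p.1 p.2) (hx : DP x) :
    Poly fun a => mean (f a) (x a) :=
  (Poly.sum_fin (f := fun a i => f a (x a i)) (poly_NN h) (pb_NN h)
    (hf.comp (DP.sigma poly_fst ((hx.comp poly_fst).app DP.snd)))).ratDiv (poly_NN h).natCastRat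

theorem dp_dir' (h : Par n ℓ) {adj : ∀ a, Gr (n a)} {κ : ∀ a, Mat (n a)}
    {x : ∀ a, Pop (n a) (ℓ a)} (ha : DP adj) (hκ : DP κ) (hx : DP x) :
    DP fun a => dir (adj a) (κ a) (x a) := by
  have h1 : Poly fun q : Σ p : (Σ a, Fin (n a)), Fin (n p.1) => low (x q.1.1) q.1.2 q.2 :=
    poly_low ((h.comp poly_fst).comp poly_fst) ((hx.comp poly_fst).comp poly_fst)
      (DP.snd.comp poly_fst) DP.snd
  refine DP.ite (Poly.decide_exists_fin h.pn h.bn (Poly.decide_exists_fin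
      (n := fun p : Σ a, Fin (n a) => n p.1) (h.pn.comp poly_fst) (h.bn.comp poly_fst)
      h1.decide_true))
    (DP.fn₂ h.pn h.bn h.pn h.bn (Poly.ite h1.decide_true (poly_const 1) (poly_const 0))).some
    (DP.optMap (((DP.finRange h.pn h.bn).product (DP.finRange h.pn h.bn)).find?
      (poly_high (h.comp poly_fst) (ha.comp poly_fst) (hκ.comp poly_fst) (hx.comp poly_fst) DP.snd))
      ?_)
  have h' := h.comp (poly_fst (β := fun a => Fin (n a) × Fin (n a)))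
  refine DP.fn₂ h'.pn h'.bn h'.pn h'.bn (Poly.ite ?_ (poly_const (-1)) (poly_const 0))
  have hu : DP fun q : Σ r : (Σ p : (Σ a, Fin (n a) × Fin (n a)), Fin (n p.1)), Fin (n r.1.1) =>
      q.1.2 := DP.snd.comp poly_fst
  have hv : DP fun q : Σ r : (Σ p : (Σ a, Fin (n a) × Fin (n a)), Fin (n p.1)), Fin (n r.1.1) =>
      q.2 := DP.snd
  have hp : DP fun q : Σ r : (Σ p : (Σ a, Fin (n a) × Fin (n a)), Fin (n p.1)), Fin (n r.1.1) =>
      q.1.1.2 := (DP.snd.comp poly_fst).comp poly_fst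
  exact Poly.decide_or (Poly.decide_and (hu.decide_eq hp.fst) (hv.decide_eq hp.snd'))
    (Poly.decide_and (hu.decide_eq hp.snd') (hv.decide_eq hp.fst))

theorem dp_upd (h : Par n ℓ) {adj : ∀ a, Gr (n a)} {s : ∀ a, List (Mat (n a)) × ℚ × Option ℚ}
    {x : ∀ a, Pop (n a) (ℓ a)} (ha : DP adj) (hs : DP s)
    (hd : ∀ a, ∀ d ∈ (s a).1, ∀ u v, |d u v| ≤ 1) (hx : DP x) :
    DP fun a => upd (ℓ a) (adj a) (s a) (x a) := by
  have h' := h.comp (poly_fst (β := fun a => PM (n a)))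
  have m1 : Poly fun a => mean (back (ℓ a) ((s a).1.getLastD 0)) (x a) :=
    poly_mean h (poly_back h' ((hs.fst.getLastD (dp_zero h)).comp poly_fst) (PB.const 1)
      (fun p => natAbs_getLastD_le (hd p.1)) DP.snd) hx
  have m2 : Poly fun a => mean (fin (ℓ a) (adj a) (s a).1.sum) (x a) :=
    poly_mean h (poly_fin h' (ha.comp poly_fst) ((dp_sum h hs.fst).comp poly_fst)
      (hs.fst.pb_length.comp poly_fst) (fun p => natAbs_sum_le (hd p.1)) DP.snd) hx
  have m3 : Poly fun a => (s a).2.1 / mean (back (ℓ a) ((s a).1.getLastD 0)) (x a) :=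
    hs.snd'.fst.poly.ratDiv m1
  exact (dp_dir' h ha (dp_sum h hs.fst) hx).optionElim
    (hs.fst.pair (hs.snd'.fst.pair (DP.of_poly (m3.ratMul m2)).some))
    (((hs.fst.comp poly_fst).append (DP.snd.cons DP.nil)).pair
      ((DP.of_poly (m3.comp poly_fst)).pair DP.none))

theorem dp_stage [∀ a, NeZero (n a)] (h : Par n ℓ) {σ0 : ∀ a, PM (n a)} {adj : ∀ a, Gr (n a)}
    {s : ∀ a, List (Mat (n a)) × ℚ × Option ℚ} {u : α → List Bool} (hσ : DP σ0) (ha : DP adj)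
    (hs : DP s) (hd : ∀ a, ∀ d ∈ (s a).1, ∀ u v, |d u v| ≤ 1) (hu : Poly u) :
    DP fun a => stage (ℓ a) (σ0 a) (adj a) (s a) (u a) :=
  DP.cond hs.snd'.snd'.isSome hs (dp_upd h ha hs hd (dp_samp h hσ hs.fst hd hu))

end ImplD

variable {α : Type} [PEnc α] {n ℓ : α → ℕ} [∀ a, NeZero (n a)]

set_option linter.unusedSectionVars false in
theorem dp_dir (h : Par n ℓ) {adj : ∀ a, Gr (n a)} {κ : ∀ a, Mat (n a)}
    {x : ∀ a, Pop (n a) (ℓ a)} (ha : DP adj) (hκ : DP κ) (hx : DP x) :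
    DP fun a => dir (adj a) (κ a) (x a) := ImplD.dp_dir' h ha hκ hx

open ImplD in
theorem poly_est (h : Par n ℓ) {σ0 : ∀ a, PM (n a)} {adj : ∀ a, Gr (n a)} {u : α → List Bool}
    (hσ : DP σ0) (ha : DP adj) (hu : Poly u) : Poly fun a => est (ℓ a) (σ0 a) (adj a) (u a) := by
  have hz : Poly fun a => (z0 (n a) : ℚ) := (poly_z0 h.pn h.bn).natCastRat
  have h0 : DP fun p : Σ a, (List (Mat (n a)) × ℚ × Option ℚ) × List Bool => p.2 := DP.snd
  have key := DP.foldT' (β := fun a => List (Mat (n a)) × ℚ × Option ℚ)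
    (step := fun a => stage (ℓ a) (σ0 a) (adj a)) (B := fun a => Bsamp (n a) (ℓ a))
    (t := fun a => RR (ℓ a)) (s := fun a => ([], (z0 (n a) : ℚ), none)) (u := u)
    (fun a => Inv (ℓ a) (2 * sz (z0 (n a) : ℚ)))
    (dp_stage ((h.comp poly_fst).comp poly_val) ((hσ.comp poly_fst).comp poly_val)
      ((ha.comp poly_fst).comp poly_val) (h0.fst.comp poly_val)
      (fun p => p.2.choose_spec.2.2.1) (h0.snd'.poly.comp poly_val))
    h.Bsamp.1 (poly_RR h) (pb_RR h) (DP.nil.pair ((DP.of_poly hz).pair DP.none)) hu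
    (fun a => ⟨le_rfl, fun _ hd => absurd hd List.not_mem_nil, by simpa using ht_le _,
      fun r hr => by simp at hr⟩)
    (fun a i x v hi hx => inv_stage _ _ hi hx v)
    ((((pb_RR h).mul ((h.bn.mul ((h.bn.mul (PB.const 10)).add (PB.const 2))).add
      (PB.const 2))).add ((PB.const 2).mul ((PB.const 8).mul (((PB.const 2).mul hz.pb_sz).add
        (((pb_RR h).add (PB.const 1)).mul (pb_MM h)))))).add (PB.const 37))
    fun a i x hi hx => sz_le_of_inv hi hx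
  exact (key.snd'.snd'.optGetD (DP.of_poly (poly_const 0))).poly

end Crest.Agent.R304
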