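import Crest.Agent.R304.Est
import Crest.Agent.R304.ImplD
import Crest.Agent.R304.ImplB
import Crest.Agent.R304.Bridge
import Crest.Agent.Lib.PolyTime.Bridge
import Crest.Agent.Lib.PolyTime.Enc
import Crest.Prelude.Def_Randomized

/-!
# Row 304: the approximation scheme on bit strings
-/

set_option autoImplicit false

namespace Crest.Agent.R304

open Crest.Enc Crest.FinProb Crest.Randomized Crest.Matchings
open Crest.Agent.Lib.PolyTime Crest.Agent.R309

namespace FinalAux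

open Finset

theorem even_of_hasPM {n : ℕ} {adj : Gr n} (h : hasPM adj = true) : Even n :=
  (of_decide_eq_true h).1

/-- The number of perfect matchings of a Boolean table. -/
def cntPM {n : ℕ} (adj : Gr n) : ℕ :=
  (univ.filter fun σ : PM n => ∀ v, adj v (σ.1 v) = true).card

/-- The median of independent runs of the estimator. -/
def med {n : ℕ} [NeZero n] (he : Even n) (adj : Gr n) (ℓ k : ℕ) (u : List Bool) : ℚ :=
  medQ (draws (est ℓ ⟨sig0 he, isPM_sig0 he⟩ adj) (Btot n ℓ) k u)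

/-- The algorithm on parsed data. -/
def core (n : ℕ) (adj : Gr n) (ℓ k : ℕ) (u : List Bool) : ℚ :=
  if h0 : n = 0 then 1 else
    if h : hasPM adj = true then @med n ⟨h0⟩ (even_of_hasPM h) adj ℓ k u else 0

theorem med_nonneg {n : ℕ} [NeZero n] (he : Even n) (adj : Gr n) (ℓ k : ℕ) (u : List Bool) :
    0 ≤ med he adj ℓ k u := by
  unfold med
  rcases medQ_mem_or (draws (est ℓ ⟨sig0 he, isPM_sig0 he⟩ adj) (Btot n ℓ) k u) with h | h
  · obtain ⟨v, -, hv⟩ := List.mem_map.1 h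
    rw [← hv]
    exact est_nonneg _ _ _
  · exact h.ge

theorem core_nonneg (n : ℕ) (adj : Gr n) (ℓ k : ℕ) (u : List Bool) : 0 ≤ core n adj ℓ k u := by
  unfold core
  split_ifs with h0 h
  · exact zero_le_one
  · exact @med_nonneg n ⟨h0⟩ _ _ _ _ _
  · exact le_rfl

theorem cntPM_zero (adj : Gr 0) : cntPM adj = 1 := by
  unfold cntPM
  rw [filter_true_of_mem fun σ _ v => v.elim0, card_univ, Fintype.card_eq_one_iff]
  exact ⟨⟨fun v => v, fun v => v.elim0, fun v => v.elim0⟩,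
    fun σ => Subtype.ext (funext fun v => v.elim0)⟩

theorem cntPM_ne_zero {n : ℕ} {adj : Gr n} :
    cntPM adj ≠ 0 ↔ ∃ σ : PM n, ∀ v, adj v (σ.1 v) = true := by
  unfold cntPM
  rw [card_ne_zero]
  exact ⟨fun ⟨σ, hσ⟩ => ⟨σ, (mem_filter.1 hσ).2⟩, fun ⟨σ, hσ⟩ => ⟨σ, mem_filter.2 ⟨mem_univ _, hσ⟩⟩⟩

/-- In the degenerate cases the output is exact. -/
theorem core_exact {n : ℕ} {adj : Gr n} (ha : Symm adj) (h : n = 0 ∨ cntPM adj = 0) (ℓ k : ℕ)
    (u : List Bool) : core n adj ℓ k u = cntPM adj := by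
  unfold core
  split_ifs with h0 h1
  · subst h0
    rw [cntPM_zero, Nat.cast_one]
  · exact absurd (h.resolve_left h0) (cntPM_ne_zero.2 ((hasPM_iff ha).1 h1))
  · rw [h.resolve_left h0, Nat.cast_zero]

theorem med_good {n : ℕ} [NeZero n] (he : Even n) {adj : Gr n} (ha : Symm adj)
    (hG : cntPM adj ≠ 0) {ℓ k N : ℕ} (hB : Big n ℓ) {ε δ : ℚ} (hε : (1 : ℝ) ≤ ε * 2 ^ ℓ)
    (hδ : (1 / 2 : ℝ) ^ k ≤ δ) (hN : k * Btot n ℓ ≤ N) :
    1 - (δ : ℝ) ≤ Pr N fun u =>
      (1 - ε) * cntPM adj ≤ med he adj ℓ k u ∧ med he adj ℓ k u ≤ (1 + ε) * cntPM adj := by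
  have h := est_good hB ⟨sig0 he, isPM_sig0 he⟩ ha (cntPM_ne_zero.1 hG)
  have e : numPM adj = cntPM adj := rfl
  rw [e] at h
  have hb := Pr_half_bad (est ℓ ⟨sig0 he, isPM_sig0 he⟩ adj)
    (fun x => !(decide ((1 - ε) * cntPM adj ≤ x) && decide (x ≤ (1 + ε) * cntPM adj))) hN (by
      refine (Pr_mono fun u _ hu hc => ?_).trans h
      have a2 : (cntPM adj : ℝ) / 2 ^ ℓ ≤ ε * cntPM adj := by
        rw [div_le_iff₀ (by positivity), mul_right_comm]
        exact le_mul_of_one_le_left (Nat.cast_nonneg _) hε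
      obtain ⟨a5, a6⟩ := abs_le.1 (hc.trans a2)
      have a7 : (1 - ε) * cntPM adj ≤ est ℓ ⟨sig0 he, isPM_sig0 he⟩ adj u := by
        rw [← Rat.cast_le (K := ℝ)]; push_cast; linarith
      have a8 : est ℓ ⟨sig0 he, isPM_sig0 he⟩ adj u ≤ (1 + ε) * cntPM adj := by
        rw [← Rat.cast_le (K := ℝ)]; push_cast; linarith
      simp [a7, a8] at hu)
  refine le_trans ((sub_le_sub_left (hb.trans hδ) 1).trans_eq (Pr_not _ _).symm)
    (Pr_mono fun u _ hu => medQ_between ?_)
  rw [length_draws]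
  exact not_le.1 hu

theorem core_good {n : ℕ} {adj : Gr n} (ha : Symm adj) {ℓ k N : ℕ} (hB : Big n ℓ) {ε δ : ℚ}
    (hε0 : 0 < ε) (hδ0 : 0 < δ) (hε : (1 : ℝ) ≤ ε * 2 ^ ℓ)
    (hδ : (1 / 2 : ℝ) ^ k ≤ δ) (hN : k * Btot n ℓ ≤ N) :
    1 - (δ : ℝ) ≤ Pr N fun u =>
      (1 - ε) * cntPM adj ≤ core n adj ℓ k u ∧ core n adj ℓ k u ≤ (1 + ε) * cntPM adj := by
  by_cases h : n = 0 ∨ cntPM adj = 0
  · have h1 : Pr N (fun u => (1 - ε) * cntPM adj ≤ core n adj ℓ k u ∧
        core n adj ℓ k u ≤ (1 + ε) * cntPM adj) = 1 := by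
      have h2 : ∀ u, (1 - ε) * cntPM adj ≤ core n adj ℓ k u ∧
          core n adj ℓ k u ≤ (1 + ε) * cntPM adj := fun u => by
        rw [core_exact ha h]
        have h3 : (0 : ℚ) ≤ ε * cntPM adj := mul_nonneg hε0.le (Nat.cast_nonneg _)
        constructor <;> linarith
      unfold Pr
      simp only [ind_true (h2 _), Ex_const]
    have h2 : (0 : ℝ) < δ := by exact_mod_cast hδ0
    linarith
  · obtain ⟨h0, h1⟩ := not_or.1 h
    have h2 : hasPM adj = true := (hasPM_iff ha).2 (cntPM_ne_zero.1 h1)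
    have : NeZero n := ⟨h0⟩
    have h3 : ∀ u, core n adj ℓ k u = med (even_of_hasPM h2) adj ℓ k u := fun u => by
      unfold core
      rw [dif_neg h0, dif_pos h2]
    simp only [h3]
    exact med_good _ ha h1 hB hε hδ hN

section poly

variable {α : Type} [PEnc α] {n ℓ k : α → ℕ}

theorem poly_med [∀ a, NeZero (n a)] (h : Par n ℓ) (he : ∀ a, Even (n a)) (hk : Poly k)
    (hkb : PB k) {adj : ∀ a, Gr (n a)} (ha : DP adj) {u : α → List Bool} (hu : Poly u) :
    Poly fun a => med (he a) (adj a) (ℓ a) (k a) (u a) := by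
  unfold med
  refine poly_medQ (poly_draws (g := fun a => est (ℓ a) ⟨sig0 (he a), isPM_sig0 (he a)⟩ (adj a))
    ?_ h.Btot.1 hk hkb hu)
  have hf : Poly fun p : α × List Bool => p.1 := Poly.id'.fst
  exact poly_est (α := α × List Bool) (n := fun p => n p.1) (ℓ := fun p => ℓ p.1) (h.comp hf)
    (σ0 := fun p => ⟨sig0 (he p.1), isPM_sig0 (he p.1)⟩) (adj := fun p => adj p.1)
    (u := fun p => p.2)
    (DP.mk' (p := fun _ σ => IsPM σ) ((dp_sig0 h.pn h.bn he).comp hf) _) (ha.comp hf) Poly.id'.snd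

theorem poly_core (h : Par n ℓ) (hk : Poly k) (hkb : PB k) {adj : ∀ a, Gr (n a)} (ha : DP adj)
    {u : α → List Bool} (hu : Poly u) :
    Poly fun a => core (n a) (adj a) (ℓ a) (k a) (u a) := by
  unfold core
  refine Poly.dite (p := fun a => n a = 0) (Poly.decide_eq h.pn (poly_const 0)) (poly_const _) ?_
  have hv : Poly fun a : {a // ¬ n a = 0} => a.1 := poly_val
  refine Poly.dite (p := fun a : {a // ¬ n a = 0} => hasPM (adj a.1) = true)
    (((poly_hasPM h.pn h.bn ha).comp hv).congr fun a => by simp) ?_ (poly_const _)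
  have hw : Poly fun b : {a : {a // ¬ n a = 0} // hasPM (adj a.1) = true} => b.1.1 :=
    hv.comp poly_val
  exact @poly_med _ _ (fun b : {a : {a // ¬ n a = 0} // hasPM (adj a.1) = true} => n b.1.1)
    (fun b => ℓ b.1.1) (fun b => k b.1.1) (fun b => ⟨b.1.2⟩) (h.comp hw)
    (fun b => even_of_hasPM b.2) (hk.comp hw) (hkb.comp hw) (fun b => adj b.1.1) (ha.comp hw)
    (fun b => u b.1.1) (hu.comp hw)

end poly

/-! ### Parsing -/

/-- The rows of the adjacency table. -/
def rows (x : List Bool) : List (List Bool) := (pSquare pBool x).1.2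

/-- The number of vertices. -/
def nn (x : List Bool) : ℕ := (rows x).length

/-- The failure probability and the padding. -/
def tl (x : List Bool) : ℚ × List Bool := pRat (pRat (pSquare pBool x).2).2

/-- The accuracy parameter. -/
def ll (x : List Bool) : ℕ := Nat.size (2 ^ 36 * nn x ^ 35 + (tl x).2.length)

/-- The number of runs. -/
def kk (x : List Bool) : ℕ := Nat.size (tl x).1.den

/-- The graph given by a list of rows. -/
def adjOf (r : List (List Bool)) (n : ℕ) : Gr n := fun u v => (r.getD u []).getD v false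

/-- The algorithm with the graph given by a list of rows. -/
def coreR (r : List (List Bool)) (n ℓ k : ℕ) (u : List Bool) : ℚ := core n (adjOf r n) ℓ k u

theorem poly_rows : Poly rows := by unfold rows; fun_prop

theorem poly_tl : Poly tl := by unfold tl; fun_prop

theorem poly_nn : Poly nn := poly_rows.length

theorem pb_nn : PB nn := PB.length poly_rows

theorem two_pow_size_le (m : ℕ) : 2 ^ m.size ≤ 2 * m + 1 := by
  rcases Nat.eq_zero_or_pos m with rfl | hm
  · simp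
  · have h1 : 0 < m.size := Nat.size_pos.2 hm
    obtain ⟨j, hj⟩ : ∃ j, m.size = j + 1 := ⟨m.size - 1, by omega⟩
    have h2 : 2 ^ j ≤ m := Nat.lt_size.1 (by omega)
    rw [hj, pow_succ]
    omega

theorem par_nn : Par nn ll := by
  have h1 : Poly fun x => 2 ^ 36 * nn x ^ 35 + (tl x).2.length :=
    ((poly_const _).mul (poly_nn.pow (poly_const 35) (PB.const 35))).add poly_tl.snd.length
  have h2 : PB fun x => 2 ^ 36 * nn x ^ 35 + (tl x).2.length :=
    ((PB.const _).mul (pb_nn.pow 35)).add (PB.length poly_tl.snd)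
  exact ⟨poly_nn, pb_nn, h1.size,
    (((PB.const 2).mul h2).add (PB.const 1)).mono fun x => two_pow_size_le _⟩

theorem poly_kk : Poly kk := poly_tl.fst.den.size

theorem pb_kk : PB kk := PB.size poly_tl.fst.den

theorem dp_adj : DP fun x => adjOf (rows x) (nn x) := by
  refine DP.fn₂ poly_nn pb_nn poly_nn pb_nn ?_
  have h1 : Poly fun q : Σ p : (Σ a, Fin (nn a)), Fin (nn p.1) => q.1 := poly_fst
  have h2 : Poly fun q : Σ p : (Σ a, Fin (nn a)), Fin (nn p.1) => (q.2 : ℕ) :=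
    (DP.snd (β := fun p : (Σ a, Fin (nn a)) => Fin (nn p.1))).val
  have h3 : Poly fun p : (Σ a, Fin (nn a)) => (p.2 : ℕ) :=
    (DP.snd (β := fun a => Fin (nn a))).val
  exact ((poly_rows.comp (poly_fst.comp h1)).listGetD (h3.comp h1) (poly_const _)).listGetD h2
    (poly_const _)

/-- The algorithm. -/
def alg (p : List Bool × List Bool) : List Bool :=
  ratCode (coreR (rows p.1) (nn p.1) (ll p.1) (kk p.1) p.2)

theorem poly_alg : Poly alg := by
  have hf : Poly fun p : List Bool × List Bool => p.1 := Poly.id'.fst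
  exact (poly_core (par_nn.comp hf) (poly_kk.comp hf) (pb_kk.comp hf) (dp_adj.comp hf)
    Poly.id'.snd).ratCode

theorem exists_tape : ∃ r : Polynomial ℕ, ∀ x, kk x * Btot (nn x) (ll x) ≤ r.eval x.length := by
  obtain ⟨p, hp⟩ := pb_kk.mul par_nn.Btot.2
  refine ⟨p.comp (Polynomial.C 4 * Polynomial.X + 1), fun x => (hp x).trans ?_⟩
  simpa using eval_mono p (sz_listBool_le x)

theorem half_pow_size_le {δ : ℚ} (h : 0 < δ) : (1 / 2 : ℝ) ^ δ.den.size ≤ δ := by
  have h1 : (δ.den : ℝ) ≤ 2 ^ δ.den.size := by exact_mod_cast (Nat.lt_size_self δ.den).le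
  have h2 : (1 : ℝ) ≤ δ.num := by exact_mod_cast Rat.num_pos.2 h
  have h3 : (0 : ℝ) < δ.den := by exact_mod_cast δ.den_pos
  rw [Rat.cast_def, one_div, inv_pow, inv_eq_one_div]
  exact div_le_div₀ (by linarith) h2 h3 h1

theorem one_le_mul_pow {ε : ℚ} (h : 0 < ε) {ℓ : ℕ} (hℓ : ⌈ε⁻¹⌉₊ ≤ 2 ^ ℓ) :
    (1 : ℝ) ≤ ε * 2 ^ ℓ := by
  have h1 : (1 : ℚ) ≤ ε * 2 ^ ℓ := by
    rw [← mul_inv_cancel₀ h.ne']
    exact mul_le_mul_of_nonneg_left ((Nat.le_ceil _).trans (by exact_mod_cast hℓ)) h.le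
  exact_mod_cast h1

theorem ratCode_inj {p q : ℚ} (h : ratCode p = ratCode q) : p = q := by
  have := congrArg (fun w => (pRat w).1) h
  simpa using this

end FinalAux

open FinalAux in
theorem fpras :
    ∃ (A : List Bool × List Bool → List Bool) (r : Polynomial ℕ), RandPolyTime A ∧
      ∀ (n : ℕ) (G : SimpleGraph (Fin n)) [DecidableRel G.Adj] (ε δ : ℚ),
        0 < ε → ε < 1 → 0 < δ → δ < 1 / 2 →
        (∀ ω : Fin (r.eval (graphCode n G ++ ratCode ε ++ ratCode δ ++ List.replicate ⌈ε⁻¹⌉₊ true).length) → Bool,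
          ∃ z : ℚ, 0 ≤ z ∧ A (graphCode n G ++ ratCode ε ++ ratCode δ ++ List.replicate ⌈ε⁻¹⌉₊ true, List.ofFn ω) = ratCode z) ∧
        (numPerfectMatchings G = 0 →
          ∀ ω : Fin (r.eval (graphCode n G ++ ratCode ε ++ ratCode δ ++
              List.replicate ⌈ε⁻¹⌉₊ true).length) → Bool,
            A (graphCode n G ++ ratCode ε ++ ratCode δ ++ List.replicate ⌈ε⁻¹⌉₊ true,
              List.ofFn ω) = ratCode 0) ∧
        1 - (δ : ℝ) ≤ uniformProb {ω : Fin (r.eval (graphCode n G ++ ratCode ε ++ ratCode δ ++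
              List.replicate ⌈ε⁻¹⌉₊ true).length) → Bool |
            ∃ z : ℚ, A (graphCode n G ++ ratCode ε ++ ratCode δ ++ List.replicate ⌈ε⁻¹⌉₊ true,
              List.ofFn ω) = ratCode z ∧
              (1 - ε) * numPerfectMatchings G ≤ z ∧ z ≤ (1 + ε) * numPerfectMatchings G} := by
  obtain ⟨r, hr⟩ := exists_tape
  refine ⟨alg, r, poly_alg.randPolyTime, fun n G _ ε δ hε0 _ hδ0 _ => ?_⟩
  generalize hx : graphCode n G ++ ratCode ε ++ ratCode δ ++ List.replicate ⌈ε⁻¹⌉₊ true = x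
  let adj : Gr n := fun u v => decide (G.Adj u v)
  have ha : Symm adj := fun u v => by simp only [adj, G.adj_comm]
  have hc : numPerfectMatchings G = cntPM adj := by
    rw [num_eq]
    simp only [cntPM, adj, decide_eq_true_eq]
  have h1 : rows x = List.ofFn fun i => List.ofFn fun j => decide (G.Adj i j) := by
    rw [← hx]
    simp only [rows, List.append_assoc, pSquare_graphCode]
  have h2 : nn x = n := by rw [nn, h1, List.length_ofFn]
  have h3 : tl x = (δ, List.replicate ⌈ε⁻¹⌉₊ true) := by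
    rw [← hx]
    simp only [tl, List.append_assoc, pSquare_graphCode, pRat_code]
  have h4 : ll x = Nat.size (2 ^ 36 * n ^ 35 + ⌈ε⁻¹⌉₊) := by
    rw [ll, h2, h3, List.length_replicate]
  have h5 : kk x = δ.den.size := by rw [kk, h3]
  have h6 : adjOf (rows x) n = adj := by
    funext u v
    simp [adjOf, h1, adj]
  have h7 : ∀ u, alg (x, u) = ratCode (core n adj (ll x) (kk x) u) := fun u => by
    change ratCode (coreR (rows x) (nn x) (ll x) (kk x) u) = _
    rw [h2, coreR, h6]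
  have h8 := Nat.lt_size_self (2 ^ 36 * n ^ 35 + ⌈ε⁻¹⌉₊)
  rw [← h4] at h8
  have h9 := hr x
  rw [h2] at h9
  simp only [h7, hc]
  refine ⟨fun ω => ⟨_, core_nonneg _ _ _ _ _, rfl⟩, fun h0 ω => ?_, ?_⟩
  · rw [core_exact ha (Or.inr h0), h0, Nat.cast_zero]
  · rw [uniformProb_eq_Pr _ fun u => ∃ z : ℚ, ratCode (core n adj (ll x) (kk x) u) = ratCode z ∧
      (1 - ε) * cntPM adj ≤ z ∧ z ≤ (1 + ε) * cntPM adj]
    refine (core_good ha (ℓ := ll x) (k := kk x) (by unfold Big; omega) hε0 hδ0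
      (one_le_mul_pow hε0 (by omega)) (by rw [h5]; exact half_pow_size_le hδ0) h9).trans
      (Pr_mono fun u _ hu => ⟨_, rfl, hu⟩)

end Crest.Agent.R304
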