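import Crest.Agent.R304.Wt

/-!
# Row 304: forcing a run of edges into a perfect matching
-/

set_option autoImplicit false

namespace Crest.Agent.R304

open Finset

variable {n : ℕ}

/-- Force the edges `z a z (a+1)`, `z (a+2) z (a+3)`, … (`k` edges). -/
def Frc (σ : PM n) (z : ℕ → Fin n) (a : ℕ) : ℕ → PM n
  | 0 => σ
  | k + 1 => force (Frc σ z a k) (z (a + 2 * k)) (z (a + 2 * k + 1))

/-- The least `s ≥ t` whose parity differs from that of `c`. -/
def up (c t : ℕ) : ℕ := if t % 2 = c % 2 then t + 1 else t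

/-- Force the edges `z t z (t+1)` with `i ≤ t < j` and `t` not of the parity of `c`. -/
def FF (c : ℕ) (σ : PM n) (z : ℕ → Fin n) (i j : ℕ) : PM n :=
  Frc σ z (up c i) ((up c j - up c i) / 2)

/-- `σ` contains the edges `z t z (t+1)` with `i ≤ t ≤ j` and `t` of the parity of `c`, and
`z i, …, z (j+1)` are distinct. -/
def Own (c : ℕ) (σ : PM n) (z : ℕ → Fin n) (i j : ℕ) : Prop :=
  Set.InjOn z (Set.Icc i (j + 1)) ∧ ∀ t ∈ Set.Icc i j, t % 2 = c % 2 → σ.1 (z t) = z (t + 1)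

theorem Frc_add (σ : PM n) (z : ℕ → Fin n) (a k l : ℕ) :
    Frc σ z a (k + l) = Frc (Frc σ z a k) z (a + 2 * k) l := by
  induction l with
  | zero => rfl
  | succ l ih =>
    rw [← Nat.add_assoc, Frc, Frc, ih, show a + 2 * (k + l) = a + 2 * k + 2 * l by ring]

theorem FF_self (c : ℕ) (σ : PM n) (z : ℕ → Fin n) (i : ℕ) : FF c σ z i i = σ := by
  simp [FF, Frc]

theorem up_add_two (c t : ℕ) : up (c + 2) t = up c t := by
  simp [up]

theorem FF_add_two (c : ℕ) (σ : PM n) (z : ℕ → Fin n) (i j : ℕ) :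
    FF (c + 2) σ z i j = FF c σ z i j := by
  simp [FF, up_add_two]

theorem up_spec (c t : ℕ) : up c t % 2 ≠ c % 2 ∧ t ≤ up c t ∧ up c t ≤ t + 1 := by
  unfold up
  split_ifs <;> omega

/-- Splitting at an edge of `σ`. -/
theorem FF_split {c i s j : ℕ} (σ : PM n) (z : ℕ → Fin n) (h1 : i ≤ s) (h2 : s < j)
    (hs : s % 2 = c % 2) : FF c σ z i j = FF c (FF c σ z i s) z (s + 1) j := by
  have a1 := up_spec c i
  have a2 := up_spec c j
  have a3 := up_spec c s
  have a4 := up_spec c (s + 1)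
  unfold FF
  rw [show (up c j - up c i) / 2 = (up c s - up c i) / 2 + (up c j - up c (s + 1)) / 2 by omega,
    Frc_add, show up c i + 2 * ((up c s - up c i) / 2) = up c (s + 1) by omega]

theorem Own.mono {c i j i' j' : ℕ} {σ : PM n} {z : ℕ → Fin n} (h : Own c σ z i j) (h1 : i ≤ i')
    (h2 : j' ≤ j) : Own c σ z i' j' :=
  ⟨h.1.mono (Set.Icc_subset_Icc h1 (by omega)),
    fun t ht => h.2 t (Set.Icc_subset_Icc h1 h2 ht)⟩

section spec
variable {c i j : ℕ} {σ : PM n} {z : ℕ → Fin n}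

theorem Own.ne (h : Own c σ z i j) {s t : ℕ} (h1 : i ≤ s) (h2 : s ≤ j + 1) (h3 : i ≤ t)
    (h4 : t ≤ j + 1) (hst : s ≠ t) : z s ≠ z t :=
  fun e => hst (h.1 ⟨h1, h2⟩ ⟨h3, h4⟩ e)

/-- The vertex left over at the beginning is not on the run. -/
theorem Own.partner_ne (h : Own c σ z i j) (hij : i ≤ j) {t : ℕ} (h1 : up c i ≤ t)
    (h2 : t ≤ up c j) : σ.1 (z (up c i)) ≠ z t := by
  have a1 := up_spec c i
  have a2 := up_spec c j
  intro e
  rcases h1.eq_or_lt with rfl | h1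
  · exact σ.2.2 _ e
  have e' := σ.2.1.eq_iff.1 e
  by_cases ht : t % 2 = c % 2
  · rw [h.2 t ⟨by omega, by omega⟩ ht] at e'
    exact h.ne (by omega) (by omega) (by omega) (by omega) (by omega) e'
  · obtain ⟨s, rfl⟩ : ∃ s, t = s + 1 := ⟨t - 1, by omega⟩
    rw [σ.2.1.eq_iff.1 (h.2 s ⟨by omega, by omega⟩ (by omega))] at e'
    exact h.ne (by omega) (by omega) (by omega) (by omega) (by omega) e'

theorem Own.frc (h : Own c σ z i j) (hij : i ≤ j) (k : ℕ) (hk : up c i + 2 * k ≤ up c j) :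
    (∀ l < k, (Frc σ z (up c i) k).1 (z (up c i + 2 * l)) = z (up c i + 2 * l + 1)) ∧
    (Frc σ z (up c i) k).1 (z (up c i + 2 * k)) = σ.1 (z (up c i)) ∧
    (∀ v, (∀ t, up c i ≤ t → t ≤ up c i + 2 * k → v ≠ z t) → v ≠ σ.1 (z (up c i)) →
      (Frc σ z (up c i) k).1 v = σ.1 v) ∧
    ∀ {W : Fin n → Fin n → ℝ} (_ : PosW W) {χ : ℕ → ℝ}
      (_ : ∀ t, t % 2 = c % 2 → χ (t + 1) * W (z t) (z (t + 1)) = χ t)
      (_ : ∀ t, t % 2 ≠ c % 2 → χ (t + 1) = χ t * W (z t) (z (t + 1))),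
      wt W (Frc σ z (up c i) k).1 * (W (σ.1 (z (up c i))) (z (up c i)) * χ (up c i)) =
        wt W σ.1 * (W (σ.1 (z (up c i))) (z (up c i + 2 * k)) * χ (up c i + 2 * k)) := by
  have a1 := up_spec c i
  have a2 := up_spec c j
  have hp : ∀ t, up c i ≤ t → t ≤ up c j → σ.1 (z (up c i)) ≠ z t := fun t => h.partner_ne hij
  generalize up c i = a at *
  generalize up c j = b at *
  induction k with
  | zero => exact ⟨fun l hl => absurd hl (by omega), rfl, fun _ _ _ => rfl, fun _ _ _ _ => rfl⟩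
  | succ k ih =>
    obtain ⟨i1, i2, i3, i4⟩ := ih (by omega)
    have hne : ∀ s t, a ≤ s → s ≤ b → a ≤ t → t ≤ b → s ≠ t → z s ≠ z t := fun s t _ _ _ _ e =>
      h.ne (by omega) (by omega) (by omega) (by omega) e
    have e1 : (Frc σ z a k).1 (z (a + 2 * k + 1)) = z (a + 2 * k + 2) := by
      rw [i3 _ (fun t _ _ => hne _ _ (by omega) (by omega) (by omega) (by omega) (by omega))
        (hp _ (by omega) (by omega)).symm]
      exact h.2 _ ⟨by omega, by omega⟩ (by omega)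
    have huv : z (a + 2 * k) ≠ z (a + 2 * k + 1) :=
      hne _ _ (by omega) (by omega) (by omega) (by omega) (by omega)
    have hu' : (Frc σ z a k).1 (z (a + 2 * k)) ≠ z (a + 2 * k + 1) := by
      rw [i2]; exact hp _ (by omega) (by omega)
    have e2 := force_apply_other (Frc σ z a k) huv hu'
    rw [i2, e1] at e2
    have hrest : ∀ v, v ≠ z (a + 2 * k) → v ≠ z (a + 2 * k + 1) → v ≠ σ.1 (z a) →
        v ≠ z (a + 2 * k + 2) → (Frc σ z a (k + 1)).1 v = (Frc σ z a k).1 v :=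
      fun v g1 g2 g3 g4 => force_apply_rest _ g1 g2 (by rwa [i2]) (by rwa [e1])
    refine ⟨fun l hl => ?_, ?_, fun v g1 g2 => ?_, fun {W} hW {χ} hχ1 hχ2 => ?_⟩
    · rcases (Nat.lt_succ_iff.1 hl).eq_or_lt with rfl | hl
      · exact force_apply _ huv
      · rw [hrest _ (hne _ _ (by omega) (by omega) (by omega) (by omega) (by omega))
          (hne _ _ (by omega) (by omega) (by omega) (by omega) (by omega))
          (hp _ (by omega) (by omega)).symm
          (hne _ _ (by omega) (by omega) (by omega) (by omega) (by omega))]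
        exact i1 l hl
    · exact (Frc σ z a (k + 1)).2.1.eq_iff.1 e2
    · rw [hrest v (g1 _ (by omega) (by omega)) (g1 _ (by omega) (by omega)) g2
        (g1 _ (by omega) (by omega))]
      exact i3 v (fun t _ _ => g1 t (by omega) (by omega)) g2
    · have w1 := wt_force hW.1 (Frc σ z a k) huv hu'
      rw [i2, e1] at w1
      have w2 := i4 hW hχ1 hχ2
      have c1 := hχ1 (a + 2 * k + 1) (by omega)
      have c2 := hχ2 (a + 2 * k) (by omega)
      have p1 := hW.2 (z (a + 2 * k)) (σ.1 (z a))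
      have p2 := hW.2 (z (a + 2 * k + 1)) (z (a + 2 * k + 2))
      rw [hW.1 (σ.1 (z a)) (z (a + 2 * k))] at w2
      refine mul_right_cancel₀ (mul_pos p1 p2).ne' ?_
      change wt W (force _ _ _).1 * _ * _ =
        _ * (_ * χ (a + 2 * k + 1 + 1)) * _
      rw [show a + 2 * (k + 1) = a + 2 * k + 2 by ring]
      linear_combination (W (σ.1 (z a)) (z a) * χ a) * w1 +
        (W (z (a + 2 * k)) (z (a + 2 * k + 1)) * W (σ.1 (z a)) (z (a + 2 * k + 2))) * w2 -
        (wt W σ.1 * W (σ.1 (z a)) (z (a + 2 * k + 2)) * W (z (a + 2 * k)) (σ.1 (z a))) *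
          (c1.trans c2)

theorem up_add (c : ℕ) (hij : i ≤ j) : up c i + 2 * ((up c j - up c i) / 2) = up c j := by
  have a1 := up_spec c i
  have a2 := up_spec c j
  omega

theorem Own.FF_edge (h : Own c σ z i j) {t : ℕ} (h1 : i ≤ t) (h2 : t < j) (ht : t % 2 ≠ c % 2) :
    (FF c σ z i j).1 (z t) = z (t + 1) := by
  have a1 := up_spec c i
  have a2 := up_spec c j
  have := (h.frc (by omega) _ (up_add c (by omega)).le).1 ((t - up c i) / 2) (by omega)
  rwa [show up c i + 2 * ((t - up c i) / 2) = t by omega] at this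

theorem Own.FF_patch (h : Own c σ z i j) (hij : i ≤ j) :
    (FF c σ z i j).1 (z (up c j)) = σ.1 (z (up c i)) := by
  have := (h.frc hij _ (up_add c hij).le).2.1
  rwa [up_add c hij] at this

theorem Own.FF_rest (h : Own c σ z i j) (hij : i ≤ j) {v : Fin n}
    (h1 : ∀ t, up c i ≤ t → t ≤ up c j → v ≠ z t) (h2 : v ≠ σ.1 (z (up c i))) :
    (FF c σ z i j).1 v = σ.1 v :=
  (h.frc hij _ (up_add c hij).le).2.2.1 v (by rwa [up_add c hij]) h2

/-- The weight after forcing, for a potential `χ` along the run. -/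
theorem Own.wt_FF (h : Own c σ z i j) (hij : i ≤ j) {W : Fin n → Fin n → ℝ} (hW : PosW W)
    {χ : ℕ → ℝ} (hχ1 : ∀ t, t % 2 = c % 2 → χ (t + 1) * W (z t) (z (t + 1)) = χ t)
    (hχ2 : ∀ t, t % 2 ≠ c % 2 → χ (t + 1) = χ t * W (z t) (z (t + 1))) :
    wt W (FF c σ z i j).1 * (W (σ.1 (z (up c i))) (z (up c i)) * χ (up c i)) =
      wt W σ.1 * (W (σ.1 (z (up c i))) (z (up c j)) * χ (up c j)) := by
  have := (h.frc hij _ (up_add c hij).le).2.2.2 hW hχ1 hχ2
  rwa [up_add c hij] at this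

end spec

end Crest.Agent.R304
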