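import Crest.Agent.R304.Wt

/-!
# Row 304: the four-point inequality and the bottleneck property of rescaled weights
-/

set_option autoImplicit false

namespace Crest.Agent.R304

open Finset

variable {n : ℕ} {W : Fin n → Fin n → ℝ}

theorem Four_fixs_mix (K : Fin n → Bool) (s t : Fn n) :
    fixs (mix K s t) =
      ((fixs s).filter fun x => ¬ K x = true) ∪ (fixs t).filter fun x => K x = true := by
  ext x
  by_cases h : K x = true <;> simp [mem_fixs, mix, h]

/-- Pairs of matchings with prescribed exposed sets. -/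
def Four_P (S T : Finset (Fin n)) : Finset (Fn n × Fn n) :=
  (univ.filter fun σ => IsInv σ ∧ fixs σ = S) ×ˢ (univ.filter fun σ => IsInv σ ∧ fixs σ = T)

theorem Four_mem_P {S T : Finset (Fin n)} {p : Fn n × Fn n} :
    p ∈ Four_P S T ↔ (IsInv p.1 ∧ fixs p.1 = S) ∧ IsInv p.2 ∧ fixs p.2 = T := by
  simp [Four_P]

theorem Four_mul (W : Fin n → Fin n → ℝ) (S T : Finset (Fin n)) :
    Zs W S * Zs W T = ∑ p ∈ Four_P S T, wt W p.1 * wt W p.2 := by
  rw [Zs, Zs, sum_mul_sum, Four_P, sum_product]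

theorem Four_union_le {α : Type} [DecidableEq α] {f : α → ℝ} (hf : ∀ a, 0 ≤ f a)
    (A B : Finset α) : ∑ a ∈ A ∪ B, f a ≤ ∑ a ∈ A, f a + ∑ a ∈ B, f a := by
  rw [← sum_union_inter]
  exact le_add_of_nonneg_right (sum_nonneg fun a _ => hf a)

theorem four_point (hW : PosW W) {o u v w : Fin n} (hou : o ≠ u) (hov : o ≠ v) (how : o ≠ w)
    (huv : u ≠ v) (huw : u ≠ w) (hvw : v ≠ w) :
    Zs W {u, v} * Zs W {o, w} ≤
      Zs W {u, w} * Zs W {o, v} + Zs W {o, u} * Zs W {v, w} + Zs W {o, u, v, w} * Zs W ∅ := by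
  set Φ : Fn n × Fn n → Fn n × Fn n := fun p =>
    (mix (orb p.1 p.2 u) p.1 p.2, mix (orb p.1 p.2 u) p.2 p.1) with hΦ
  have hinv : Function.Involutive Φ := fun p => by
    simp only [hΦ, orb_mix, mix_mix]
  have h0 : ∀ p : Fn n × Fn n, 0 ≤ wt W p.1 * wt W p.2 := fun p =>
    (mul_pos (wt_pos hW.2 _) (wt_pos hW.2 _)).le
  have hsub : (Four_P {u, v} {o, w}).image Φ ⊆
      (Four_P {o, v} {u, w} ∪ Four_P {v, w} {o, u}) ∪ Four_P ∅ {o, u, v, w} := by
    intro q hq
    obtain ⟨⟨s, t⟩, hp, rfl⟩ := mem_image.1 hq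
    obtain ⟨⟨hs, hs'⟩, ht, ht'⟩ := Four_mem_P.1 hp
    simp only at hs hs' ht ht'
    have hu : s u = u := mem_fixs.1 (by rw [hs']; simp)
    have hKu := orb_self s t u
    have c1 := orb_closed_left hs ht u
    have c2 := orb_closed_right hs ht u
    have i1 := mix_inv hs ht c1 c2
    have i2 := mix_inv ht hs c2 c1
    have hd := dihedral ht hs hu
    rw [orb_comm t s, hs', ht'] at hd
    simp only [mem_union, Four_mem_P, hΦ, i1, i2, true_and, Four_fixs_mix, hs', ht']
    generalize orb s t u = K at hKu hd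
    have hvu : ¬ ({u, v} : Finset (Fin n)) = {u} := fun h =>
      huv (mem_singleton.1 (h ▸ mem_insert_of_mem (mem_singleton_self v))).symm
    cases ho : K o <;> cases hw : K w <;> cases hv : K v <;>
      simp [filter_insert, filter_singleton, hKu, ho, hw, hv, how, huv, hvu] at hd ⊢
    · refine Or.inr ?_
      ext x
      simp only [mem_insert, mem_singleton]
      tauto
    · exact Or.inl ⟨pair_comm _ _, pair_comm _ _⟩
  rw [Four_mul, Four_mul, mul_comm (Zs W {o, u}), mul_comm (Zs W {o, u, v, w}), Four_mul, Four_mul]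
  have e1 : ∑ p ∈ Four_P {u, v} {o, w}, wt W p.1 * wt W p.2 =
      ∑ p ∈ (Four_P {u, v} {o, w}).image Φ, wt W p.1 * wt W p.2 := by
    rw [sum_image fun a _ b _ h => hinv.injective h]
    exact sum_congr rfl fun p _ => (wt_mix W _ _ _).symm
  rw [e1, ← Four_mul W {u, w}, mul_comm, Four_mul]
  refine (sum_le_sum_of_subset_of_nonneg hsub fun p _ _ => h0 p).trans
    ((Four_union_le h0 _ _).trans ?_)
  exact add_le_add (Four_union_le h0 _ _) le_rfl

/-- The vertex factors for the base point `o`. -/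
noncomputable def phi (W : Fin n → Fin n → ℝ) (o v : Fin n) : ℝ :=
  if v = o then 1 else Zs W {o, v} / ZZ W

/-- The rescaled weights. -/
noncomputable def beta (W : Fin n → Fin n → ℝ) (o : Fin n) : Fin n → Fin n → ℝ :=
  fun u v => W u v * (phi W o u * phi W o v)

/-- What is needed of the rescaled weights. -/
structure Bottle (β : Fin n → Fin n → ℝ) (o : Fin n) (lam : ℝ) : Prop where
  pos : PosW β
  lam_pos : 0 < lam
  lam_le : lam ≤ 1
  base : ∀ u v, u ≠ o → v ≠ o → lam * β o u ≤ β o v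
  path : ∀ (z : ℕ → Fin n) (s t : ℕ) (a : ℝ), s < t → Set.InjOn z (Set.Icc s t) →
    (∀ i ∈ Set.Icc s t, z i ≠ o) → (∀ i ∈ Set.Ico s t, a ≤ β (z i) (z (i + 1))) →
    lam * a ≤ β (z s) (z t)

theorem Four_Zs_pos (hn : Even n) (hW : PosW W) {η : ℝ} (hη : 0 < η) (hB : Bal η W) {u v : Fin n}
    (huv : u ≠ v) : 0 < Zs W {u, v} := by
  have h1 := hη.trans_le (hB u v huv)
  rw [mg_eq hW huv, div_pos_iff_of_pos_right (ZZ_pos hn hW)] at h1
  exact (pos_iff_pos_of_mul_pos h1).1 (hW.2 u v)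

theorem Four_phi_pos (hn : Even n) (hW : PosW W) {η : ℝ} (hη : 0 < η) (hB : Bal η W)
    (o v : Fin n) : 0 < phi W o v := by
  unfold phi
  split_ifs with h
  · exact one_pos
  · exact div_pos (Four_Zs_pos hn hW hη hB (Ne.symm h)) (ZZ_pos hn hW)

theorem gib_beta (hn : Even n) (hW : PosW W) {η : ℝ} (hη : 0 < η) (hB : Bal η W) (o : Fin n) :
    gib (beta W o) = gib W := by
  have hφ : 0 < ∏ v, phi W o v := prod_pos fun v _ => Four_phi_pos hn hW hη hB o v
  have h1 : ∀ σ : PM n, wt (beta W o) σ.1 = wt W σ.1 * ∏ v, phi W o v := fun σ =>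
    wt_vertex W (phi W o) σ
  funext σ
  rw [gib, gib, ZZ, ZZ, h1, sum_congr rfl fun σ _ => h1 σ, ← sum_mul,
    mul_div_mul_right _ _ hφ.ne']

theorem Four_step (hn : Even n) (hW : PosW W) {η : ℝ} (hη : 0 < η) (hB : Bal η W)
    {o u v w : Fin n} (hou : o ≠ u) (hov : o ≠ v) (how : o ≠ w)
    (huv : u ≠ v) (huw : u ≠ w) (hvw : v ≠ w) :
    mg W u v / beta W o u v ≤ mg W u w / beta W o u w + 2 / beta W o w v := by
  have hZ := ZZ_pos hn hW
  have h1 := four_point hW hou hov how huv huw hvw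
  rw [Zs_empty] at h1
  have a1 := Four_Zs_pos hn hW hη hB hou
  have a2 := Four_Zs_pos hn hW hη hB hov
  have a3 := Four_Zs_pos hn hW hη hB how
  have w1 := hW.2 u v
  have w2 := hW.2 u w
  have w3 := hW.2 v w
  have h2 : W v w * Zs W {v, w} ≤ ZZ W := by
    have := mg_le_one hW v w
    rwa [mg_eq hW hvw, div_le_one hZ] at this
  have h3 : W v w * Zs W {o, u, v, w} ≤ Zs W {o, u} := by
    have hv : v ∉ ({o, u} : Finset (Fin n)) := by simp [hov.symm, huv.symm]
    have e : ({o, u, v, w} : Finset (Fin n)) = insert v (insert w {o, u}) := by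
      ext x
      simp only [mem_insert, mem_singleton]
      tauto
    rw [Zs_expand hW.1 hv, e]
    refine single_le_sum (f := fun x => W v x * Zs W (insert v (insert x {o, u})))
      (fun x _ => mul_nonneg (hW.2 _ _).le (sum_nonneg fun σ _ => (wt_pos hW.2 σ).le)) ?_
    simp [how.symm, huw.symm, hvw.symm]
  simp only [beta, phi, if_neg hou.symm, if_neg hov.symm, if_neg how.symm, mg_eq hW huv,
    mg_eq hW huw, hW.1 w v]
  have h4 : W v w * (Zs W {u, v} * Zs W {o, w}) ≤
      W v w * (Zs W {u, w} * Zs W {o, v}) + 2 * (Zs W {o, u} * ZZ W) := by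
    have h5 := mul_le_mul_of_nonneg_left h1 w3.le
    have h6 := mul_le_mul_of_nonneg_left h2 a1.le
    have h7 := mul_le_mul_of_nonneg_right h3 hZ.le
    nlinarith
  rw [← sub_nonneg]
  have e : W u w * Zs W {u, w} / ZZ W / (W u w * (Zs W {o, u} / ZZ W * (Zs W {o, w} / ZZ W))) +
      2 / (W v w * (Zs W {o, w} / ZZ W * (Zs W {o, v} / ZZ W))) -
      W u v * Zs W {u, v} / ZZ W / (W u v * (Zs W {o, u} / ZZ W * (Zs W {o, v} / ZZ W))) =
      (W v w * (Zs W {u, w} * Zs W {o, v}) + 2 * (Zs W {o, u} * ZZ W) -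
        W v w * (Zs W {u, v} * Zs W {o, w})) * ZZ W /
        (W v w * Zs W {o, u} * Zs W {o, v} * Zs W {o, w}) := by
    field_simp
  rw [e]
  exact div_nonneg (mul_nonneg (sub_nonneg.2 h4) hZ.le) (by positivity)

theorem bottle_beta (hn : Even n) (hW : PosW W) {η : ℝ} (hη : 0 < η) (hB : Bal η W) (o : Fin n) :
    Bottle (beta W o) o (η / (2 * n)) := by
  have hφ := Four_phi_pos hn hW hη hB o
  have hpos : PosW (beta W o) := ⟨fun u v => by rw [beta, beta, hW.1 u v, mul_comm (phi W o u)],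
    fun u v => mul_pos (hW.2 u v) (mul_pos (hφ u) (hφ v))⟩
  have hn2 : 2 ≤ n := by
    have := o.2
    obtain ⟨k, hk⟩ := hn
    omega
  have hn2' : (2 : ℝ) ≤ n := by exact_mod_cast hn2
  have hη1 : η ≤ 1 := by
    have : Nontrivial (Fin n) := Fin.nontrivial_iff_two_le.2 hn2
    obtain ⟨u, hu⟩ := exists_ne o
    exact (hB u o hu).trans (mg_le_one hW _ _)
  have hl : η / (2 * n) ≤ η := div_le_self hη.le (by linarith)
  have hb : ∀ u, u ≠ o → beta W o o u = mg W o u := fun u hu => by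
    rw [beta, phi, phi, if_pos rfl, if_neg hu, mg_eq hW hu.symm]
    ring
  refine ⟨hpos, by positivity, hl.trans hη1, fun u v hu hv => ?_, fun z s t a hst hz ho ha => ?_⟩
  · rw [hb u hu, hb v hv]
    exact (mul_le_of_le_one_right (by positivity) (mg_le_one hW _ _)).trans
      (hl.trans (hB o v hv.symm))
  rcases le_or_gt a 0 with ha0 | ha0
  · exact (mul_nonpos_of_nonneg_of_nonpos (by positivity) ha0).trans (hpos.2 _ _).le
  have key : ∀ k : ℕ, s + k + 1 ≤ t →
      mg W (z s) (z (s + k + 1)) / beta W o (z s) (z (s + k + 1)) ≤ 2 * (k + 1 : ℝ) / a := by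
    intro k
    induction k with
    | zero =>
      intro hk
      have h1 := ha s ⟨le_rfl, by omega⟩
      simp only [add_zero, Nat.cast_zero, zero_add, mul_one]
      exact div_le_div₀ (by norm_num) ((mg_le_one hW _ _).trans one_le_two) ha0 h1
    | succ k ih =>
      intro hk
      have m1 : s ∈ Set.Icc s t := ⟨le_rfl, by omega⟩
      have m2 : s + k + 1 ∈ Set.Icc s t := ⟨by omega, by omega⟩
      have m3 : s + (k + 1) + 1 ∈ Set.Icc s t := ⟨by omega, by omega⟩
      have h1 := Four_step hn hW hη hB (ho _ m1).symm (ho _ m3).symm (ho _ m2).symm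
        (fun h => by have := hz m1 m3 h; omega) (fun h => by have := hz m1 m2 h; omega)
        (fun h => by have := hz m3 m2 h; omega)
      have h2 := ih (by omega)
      have h3 : 2 / beta W o (z (s + k + 1)) (z (s + (k + 1) + 1)) ≤ 2 / a :=
        div_le_div_of_nonneg_left (by norm_num) ha0 (ha (s + k + 1) ⟨by omega, by omega⟩)
      have h4 : 2 * ((k + 1 : ℕ) + 1 : ℝ) / a = 2 * (k + 1 : ℝ) / a + 2 / a := by
        push_cast
        ring
      linarith
  obtain ⟨k, rfl⟩ : ∃ k, t = s + k + 1 := ⟨t - s - 1, by omega⟩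
  have h1 := key k le_rfl
  have hk : k + 1 ≤ n := by
    have h2 := card_le_card_of_injOn (s := Icc s (s + k + 1)) (t := univ) z
      (fun _ _ => mem_coe.2 (mem_univ _)) (by rwa [coe_Icc])
    rw [Nat.card_Icc, card_univ, Fintype.card_fin] at h2
    omega
  have hk' : (k + 1 : ℝ) ≤ n := by exact_mod_cast hk
  have hne : z s ≠ z (s + k + 1) := fun h => by
    have := hz ⟨le_rfl, by omega⟩ ⟨by omega, le_rfl⟩ h
    omega
  have h3 := hB _ _ hne
  have h4 := hpos.2 (z s) (z (s + k + 1))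
  rw [div_le_div_iff₀ h4 ha0] at h1
  rw [div_mul_eq_mul_div, div_le_iff₀ (by positivity)]
  have h5 := mul_le_mul_of_nonneg_right h3 ha0.le
  have h6 := mul_le_mul_of_nonneg_right hk' h4.le
  nlinarith

end Crest.Agent.R304
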