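import Crest.Agent.R304.Wt

/-!
# Row 304: the Gallai–Edmonds decomposition by saturation, and minimum-cost perfect matchings
(definitions of the algorithms)
-/

set_option autoImplicit false

namespace Crest.Agent.R304

open Finset

variable {n : ℕ}

/-- Graphs as Boolean tables. -/
abbrev Gr (n : ℕ) := Fin n → Fin n → Bool

/-- A simple graph. -/
def Simple (adj : Gr n) : Prop := Symm adj ∧ ∀ v, adj v v = false

/-- `σ` is a matching of the graph. -/
def InG (adj : Gr n) (σ : Fn n) : Prop := IsInv σ ∧ ∀ v, σ v ≠ v → adj v (σ v) = true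

/-- The matchings obtained from the table `T` by removing two edges, inserting an edge, or swapping
two members on a component. -/
def cands (adj : Gr n) (T : List (Fn n)) : List (Fn n) :=
  T.flatMap fun σ => (List.finRange n).flatMap fun u =>
    ((List.finRange n).flatMap fun v =>
      rem (rem σ u) v :: if σ u = u ∧ σ v = v ∧ adj u v = true then [ins σ u v] else []) ++
    T.map fun τ => mix (orb σ τ u) σ τ

/-- All lists of at most four vertices. -/
def quads (n : ℕ) : List (List (Fin n)) :=
  (none :: (List.finRange n).map some).flatMap fun a =>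
  (none :: (List.finRange n).map some).flatMap fun b =>
  (none :: (List.finRange n).map some).flatMap fun c =>
  (none :: (List.finRange n).map some).map fun d => a.toList ++ b.toList ++ c.toList ++ d.toList

/-- Some member of the table has `f` exposed vertices, among them those of `q`. -/
def hasSig (T : List (Fn n)) (f : ℕ) (q : List (Fin n)) : Bool :=
  T.any fun τ => decide (nfix τ = f) && q.all fun v => decide (τ v = v)

/-- `σ` has a signature that no member of the table has. -/
def isNew (T : List (Fn n)) (σ : Fn n) : Bool :=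
  (quads n).any fun q => (q.all fun v => decide (σ v = v)) && !hasSig T (nfix σ) q

/-- One step of the saturation. -/
def satStep (adj : Gr n) (T : List (Fn n)) : List (Fn n) :=
  ((cands adj T).find? (isNew T)).elim T fun σ => σ :: T

/-- The saturated table. -/
def sat (adj : Gr n) : List (Fn n) := (satStep adj)^[(n + 1) ^ 5] [id]

/-- The deficiency. -/
def geDef (adj : Gr n) : ℕ := ((sat adj).map nfix).foldr min n

/-- The vertices exposed by some maximum matching. -/
def geD (adj : Gr n) : Fin n → Bool := fun v => hasSig (sat adj) (geDef adj) [v]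

/-- The neighbours of `D` outside `D`. -/
def geA (adj : Gr n) (D : Fin n → Bool) : Fin n → Bool :=
  fun v => !D v && decide (∃ u, D u = true ∧ adj u v = true)

/-- The component of `c` in the graph induced on `D`. -/
def comp (adj : Gr n) (D : Fin n → Bool) (c : Fin n) : Fin n → Bool :=
  reach (fun a b => adj a b && D a && D b) c

/-- The Gallai–Edmonds structure. -/
structure GE (adj : Gr n) (D : Fin n → Bool) (d : ℕ) : Prop where
  ex : ∃ σ, InG adj σ ∧ nfix σ = d
  crit : ∀ c, D c = true → ∃ σ, InG adj σ ∧ σ c = c ∧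
    ∀ v, comp adj D c v = true → v ≠ c → σ v ≠ v ∧ comp adj D c (σ v) = true
  cnt : ∃ U : Finset (Fin n), U.card = d + (univ.filter fun v => geA adj D v = true).card ∧
    (∀ u ∈ U, D u = true) ∧ ∀ c, D c = true → ∃! u, u ∈ U ∧ comp adj D c u = true
  iso : ∀ v, (∀ u, adj v u = false) → D v = true

/-- The table is saturated. -/
structure Saturated (adj : Gr n) (T : List (Fn n)) : Prop where
  mem : ∀ σ ∈ T, InG adj σ
  ne : T ≠ []
  closed : ∀ σ ∈ cands adj T, ∀ q : List (Fin n), q.length ≤ 4 → (∀ v ∈ q, σ v = v) →
    hasSig T (nfix σ) q = true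

/-! ### The dual ascent -/

/-- `u` and `v` lie in the same shrunken set. -/
def same (h : Mat n) (u v : Fin n) : Bool := decide (u = v ∨ 0 < h u v)

/-- The representative of the shrunken set of `v`. -/
def rep (h : Mat n) (v : Fin n) : Fin n := ((List.finRange n).find? fun u => same h u v).getD v

/-- The dual load of the pair `u v`. -/
def load (h : Mat n) (u v : Fin n) : ℤ := h u u + h v v - 2 * h u v

/-- The shrunken graph of the nearly tight pairs. -/
def cadj (c : Fin n → Fin n → ℕ) (h : Mat n) : Gr n := fun p q =>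
  decide (p ≠ q ∧ ∃ a b, rep h a = p ∧ rep h b = q ∧ (c a b : ℤ) ≤ load h a b + 1)

/-- The number of vertices that are not representatives. -/
def inact (h : Mat n) : ℕ := (univ.filter fun v => rep h v ≠ v).card

/-- The update of the dual solution. -/
def dupd (g : Gr n) (D : Fin n → Bool) (h : Mat n) : Mat n := fun u v =>
  h u v + (if D (rep h u) = true ∧ comp g D (rep h u) (rep h v) = true then 1 else 0) -
    if geA g D (rep h u) = true ∧ rep h u = rep h v then 1 else 0

/-- One step of the dual ascent; the second component is the value of the dual solution. -/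
def dstep (c : Fin n → Fin n → ℕ) (s : Mat n × ℕ) : Mat n × ℕ :=
  if geDef (cadj c s.1) ≤ inact s.1 then s
  else (dupd (cadj c s.1) (geD (cadj c s.1)) s.1, s.2 + (geDef (cadj c s.1) - inact s.1))

/-- The dual ascent for costs bounded by `B`. -/
def drun (c : Fin n → Fin n → ℕ) (B : ℕ) : Mat n × ℕ := (dstep c)^[n * B + 1] (0, 0)

/-- The minimum cost of a perfect matching. -/
def optVal (c : Fin n → Fin n → ℕ) (B : ℕ) : ℕ :=
  ((drun (fun u v => (n + 1) * c u v) ((n + 1) * B)).2 + n) / (n + 1)

/-- Increase the cost of one pair. -/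
def bump (c : Fin n → Fin n → ℕ) (a b : Fin n) : Fin n → Fin n → ℕ :=
  fun u v => if (u = a ∧ v = b) ∨ (u = b ∧ v = a) then c u v + 1 else c u v

/-- Increase the cost of every pair that can be avoided. -/
def redu (c : Fin n → Fin n → ℕ) (B : ℕ) : Fin n → Fin n → ℕ :=
  ((List.finRange n).product (List.finRange n)).foldl (fun c' p =>
    if p.1 < p.2 ∧ optVal (bump c' p.1 p.2) (B + 1) = optVal c' (B + 1) then bump c' p.1 p.2
    else c') c

/-- A perfect matching of minimum cost. -/
def mcpm (c : Fin n → Fin n → ℕ) (B : ℕ) : Fn n := fun v =>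
  ((List.finRange n).find? fun u => decide (u ≠ v ∧ redu c B v u = c v u)).getD v

/-- The matrix of a dual solution `π` on vertex sets. -/
def hOf (π : Finset (Fin n) → ℤ) : Mat n := fun u v => ∑ S with u ∈ S ∧ v ∈ S, π S

/-- The invariant of the dual ascent. -/
structure DInv (c : Fin n → Fin n → ℕ) (π : Finset (Fin n) → ℤ) : Prop where
  odd : ∀ S, π S ≠ 0 → Odd S.card
  nonneg : ∀ S, S.card ≠ 1 → 0 ≤ π S
  lam : ∀ S T, π S ≠ 0 → π T ≠ 0 → S ⊆ T ∨ T ⊆ S ∨ Disjoint S T
  feas : ∀ u v, u ≠ v → ∑ S with (u ∈ S ↔ v ∉ S), π S ≤ c u v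
  crit : ∀ S, (0 < π S ∨ S.card = 1) → ∀ v ∈ S, ∃ N, IsInv N ∧ fixs N = insert v Sᶜ ∧
    2 * ((cost c N : ℕ) : ℤ) + 1 ≤ 2 * ∑ T with T ⊆ S ∧ v ∉ T, π T + S.card

/-- The shrunken set of `v`. -/
def part (π : Finset (Fin n) → ℤ) (v : Fin n) : Finset (Fin n) :=
  univ.filter fun u => same (hOf π) u v = true

end Crest.Agent.R304
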