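import Crest.Agent.R304.GEDefs

/-!
# Row 304: the saturation terminates
-/

set_option autoImplicit false

namespace Crest.Agent.R304

open Finset

variable {n : ℕ}

theorem hasSig_iff {T : List (Fn n)} {f : ℕ} {q : List (Fin n)} :
    hasSig T f q = true ↔ ∃ τ ∈ T, nfix τ = f ∧ ∀ v ∈ q, τ v = v := by
  simp [hasSig]

theorem GESat.mem_opts (a : Option (Fin n)) : a ∈ none :: (List.finRange n).map some := by
  cases a <;> simp

theorem mem_quads {q : List (Fin n)} : q ∈ quads n ↔ q.length ≤ 4 := by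
  have key : q ∈ quads n ↔ ∃ a b c d : Option (Fin n),
      a.toList ++ b.toList ++ c.toList ++ d.toList = q := by
    simp only [quads, List.mem_flatMap, List.mem_map, GESat.mem_opts, true_and]
  rw [key]
  constructor
  · rintro ⟨a, b, c, d, rfl⟩
    cases a <;> cases b <;> cases c <;> cases d <;> simp
  · intro h
    match q, h with
    | [], _ => exact ⟨none, none, none, none, rfl⟩
    | [a], _ => exact ⟨some a, none, none, none, rfl⟩
    | [a, b], _ => exact ⟨some a, some b, none, none, rfl⟩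
    | [a, b, c], _ => exact ⟨some a, some b, some c, none, rfl⟩
    | [a, b, c, d], _ => exact ⟨some a, some b, some c, some d, rfl⟩
    | _ :: _ :: _ :: _ :: _ :: _, h => simp only [List.length_cons] at h; omega

theorem GESat.length_flatMap {α β : Type} (l : List α) (f : α → List β) (k : ℕ)
    (h : ∀ a, (f a).length = k) : (l.flatMap f).length = l.length * k := by
  induction l with
  | nil => simp
  | cons a l ih => rw [List.flatMap_cons, List.length_append, ih, h, List.length_cons]; ring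

theorem length_quads (n : ℕ) : (quads n).length = (n + 1) ^ 4 := by
  have e : (none :: (List.finRange n).map some).length = n + 1 := by simp
  rw [quads, GESat.length_flatMap _ _ ((n + 1) * ((n + 1) * (n + 1))) fun a => by
    rw [GESat.length_flatMap _ _ ((n + 1) * (n + 1)) fun b => by
      rw [GESat.length_flatMap _ _ (n + 1) fun c => by rw [List.length_map, e], e], e], e]
  ring

theorem GESat.mem_cands {adj : Gr n} {T : List (Fn n)} {ρ : Fn n} : ρ ∈ cands adj T ↔
    ∃ σ ∈ T, ∃ u, (∃ v, ρ = rem (rem σ u) v ∨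
      ((σ u = u ∧ σ v = v ∧ adj u v = true) ∧ ρ = ins σ u v)) ∨
      ∃ τ ∈ T, mix (orb σ τ u) σ τ = ρ := by
  simp only [cands, List.mem_flatMap, List.mem_finRange, true_and, List.mem_append, List.mem_cons,
    List.mem_map, List.mem_ite_nil_right, List.not_mem_nil, or_false]

theorem rem_mem_cands (adj : Gr n) {T : List (Fn n)} {σ : Fn n} (hσ : σ ∈ T) (u v : Fin n) :
    rem (rem σ u) v ∈ cands adj T :=
  GESat.mem_cands.2 ⟨σ, hσ, u, Or.inl ⟨v, Or.inl rfl⟩⟩

theorem ins_mem_cands {adj : Gr n} {T : List (Fn n)} {σ : Fn n} (hσ : σ ∈ T) {u v : Fin n}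
    (hu : σ u = u) (hv : σ v = v) (h : adj u v = true) : ins σ u v ∈ cands adj T :=
  GESat.mem_cands.2 ⟨σ, hσ, u, Or.inl ⟨v, Or.inr ⟨⟨hu, hv, h⟩, rfl⟩⟩⟩

theorem mix_mem_cands (adj : Gr n) {T : List (Fn n)} {σ τ : Fn n} (hσ : σ ∈ T) (hτ : τ ∈ T)
    (u : Fin n) : mix (orb σ τ u) σ τ ∈ cands adj T :=
  GESat.mem_cands.2 ⟨σ, hσ, u, Or.inr ⟨τ, hτ, rfl⟩⟩

theorem GESat.rem_inG {adj : Gr n} {σ : Fn n} (h : InG adj σ) (u : Fin n) : InG adj (rem σ u) := by
  refine ⟨rem_inv h.1 u, fun v hv => ?_⟩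
  unfold rem at hv ⊢
  split_ifs at hv ⊢ with h1
  · exact absurd rfl hv
  · exact h.2 v hv

theorem cands_inG {adj : Gr n} (h : Simple adj) {T : List (Fn n)} (hT : ∀ σ ∈ T, InG adj σ) :
    ∀ σ ∈ cands adj T, InG adj σ := by
  intro ρ hρ
  obtain ⟨σ, hσ, u, ⟨v, rfl | ⟨⟨hu, hv, huv⟩, rfl⟩⟩ | ⟨τ, hτ, rfl⟩⟩ := GESat.mem_cands.1 hρ
  · exact GESat.rem_inG (GESat.rem_inG (hT σ hσ) u) v
  · refine ⟨ins_inv (hT σ hσ).1 hu hv, fun w hw => ?_⟩
    unfold ins at hw ⊢
    split_ifs at hw ⊢ with h1 h2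
    · rwa [h1]
    · rwa [h2, h.1]
    · exact (hT σ hσ).2 w hw
  · refine ⟨mix_inv (hT σ hσ).1 (hT τ hτ).1 (orb_closed_left (hT σ hσ).1 (hT τ hτ).1 u)
      (orb_closed_right (hT σ hσ).1 (hT τ hτ).1 u), fun w hw => ?_⟩
    unfold mix at hw ⊢
    split_ifs at hw ⊢ with h1
    · exact (hT τ hτ).2 w hw
    · exact (hT σ hσ).2 w hw

theorem GESat.step_cases (adj : Gr n) (T : List (Fn n)) :
    (satStep adj T = T ∧ ∀ σ ∈ cands adj T, isNew T σ = false) ∨
      ∃ σ ∈ cands adj T, isNew T σ = true ∧ satStep adj T = σ :: T := by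
  unfold satStep
  cases h : (cands adj T).find? (isNew T) with
  | none => exact Or.inl ⟨rfl, fun σ hσ => by simpa using List.find?_eq_none.1 h σ hσ⟩
  | some σ => exact Or.inr ⟨σ, List.mem_of_find?_eq_some h, List.find?_some h, rfl⟩

/-- The signatures present in a table. -/
def GESat.sigs (T : List (Fn n)) : Finset (ℕ × List (Fin n)) :=
  (range (n + 1) ×ˢ (quads n).toFinset).filter fun x => hasSig T x.1 x.2 = true

theorem GESat.card_sigs (T : List (Fn n)) : (GESat.sigs T).card ≤ (n + 1) ^ 5 := by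
  refine (card_filter_le _ _).trans ?_
  rw [card_product, card_range, pow_succ', ← length_quads]
  exact Nat.mul_le_mul_left _ (List.toFinset_card_le _)

theorem GESat.nfix_le (σ : Fn n) : nfix σ ≤ n := (card_le_univ _).trans_eq (Fintype.card_fin n)

theorem GESat.sigs_lt {T : List (Fn n)} {σ : Fn n} (h : isNew T σ = true) :
    (GESat.sigs T).card < (GESat.sigs (σ :: T)).card := by
  simp only [isNew, List.any_eq_true, Bool.and_eq_true, List.all_eq_true, decide_eq_true_eq,
    Bool.not_eq_true'] at h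
  obtain ⟨q, hq, h1, h2⟩ := h
  refine card_lt_card ⟨fun x hx => ?_, fun h' => ?_⟩
  · obtain ⟨h3, h4⟩ := mem_filter.1 hx
    obtain ⟨τ, hτ, h5⟩ := hasSig_iff.1 h4
    exact mem_filter.2 ⟨h3, hasSig_iff.2 ⟨τ, List.mem_cons_of_mem _ hτ, h5⟩⟩
  · have h3 : (nfix σ, q) ∈ GESat.sigs (σ :: T) := mem_filter.2
      ⟨mem_product.2 ⟨mem_range.2 (Nat.lt_succ_of_le (GESat.nfix_le σ)), List.mem_toFinset.2 hq⟩,
        hasSig_iff.2 ⟨σ, List.mem_cons_self, rfl, h1⟩⟩
    have h4 := (mem_filter.1 (h' h3)).2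
    rw [h2] at h4
    exact Bool.false_ne_true h4

theorem length_satStep_iter (adj : Gr n) (i : ℕ) : ((satStep adj)^[i] [id]).length ≤ i + 1 := by
  induction i with
  | zero => simp
  | succ i ih =>
    rw [Function.iterate_succ_apply']
    rcases GESat.step_cases adj ((satStep adj)^[i] [id]) with ⟨e, -⟩ | ⟨σ, -, -, e⟩
    · rw [e]; omega
    · rw [e, List.length_cons]; omega

theorem sat_saturated {adj : Gr n} (h : Simple adj) : Saturated adj (sat adj) := by
  have key : ∀ i, (∀ σ ∈ (satStep adj)^[i] [id], InG adj σ) ∧ (satStep adj)^[i] [id] ≠ [] ∧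
      ((∀ σ ∈ cands adj ((satStep adj)^[i] [id]), isNew ((satStep adj)^[i] [id]) σ = false) ∨
        i + 1 ≤ (GESat.sigs ((satStep adj)^[i] [id])).card) := by
    intro i
    induction i with
    | zero =>
      refine ⟨fun σ hσ => ?_, by simp, Or.inr (card_pos.2 ⟨(nfix (id : Fn n), []), mem_filter.2
        ⟨mem_product.2 ⟨mem_range.2 (Nat.lt_succ_of_le (GESat.nfix_le _)),
          List.mem_toFinset.2 (mem_quads.2 (by simp))⟩,
          hasSig_iff.2 ⟨id, by simp, rfl, by simp⟩⟩⟩)⟩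
      obtain rfl : σ = id := by simpa using hσ
      exact ⟨fun _ => rfl, fun v hv => absurd rfl hv⟩
    | succ i ih =>
      rw [Function.iterate_succ_apply']
      generalize (satStep adj)^[i] [id] = T at ih ⊢
      obtain ⟨h1, h2, h3⟩ := ih
      rcases GESat.step_cases adj T with ⟨e, h4⟩ | ⟨σ, h4, h5, e⟩
      · rw [e]; exact ⟨h1, h2, Or.inl h4⟩
      · rw [e]
        refine ⟨fun τ hτ => ?_, List.cons_ne_nil _ _, Or.inr ?_⟩
        · rcases List.mem_cons.1 hτ with rfl | hτ
          · exact cands_inG h h1 _ h4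
          · exact h1 τ hτ
        · rcases h3 with h3 | h3
          · rw [h3 σ h4] at h5
            exact absurd h5 Bool.false_ne_true
          · exact h3.trans_lt (GESat.sigs_lt h5)
  obtain ⟨h1, h2, h3⟩ := key ((n + 1) ^ 5)
  refine ⟨h1, h2, fun σ hσ q hq hv => ?_⟩
  rcases h3 with h3 | h3
  · have h4 := h3 σ hσ
    simp only [isNew, List.any_eq_false, Bool.and_eq_true, List.all_eq_true, decide_eq_true_eq,
      Bool.not_eq_true', not_and, Bool.not_eq_false] at h4
    exact h4 q (mem_quads.2 hq) hv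
  · exact absurd (h3.trans (GESat.card_sigs _)) (by omega)

end Crest.Agent.R304
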