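import Crest.Agent.R304.Node

/-!
# Row 304: the linearised Poincaré inequality for the moves on pairs
-/

set_option autoImplicit false

namespace Crest.Agent.R304

open Finset

variable {n : ℕ}

theorem sum_Ups {π : PM n → ℝ} (hπ : ∀ σ, 0 < π σ) (g : PM n → ℝ) :
    ∑ s, Ups π g s = (n : ℝ) ^ 11 * ∑ s, Xi π g g s := by
  have key : ∀ (r : Fin 9 → Fin n) (z : Fin n) (k : ℕ), ∑ s : PM n × PM n, π (mv r s).2 *
      ((∑ Y' ∈ cls (mv r s).1 z k (mv r s).2, Xi π g g ((mv r s).1, Y')) /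
        ∑ Y' ∈ cls (mv r s).1 z k (mv r s).2, π Y') = ∑ s, Xi π g g s := by
    intro r z k
    rw [(mv_bijective r).sum_comp fun s : PM n × PM n => π s.2 *
      ((∑ Y' ∈ cls s.1 z k s.2, Xi π g g (s.1, Y')) / ∑ Y' ∈ cls s.1 z k s.2, π Y'),
      Fintype.sum_prod_type, Fintype.sum_prod_type]
    exact sum_congr rfl fun X _ => sum_cls hπ X z k fun Y => Xi π g g (X, Y)
  unfold Ups
  rw [sum_comm]
  rw [sum_congr rfl fun r _ => sum_comm.trans (sum_congr rfl fun z _ =>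
    sum_comm.trans (sum_congr rfl fun k _ => key r z k))]
  simp only [sum_const, card_univ, card_range, nsmul_eq_mul, Fintype.card_fun, Fintype.card_fin,
    Nat.cast_pow]
  ring

/-- Induction along a Cartesian tree. -/
theorem tree_ind {D E : ℕ → ℕ → ℝ} {N : ℕ → ℕ → Prop} {A B : ℝ} (h0 : ∀ i, D i i = 0)
    (hle : ∀ i j, N i j → i ≤ j) (hA : ∀ i j, N i j → |D i j + E i j| ≤ A)
    (hs : ∀ i j, N i j → i < j → ∃ s, N i s ∧ N (s + 1) j ∧
      (|D i j - D i s - D (s + 1) j| ≤ B ∨ |E i j - E i s - E (s + 1) j| ≤ B))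
    (k : ℕ) : ∀ i j, j - i = k → N i j → |D i j| ≤ ((j : ℝ) - i) * (3 * A + B) := by
  induction k using Nat.strong_induction_on with
  | _ k ih =>
  intro i j hk h
  rcases (hle i j h).eq_or_lt with rfl | hij
  · simp [h0]
  obtain ⟨s, h1, h2, h3⟩ := hs i j h hij
  have l1 := hle _ _ h1
  have l2 := hle _ _ h2
  have a1 := abs_le.1 (ih (s - i) (by omega) i s rfl h1)
  have a2 := abs_le.1 (ih (j - (s + 1)) (by omega) (s + 1) j rfl h2)
  have b0 := abs_le.1 (hA _ _ h)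
  have b1 := abs_le.1 (hA _ _ h1)
  have b2 := abs_le.1 (hA _ _ h2)
  have hA0 : 0 ≤ A := (abs_nonneg _).trans (hA _ _ h)
  push_cast at a2
  rcases h3 with h3 | h3 <;> rw [abs_le] at h3 ⊢ <;> constructor <;> nlinarith

/-- The swap of a whole cycle. -/
theorem kem_le {β : Fin n → Fin n → ℝ} {o : Fin n} {lam : ℝ} (hn : Even n) (hβ : Bottle β o lam)
    (g : PM n → ℝ) (s : PM n × PM n) :
    lam ^ 3 * (gib β s.1 * gib β s.2) * (g (kem o s).1 - g s.1) ^ 2 ≤
      (n : ℝ) ^ 2 * (18 * Xi (gib β) g g s + 8 * (Ups (gib β) g s + Ups (gib β) g s.swap)) := by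
  obtain ⟨I, H⟩ := s
  obtain ⟨L, hL2, hLn, hLe, hlast, hinj, hF⟩ := exists_loop I H o
  set x := walk I H o with hx
  have hc : Cyc x o L := ⟨rfl, hlast, hLe, hinj⟩
  have hI : ∀ c a b, c % 2 = 0 → Has c I x a b := fun c a b e t _ ht => by
    rw [hx, walk, if_pos (by omega)]
  have hH : ∀ a b, Has 1 H x a b := fun a b t _ ht => by
    rw [hx, walk, if_neg (by omega)]
  have hπ := fun σ => (gib_pos hn hβ.pos σ).le
  have hw : 0 ≤ gib β I * gib β H := mul_nonneg (hπ I) (hπ H)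
  have hl := hβ.lam_pos
  set W := √(lam ^ 3 * (gib β I * gib β H)) with hW
  have hW2 : ∀ t : ℝ, (W * t) ^ 2 = lam ^ 3 * (gib β I * gib β H) * t ^ 2 := fun t => by
    rw [mul_pow, Real.sq_sqrt (by positivity)]
  have hX := Xi_nonneg hπ g g (I, H)
  have hU := Ups_nonneg hπ g (I, H)
  have hU' := Ups_nonneg hπ g (H, I)
  have key := tree_ind (D := fun i j => W * (g (FF 0 I x i j) - g I))
    (E := fun i j => W * (g (FF 1 H x i j) - g H)) (N := Node β x L)
    (A := √(Xi (gib β) g g (I, H))) (B := √(4 * (Ups (gib β) g (I, H) + Ups (gib β) g (H, I))))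
    (fun i => by simp [FF_self]) (fun _ _ h => h.le) (fun i j h => Real.abs_le_sqrt ?_)
    (fun i j h hij => ?_) _ 1 (L - 1) rfl
    ⟨le_rfl, by omega, by omega, fun h => absurd h (by omega), fun h => absurd h (by omega)⟩
  · rw [hF] at key
    have h1 : ((L - 1 : ℕ) : ℝ) - (1 : ℕ) ≤ n := by
      have : ((L - 1 : ℕ) : ℝ) ≤ n := by exact_mod_cast (show L - 1 ≤ n by omega)
      push_cast
      linarith
    have a1 := Real.sq_sqrt hX
    have a2 := Real.sq_sqrt (show 0 ≤ 4 * (Ups (gib β) g (I, H) + Ups (gib β) g (H, I)) by positivity)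
    set A := √(Xi (gib β) g g (I, H))
    set B := √(4 * (Ups (gib β) g (I, H) + Ups (gib β) g (H, I)))
    have h2 := key.trans (mul_le_mul_of_nonneg_right h1 (by positivity))
    have h3 := pow_le_pow_left₀ (abs_nonneg _) h2 2
    rw [sq_abs, hW2, mul_pow] at h3
    refine h3.trans (mul_le_mul_of_nonneg_left ?_ (by positivity))
    simp only [Prod.swap]
    nlinarith [sq_nonneg (3 * A - B)]
  · have h1 := Node.delta (c := 0) hn hβ hc h (hI 0 _ _ rfl) (hH _ _) g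
    rw [← mul_add, hW2]
    refine le_trans ?_ h1
    have h2 : lam ^ 3 ≤ lam ^ 2 := pow_le_pow_of_le_one hl.le hβ.lam_le (by norm_num)
    rw [show g (FF 0 I x i j) - g I + (g (FF 1 H x i j) - g H) =
      g (FF 0 I x i j) + g (FF (0 + 1) H x i j) - g I - g H by ring]
    gcongr
  · obtain ⟨t, ht, hmin⟩ := exists_min_image (Ico i j) (fun t => β (x t) (x (t + 1)))
      ⟨i, mem_Ico.2 ⟨le_rfl, hij⟩⟩
    rw [mem_Ico] at ht
    have hmin' : ∀ u ∈ Set.Ico i j, β (x t) (x (t + 1)) ≤ β (x u) (x (u + 1)) :=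
      fun u hu => hmin u (mem_Ico.2 hu)
    obtain ⟨n1, n2⟩ := h.split ht.1 ht.2 hmin'
    refine ⟨t, n1, n2, ?_⟩
    rcases Nat.mod_two_eq_zero_or_one t with e | e
    · refine Or.inl (Real.abs_le_sqrt ?_)
      have h1 := Node.err (c := 0) hn hβ hc hLn h ht.1 ht.2 e hmin' (hI 0 _ _ rfl) (hH _ _) g
      rw [← mul_sub, ← mul_sub, hW2]
      refine le_trans (le_of_eq ?_) (h1.trans (by linarith))
      ring
    · refine Or.inr (Real.abs_le_sqrt ?_)
      have h1 := Node.err (c := 1) hn hβ hc hLn h ht.1 ht.2 e hmin' (hH _ _) (hI 2 _ _ rfl) g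
      rw [← mul_sub, ← mul_sub, hW2]
      refine le_trans (le_of_eq ?_) (h1.trans (by linarith))
      ring

theorem poincare {W : Fin n → Fin n → ℝ} (hn : Even n) (hW : PosW W) {η : ℝ} (hη : 0 < η)
    (hB : Bal η W) (g : PM n → ℝ) :
    ∑ s : PM n × PM n, gib W s.1 * gib W s.2 * (g s.1 - g s.2) ^ 2 ≤
      2 ^ 9 * (n : ℝ) ^ 18 / η ^ 3 * ∑ s, Xi (gib W) g g s := by
  have hπ := gib_pos hn hW
  have hX : 0 ≤ ∑ s, Xi (gib W) g g s := sum_nonneg fun s _ => Xi_nonneg (fun σ => (hπ σ).le) g g s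
  refine (var_le_kem (fun σ => (hπ σ).le) (gib_kem W) g).trans ?_
  rcases Nat.eq_zero_or_pos n with rfl | hn0
  · simp
  have hn1 : (1 : ℝ) ≤ n := by exact_mod_cast hn0
  have key : ∀ o, ∑ s : PM n × PM n, gib W s.1 * gib W s.2 * (g (kem o s).1 - g s.1) ^ 2 ≤
      272 * (n : ℝ) ^ 16 / η ^ 3 * ∑ s, Xi (gib W) g g s := by
    intro o
    have h1 := sum_le_sum fun s (_ : s ∈ univ) => kem_le hn (bottle_beta hn hW hη hB o) g s
    rw [gib_beta hn hW hη hB o] at h1
    simp only [mul_assoc (_ ^ 3 : ℝ), ← mul_sum, sum_add_distrib] at h1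
    rw [show ∑ s : PM n × PM n, Ups (gib W) g s.swap = ∑ s, Ups (gib W) g s from
      (Equiv.prodComm _ _).sum_comp _, sum_Ups hπ, ← le_div_iff₀' (by positivity)] at h1
    refine h1.trans ?_
    have h2 : (1 : ℝ) ≤ n ^ 11 := one_le_pow₀ hn1
    calc _ = 8 * (n : ℝ) ^ 5 * (18 + 16 * n ^ 11) / η ^ 3 * ∑ s, Xi (gib W) g g s := by
          field_simp; ring
      _ ≤ 8 * (n : ℝ) ^ 5 * (34 * n ^ 11) / η ^ 3 * ∑ s, Xi (gib W) g g s := by
          gcongr; linarith
      _ = _ := by ring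
  refine (mul_le_mul_of_nonneg_left (sum_le_sum fun o _ => key o) (by positivity)).trans ?_
  rw [sum_const, card_univ, Fintype.card_fin, nsmul_eq_mul]
  calc _ = 272 * (n : ℝ) ^ 18 / η ^ 3 * ∑ s, Xi (gib W) g g s := by ring
    _ ≤ _ := by gcongr; norm_num

end Crest.Agent.R304
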