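import Crest.Agent.R304.Model
import Crest.Agent.R304.Poin

/-!
# Row 304: the ideal chain on pairs has a gap on additive functions
-/

set_option autoImplicit false

namespace Crest.Agent.R304

open Finset Crest.Agent.R309

variable {n : ℕ} [NeZero n] {ℓ : ℕ}

/-- The probability of a vertex. -/
noncomputable def pv (ℓ : ℕ) (v : Fin n) : ℝ := Pr ℓ fun u => Fin.ofNat n (toNat u) = v

theorem pv_ge (h : n ≤ 2 ^ ℓ) (v : Fin n) : 1 / (2 * (n : ℝ)) ≤ pv ℓ v := by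
  classical
  have hn : 0 < n := NeZero.pos n
  have hn' : (0 : ℝ) < n := by exact_mod_cast hn
  unfold pv Pr
  rw [Ex_toNat ℓ fun t => ind (Fin.ofNat n t = v)]
  have h1 : ((2 ^ ℓ / n : ℕ) : ℝ) ≤ ∑ i ∈ range (2 ^ ℓ), ind (Fin.ofNat n i = v) := by
    have h2 : (range (2 ^ ℓ / n)).image (fun q => q * n + v) ⊆ range (2 ^ ℓ) := by
      intro t ht
      obtain ⟨q, hq, rfl⟩ := mem_image.1 ht
      rw [mem_range] at hq ⊢
      have h3 : (q + 1) * n ≤ 2 ^ ℓ :=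
        (Nat.mul_le_mul_right n hq).trans (Nat.div_mul_le_self _ _)
      have h4 := v.2
      rw [Nat.succ_mul] at h3
      omega
    refine le_trans (le_of_eq ?_)
      (sum_le_sum_of_subset_of_nonneg h2 fun _ _ _ => ind_nonneg _)
    rw [sum_image fun a _ b _ hab => Nat.eq_of_mul_eq_mul_right hn (Nat.add_right_cancel hab)]
    have h5 : ∀ q : ℕ, ind (Fin.ofNat n (q * n + v) = v) = 1 := fun q => ind_true (by
      apply Fin.ext
      simp [Nat.mod_eq_of_lt v.2])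
    simp only [h5, sum_const, card_range, nsmul_eq_mul, mul_one]
  have h6 : 2 ^ ℓ ≤ 2 ^ ℓ / n * (2 * n) := by
    have h7 : 1 ≤ 2 ^ ℓ / n := (Nat.le_div_iff_mul_le hn).2 (by omega)
    have h8 := Nat.div_add_mod (2 ^ ℓ) n
    have h9 := Nat.mod_lt (2 ^ ℓ) hn
    nlinarith
  have h10 : (2 : ℝ) ^ ℓ ≤ ((2 ^ ℓ / n : ℕ) : ℝ) * (2 * n) := by exact_mod_cast h6
  rw [div_le_div_iff₀ (by positivity) (by positivity), one_mul]
  exact h10.trans (mul_le_mul_of_nonneg_right h1 (by positivity))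

theorem Gap_ind_forall {ι : Type} [Fintype ι] (p : ι → Prop) : ind (∀ i, p i) = ∏ i, ind (p i) := by
  by_cases h : ∀ i, p i
  · rw [ind_true h]
    exact (prod_eq_one fun i _ => ind_true (h i)).symm
  · rw [ind_false h]
    push Not at h
    obtain ⟨i, hi⟩ := h
    exact (prod_eq_zero (mem_univ i) (ind_false hi)).symm

theorem Ex_marks (F : (Fin 9 → Fin n) → ℝ) :
    Ex (9 * ℓ) (fun u => F (marks ℓ u)) = ∑ r : Fin 9 → Fin n, (∏ i, pv ℓ (r i)) * F r := by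
  rw [Ex_law univ (fun _ _ => mem_univ _) F]
  refine sum_congr rfl fun r _ => ?_
  congr 1
  unfold pv Pr
  rw [← Ex_prod_blk (t := 9) (B := ℓ) le_rfl fun i u => ind (Fin.ofNat n (toNat u) = r i)]
  refine Ex_congr fun u _ => ?_
  rw [← Gap_ind_forall]
  congr 1
  exact propext funext_iff

theorem Ex_prop (s : PM n × PM n) (F : PM n × PM n → ℝ) :
    Ex (1 + 9 * ℓ) (fun u => F (prop ℓ u s)) =
      (F s.swap + ∑ r : Fin 9 → Fin n, (∏ i, pv ℓ (r i)) * F (mv r s)) / 2 := by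
  rw [Nat.add_comm 1, Ex_succ, ← Ex_marks fun r => F (mv r s), add_comm]
  simp [prop]

theorem Gap_prod_rinv (r : Fin 9 → Fin n) : ∏ i, pv ℓ (rinv r i) = ∏ i, pv ℓ (r i) := by
  simp only [Fin.prod_univ_succ, Fin.prod_univ_zero]
  change pv ℓ (r 5) * (pv ℓ (r 6) * (pv ℓ (r 7) * (pv ℓ (r 8) * (pv ℓ (r 4) * (pv ℓ (r 0) *
    (pv ℓ (r 1) * (pv ℓ (r 2) * (pv ℓ (r 3) * 1)))))))) =
    pv ℓ (r 0) * (pv ℓ (r 1) * (pv ℓ (r 2) * (pv ℓ (r 3) * (pv ℓ (r 4) * (pv ℓ (r 5) *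
    (pv ℓ (r 6) * (pv ℓ (r 7) * (pv ℓ (r 8) * 1))))))))
  ring

theorem Gap_Pr_symm (s t : PM n × PM n) :
    Pr (1 + 9 * ℓ) (fun u => prop ℓ u s = t) = Pr (1 + 9 * ℓ) (fun u => prop ℓ u t = s) := by
  unfold Pr
  rw [Ex_prop s fun x => ind (x = t), Ex_prop t fun x => ind (x = s)]
  congr 2
  · congr 1
    exact propext ⟨fun h => by rw [← h, Prod.swap_swap], fun h => by rw [← h, Prod.swap_swap]⟩
  · rw [← Equiv.sum_comp (Function.Involutive.toPerm rinv rinv_rinv)]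
    refine sum_congr rfl fun r _ => ?_
    change (∏ i, pv ℓ (rinv r i)) * ind (mv (rinv r) s = t) = _
    rw [Gap_prod_rinv]
    congr 2
    refine propext ⟨fun h => ?_, fun h => by rw [← h, mv_rinv]⟩
    have := mv_rinv (rinv r) s
    rwa [rinv_rinv, h] at this

theorem flow_symm (π : PM n → ℝ) (s t : PM n × PM n) : flow ℓ π s t = flow ℓ π t s := by
  unfold flow
  rw [Gap_Pr_symm, min_comm]

theorem Gap_var {A : Type} [Fintype A] {π h : A → ℝ} (h1 : ∑ a, π a = 1)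
    (h0 : ∑ a, π a * h a = 0) :
    ∑ s : A × A, π s.1 * π s.2 * (h s.1 - h s.2) ^ 2 = 2 * ∑ a, π a * h a ^ 2 := by
  have e : ∀ a b, π a * π b * (h a - h b) ^ 2 =
      π a * h a ^ 2 * π b + π a * (π b * h b ^ 2) - 2 * (π a * h a) * (π b * h b) :=
    fun a b => by ring
  simp only [Fintype.sum_prod_type, e, sum_sub_distrib, sum_add_distrib, ← mul_sum, ← sum_mul,
    h1, h0]
  ring

theorem Gap_energy (π : PM n → ℝ) (s : PM n × PM n) (G : PM n × PM n → ℝ) :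
    ∑ t, flow ℓ π s t * G t = (π s.1 * π s.2 * G s.swap +
      ∑ r : Fin 9 → Fin n, (∏ i, pv ℓ (r i)) *
        (min (π s.1 * π s.2) (π (mv r s).1 * π (mv r s).2) * G (mv r s))) / 4 := by
  have h1 := Ex_law (n := 1 + 9 * ℓ) (g := fun u => prop ℓ u s) univ (fun _ _ => mem_univ _)
    fun t => min (π s.1 * π s.2) (π t.1 * π t.2) * G t
  rw [Ex_prop s fun t => min (π s.1 * π s.2) (π t.1 * π t.2) * G t] at h1
  have h2 : ∑ t, flow ℓ π s t * G t = (∑ t, Pr (1 + 9 * ℓ) (fun u => prop ℓ u s = t) *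
      (min (π s.1 * π s.2) (π t.1 * π t.2) * G t)) / 2 := by
    rw [sum_div]
    exact sum_congr rfl fun t _ => by unfold flow; ring
  rw [h2, ← h1, Prod.fst_swap, Prod.snd_swap, mul_comm (π s.2), min_self]
  ring

omit [NeZero n] in
theorem Gap_Xi_le {π : PM n → ℝ} (hπ : ∀ σ, 0 ≤ π σ) (f g : PM n → ℝ) :
    ∑ s, Xi π (fun σ => (f σ + g σ) / 2) (fun σ => (f σ + g σ) / 2) s ≤
      2 * ∑ s, Xi π f g s + 8 * (n : ℝ) ^ 9 *
        ∑ s : PM n × PM n, π s.1 * π s.2 * ((f s.1 - g s.1) / 2 - (f s.2 - g s.2) / 2) ^ 2 := by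
  set D : PM n × PM n → ℝ := fun s =>
    π s.1 * π s.2 * ((f s.1 - g s.1) / 2 - (f s.2 - g s.2) / 2) ^ 2 with hD
  have h1 : ∀ s, Xi π (fun σ => (f σ + g σ) / 2) (fun σ => (f σ + g σ) / 2) s ≤
      2 * Xi π f g s + ∑ r : Fin 9 → Fin n, (4 * D (mv r s) + 4 * D s) := by
    intro s
    unfold Xi
    rw [mul_sum, ← sum_add_distrib]
    refine sum_le_sum fun r _ => ?_
    simp only [hD]
    generalize mv r s = t
    set m := min (π s.1 * π s.2) (π t.1 * π t.2) with hm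
    have m0 : 0 ≤ m := le_min (mul_nonneg (hπ _) (hπ _)) (mul_nonneg (hπ _) (hπ _))
    set x := (f t.1 - g t.1) / 2 - (f t.2 - g t.2) / 2 with hx
    set y := (f s.1 - g s.1) / 2 - (f s.2 - g s.2) / 2 with hy
    set z := f t.1 + g t.2 - f s.1 - g s.2 with hz
    have e : (f t.1 + g t.1) / 2 + (f t.2 + g t.2) / 2 - (f s.1 + g s.1) / 2 -
        (f s.2 + g s.2) / 2 = z - x + y := by
      rw [hx, hy, hz]
      ring
    rw [e]
    have a1 : (z - x + y) ^ 2 ≤ 2 * z ^ 2 + 4 * x ^ 2 + 4 * y ^ 2 := by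
      nlinarith [sq_nonneg (z + x - y), sq_nonneg (x + y)]
    have a2 := mul_le_mul_of_nonneg_left a1 m0
    have a3 := mul_le_mul_of_nonneg_right (min_le_left (π s.1 * π s.2) (π t.1 * π t.2))
      (sq_nonneg y)
    have a4 := mul_le_mul_of_nonneg_right (min_le_right (π s.1 * π s.2) (π t.1 * π t.2))
      (sq_nonneg x)
    rw [← hm] at a3 a4
    linarith
  refine (sum_le_sum fun s _ => h1 s).trans (le_of_eq ?_)
  rw [sum_add_distrib, ← mul_sum, sum_comm]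
  congr 1
  have h2 : ∀ r : Fin 9 → Fin n, ∑ s, (4 * D (mv r s) + 4 * D s) = 8 * ∑ s, D s := by
    intro r
    rw [sum_add_distrib, ← mul_sum, ← mul_sum, (mv_bijective r).sum_comp D]
    ring
  simp only [h2, sum_const, card_univ, Fintype.card_fun, Fintype.card_fin, nsmul_eq_mul]
  push_cast
  ring

theorem jhyp (hn : Even n) (hℓ : Big n ℓ) {W : Fin n → Fin n → ℝ} (hW : PosW W)
    (hB : Bal (eta n / 4) W) : JHyp (gib W) (flow ℓ (gib W)) (2 ^ ℓ) := by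
  have hpos := gib_pos hn hW
  have hsum := sum_gib hn hW
  set π := gib W with hπ
  have hn0 : 0 < n := NeZero.pos n
  have hn1 : (1 : ℝ) ≤ n := by exact_mod_cast hn0
  have hw : ∀ s : PM n × PM n, 0 ≤ π s.1 * π s.2 := fun s => (mul_pos (hpos _) (hpos _)).le
  have hfl : ∀ s t, 0 ≤ flow ℓ π s t := fun s t =>
    div_nonneg (mul_nonneg (Pr_nonneg _ _) (le_min (hw s) (hw t))) (by norm_num)
  refine ⟨hpos, hsum, hfl, flow_symm π, fun s => ?_, fun f g hf hg => ?_⟩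
  · have h1 := Ex_law (n := 1 + 9 * ℓ) (g := fun u => prop ℓ u s) univ (fun _ _ => mem_univ _)
      fun _ => π s.1 * π s.2
    rw [Ex_const] at h1
    rw [h1, mul_sum]
    refine sum_le_sum fun t _ => ?_
    have := mul_le_mul_of_nonneg_left (min_le_left (π s.1 * π s.2) (π t.1 * π t.2))
      (Pr_nonneg (1 + 9 * ℓ) fun u => prop ℓ u s = t)
    unfold flow
    linarith
  have hnl : n ≤ 2 ^ ℓ := by
    refine le_trans ?_ hℓ
    calc n = 1 * n ^ 1 := by simp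
      _ ≤ 2 ^ 36 * n ^ 35 := Nat.mul_le_mul (by norm_num) (Nat.pow_le_pow_right hn0 (by norm_num))
  set E := (∑ s, ∑ t, flow ℓ π s t * (f t.1 + g t.2 - f s.1 - g s.2) ^ 2) / 2 with hE
  set a : PM n → ℝ := fun σ => (f σ + g σ) / 2 with ha
  set d : PM n → ℝ := fun σ => (f σ - g σ) / 2 with hd
  have ha0 : ∑ σ, π σ * a σ = 0 := by
    simp only [ha, ← mul_div_assoc, mul_add, ← sum_div, sum_add_distrib, hf, hg]
    norm_num
  have hd0 : ∑ σ, π σ * d σ = 0 := by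
    simp only [hd, ← mul_div_assoc, mul_sub, ← sum_div, sum_sub_distrib, hf, hg]
    norm_num
  have va := Gap_var hsum ha0
  have vd := Gap_var hsum hd0
  set A2 := ∑ σ, π σ * a σ ^ 2 with hA2
  set D2 := ∑ σ, π σ * d σ ^ 2 with hD2
  set B := ∑ s, Xi π f g s with hB'
  have hD0 : 0 ≤ D2 := sum_nonneg fun σ _ => mul_nonneg (hpos σ).le (sq_nonneg _)
  have hB0 : 0 ≤ B := sum_nonneg fun s _ => sum_nonneg fun r _ =>
    mul_nonneg (le_min (hw _) (hw _)) (sq_nonneg _)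
  have e1 : ∑ σ, π σ * f σ ^ 2 + ∑ σ, π σ * g σ ^ 2 = 2 * A2 + 2 * D2 := by
    simp only [hA2, hD2, mul_sum, ← sum_add_distrib]
    exact sum_congr rfl fun σ _ => by simp only [ha, hd]; ring
  have e2 : 8 * D2 + (1 / (2 * (n : ℝ))) ^ 9 * B ≤ 8 * E := by
    have h1 : ∀ s : PM n × PM n, 4 * (π s.1 * π s.2 * (d s.1 - d s.2) ^ 2) +
        (1 / (2 * (n : ℝ))) ^ 9 * Xi π f g s ≤
        4 * ∑ t, flow ℓ π s t * (f t.1 + g t.2 - f s.1 - g s.2) ^ 2 := by
      intro s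
      rw [Gap_energy π s fun t => (f t.1 + g t.2 - f s.1 - g s.2) ^ 2,
        mul_div_cancel₀ _ (by norm_num : (4 : ℝ) ≠ 0)]
      refine add_le_add (le_of_eq ?_) ?_
      · simp only [hd, Prod.fst_swap, Prod.snd_swap]
        ring
      · unfold Xi
        rw [mul_sum]
        refine sum_le_sum fun r _ => mul_le_mul_of_nonneg_right ?_
          (mul_nonneg (le_min (hw _) (hw _)) (sq_nonneg _))
        calc (1 / (2 * (n : ℝ))) ^ 9 = ∏ _i : Fin 9, 1 / (2 * (n : ℝ)) := by simp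
          _ ≤ _ := prod_le_prod (fun _ _ => by positivity) fun i _ => pv_ge hnl _
    have h2 := sum_le_sum fun s (_ : s ∈ univ) => h1 s
    rw [sum_add_distrib, ← mul_sum, ← mul_sum, ← mul_sum, vd] at h2
    rw [hE]
    linarith
  have hc : 0 ≤ (1 / (2 * (n : ℝ))) ^ 9 * B := by positivity
  have e3 : D2 ≤ E := by linarith
  have hE0 : 0 ≤ E := hD0.trans e3
  have e4 : B ≤ 2 ^ 12 * (n : ℝ) ^ 9 * E := by
    have h1 : (1 / (2 * (n : ℝ))) ^ 9 * B ≤ 8 * E := by linarith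
    rw [div_pow, one_pow, one_div, inv_mul_le_iff₀ (by positivity)] at h1
    refine h1.trans (le_of_eq ?_)
    ring
  have e5 := Gap_Xi_le (fun σ => (hpos σ).le) f g
  have e6 := poincare hn hW (η := eta n / 4) (by unfold eta; positivity) hB a
  have e7 : (2 : ℝ) ^ 9 * (n : ℝ) ^ 18 / (eta n / 4) ^ 3 = 2 ^ 21 * (n : ℝ) ^ 24 := by
    unfold eta
    field_simp
    ring
  rw [e7, ← hπ, va] at e6
  change ∑ s, Xi π a a s ≤ 2 * B + 8 * (n : ℝ) ^ 9 *
    ∑ s : PM n × PM n, π s.1 * π s.2 * (d s.1 - d s.2) ^ 2 at e5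
  rw [vd] at e5
  have e8 : ∑ s, Xi π a a s ≤ (2 ^ 13 + 16) * (n : ℝ) ^ 9 * E := by
    have := mul_le_mul_of_nonneg_left e3 (by positivity : (0 : ℝ) ≤ (n : ℝ) ^ 9)
    linarith
  have e9 := e6.trans (mul_le_mul_of_nonneg_left e8 (by positivity))
  have e10 : (2 : ℝ) ^ 36 * (n : ℝ) ^ 35 ≤ 2 ^ ℓ := by exact_mod_cast hℓ
  have e11 : (n : ℝ) ^ 33 ≤ (n : ℝ) ^ 35 := pow_le_pow_right₀ hn1 (by norm_num)
  have e12 : (1 : ℝ) ≤ (n : ℝ) ^ 33 := one_le_pow₀ hn1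
  have e13 : (2 : ℝ) ^ 21 * (n : ℝ) ^ 24 * ((2 ^ 13 + 16) * (n : ℝ) ^ 9 * E) =
      2 ^ 21 * (2 ^ 13 + 16) * ((n : ℝ) ^ 33 * E) := by ring
  have e14 := mul_le_mul_of_nonneg_right e10 hE0
  have e15 := mul_le_mul_of_nonneg_right e11 hE0
  have e16 := mul_le_mul_of_nonneg_right e12 hE0
  rw [e1]
  rw [e13] at e9
  rw [mul_assoc] at e14
  linarith

end Crest.Agent.R304
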