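import Crest.Agent.R304.GEDefs

/-!
# Row 304: shrunken sets and the expansion of matchings of the shrunken graph
-/

set_option autoImplicit false

namespace Crest.Agent.R304

open Finset

variable {n : ℕ} {c : Fin n → Fin n → ℕ} {π : Finset (Fin n) → ℤ}

theorem load_hOf (π : Finset (Fin n) → ℤ) (u v : Fin n) :
    load (hOf π) u v = ∑ S with (u ∈ S ↔ v ∉ S), π S := by
  unfold load hOf
  simp only [sum_filter]
  rw [mul_sum, ← sum_add_distrib, ← sum_sub_distrib]
  refine sum_congr rfl fun S _ => ?_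
  by_cases hu : u ∈ S <;> by_cases hv : v ∈ S <;> simp [hu, hv]
  ring

theorem glue_hOf_symm (π : Finset (Fin n) → ℤ) (u v : Fin n) : hOf π u v = hOf π v u := by
  unfold hOf
  simp only [and_comm]

theorem glue_mem_part {u v : Fin n} : u ∈ part π v ↔ u = v ∨ 0 < hOf π u v := by
  simp [part, same]

theorem glue_same_iff {u v : Fin n} : same (hOf π) u v = true ↔ u ∈ part π v := by
  simp [part]

theorem mem_part_self (π : Finset (Fin n) → ℤ) (v : Fin n) : v ∈ part π v :=
  glue_mem_part.2 (Or.inl rfl)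

theorem glue_part_symm {u v : Fin n} (h : u ∈ part π v) : v ∈ part π u := by
  rw [glue_mem_part] at h ⊢
  rw [glue_hOf_symm]
  exact h.imp Eq.symm id

theorem DInv.glue_nonneg (h : DInv c π) {S : Finset (Fin n)} {u v : Fin n} (huv : u ≠ v)
    (hu : u ∈ S) (hv : v ∈ S) : 0 ≤ π S :=
  h.nonneg S (one_lt_card.2 ⟨u, hu, v, hv, huv⟩).ne'

theorem DInv.glue_mem_iff (h : DInv c π) {u v : Fin n} :
    u ∈ part π v ↔ u = v ∨ ∃ S, u ∈ S ∧ v ∈ S ∧ 0 < π S := by
  rw [glue_mem_part]
  by_cases huv : u = v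
  · simp [huv]
  refine or_congr Iff.rfl ?_
  unfold hOf
  rw [sum_pos_iff_of_nonneg fun S hS =>
    h.glue_nonneg huv (mem_filter.1 hS).2.1 (mem_filter.1 hS).2.2]
  simp [and_assoc]

/-- Every set of the support containing `v` lies in the shrunken set of `v`. -/
theorem DInv.subset_part (h : DInv c π) {S : Finset (Fin n)} (hS : π S ≠ 0) {v : Fin n}
    (hv : v ∈ S) : S ⊆ part π v := by
  intro u hu
  rw [h.glue_mem_iff]
  by_cases huv : u = v
  · exact Or.inl huv
  · exact Or.inr ⟨S, hu, hv, lt_of_le_of_ne (h.glue_nonneg huv hu hv) hS.symm⟩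

theorem DInv.part_live (h : DInv c π) (v : Fin n) : 0 < π (part π v) ∨ (part π v).card = 1 := by
  by_cases h0 : (univ.filter fun S : Finset (Fin n) => v ∈ S ∧ 0 < π S).Nonempty
  · obtain ⟨S, hS, hmax⟩ := exists_max_image _ Finset.card h0
    obtain ⟨hv, hpos⟩ := (mem_filter.1 hS).2
    left
    have e : part π v = S := by
      refine Subset.antisymm (fun u hu => ?_) (h.subset_part hpos.ne' hv)
      rcases h.glue_mem_iff.1 hu with rfl | ⟨T, huT, hvT, hT⟩
      · exact hv
      rcases h.lam S T hpos.ne' hT.ne' with h1 | h1 | h1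
      · rw [eq_of_subset_of_card_le h1 (hmax T (mem_filter.2 ⟨mem_univ _, hvT, hT⟩))]
        exact huT
      · exact h1 huT
      · exact absurd hvT (disjoint_left.1 h1 hv)
    rwa [e]
  · right
    rw [card_eq_one]
    refine ⟨v, eq_singleton_iff_unique_mem.2 ⟨mem_part_self π v, fun u hu => ?_⟩⟩
    rcases h.glue_mem_iff.1 hu with h1 | ⟨T, -, hvT, hT⟩
    · exact h1
    · exact absurd ⟨T, mem_filter.2 ⟨mem_univ _, hvT, hT⟩⟩ h0

theorem DInv.part_odd (h : DInv c π) (v : Fin n) : Odd (part π v).card := by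
  rcases h.part_live v with h1 | h1
  · exact h.odd _ h1.ne'
  · rw [h1]; exact odd_one

theorem DInv.glue_part_sub (h : DInv c π) {u v : Fin n} (huv : u ∈ part π v) :
    part π v ⊆ part π u := by
  rcases h.part_live v with h1 | h1
  · exact h.subset_part h1.ne' huv
  · rw [card_le_one.1 h1.le u huv v (mem_part_self π v)]

theorem DInv.part_eq (h : DInv c π) {u v : Fin n} (huv : u ∈ part π v) : part π u = part π v :=
  Subset.antisymm (h.glue_part_sub (glue_part_symm huv)) (h.glue_part_sub huv)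

theorem glue_find (π : Finset (Fin n) → ℤ) (v : Fin n) :
    ∃ w, (List.finRange n).find? (fun u => same (hOf π) u v) = some w := by
  rw [← Option.isSome_iff_exists, List.find?_isSome]
  exact ⟨v, List.mem_finRange v, glue_same_iff.2 (mem_part_self π v)⟩

theorem DInv.rep_mem (h : DInv c π) (v : Fin n) : rep (hOf π) v ∈ part π v := by
  have _ := h
  obtain ⟨w, hw⟩ := glue_find π v
  unfold rep
  rw [hw, Option.getD_some]
  exact glue_same_iff.1 (List.find?_some (p := fun u => same (hOf π) u v) hw)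

theorem DInv.rep_eq_iff (h : DInv c π) {u v : Fin n} :
    rep (hOf π) u = rep (hOf π) v ↔ u ∈ part π v := by
  constructor
  · intro e
    rw [← h.part_eq (h.rep_mem v), ← e, h.part_eq (h.rep_mem u)]
    exact mem_part_self π u
  · intro huv
    have e : (fun w => same (hOf π) w u) = fun w => same (hOf π) w v := by
      funext w
      rw [Bool.eq_iff_iff, glue_same_iff, glue_same_iff, h.part_eq huv]
    obtain ⟨w, hw⟩ := glue_find π v
    unfold rep
    rw [e, hw, Option.getD_some, Option.getD_some]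

theorem DInv.rep_rep (h : DInv c π) (v : Fin n) : rep (hOf π) (rep (hOf π) v) = rep (hOf π) v :=
  h.rep_eq_iff.2 (h.rep_mem v)

theorem cadj_simple (hc : Symm c) (π : Finset (Fin n) → ℤ) : Simple (cadj c (hOf π)) := by
  have key : ∀ p q, cadj c (hOf π) p q = true → cadj c (hOf π) q p = true := by
    intro p q hpq
    obtain ⟨h1, a, b, ha, hb, hab⟩ := of_decide_eq_true hpq
    refine decide_eq_true ⟨h1.symm, b, a, hb, ha, ?_⟩
    rw [hc b a]
    refine hab.trans (le_of_eq ?_)
    unfold load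
    rw [glue_hOf_symm π a b]
    ring
  refine ⟨fun p q => Bool.eq_iff_iff.2 ⟨key p q, key q p⟩, fun v => ?_⟩
  exact decide_eq_false fun h => h.1 rfl

theorem DInv.cadj_rep (h : DInv c π) {p q : Fin n} (hpq : cadj c (hOf π) p q = true) :
    rep (hOf π) p = p ∧ rep (hOf π) q = q := by
  obtain ⟨-, a, b, rfl, rfl, -⟩ := of_decide_eq_true hpq
  exact ⟨h.rep_rep a, h.rep_rep b⟩

/-- Union of two matchings with disjoint supports. -/
theorem glue_comb (c : Fin n → Fin n → ℕ) {s t : Fn n} (hs : IsInv s) (ht : IsInv t)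
    (hst : ∀ v, s v = v ∨ t v = v) :
    ∃ N, IsInv N ∧ (∀ v, N v = v ↔ s v = v ∧ t v = v) ∧ cost c N = cost c s + cost c t := by
  have h1 : Closed (fun v => decide (s v = v)) s := by
    intro v
    simp only [hs v, decide_eq_decide]
    exact eq_comm
  have h2 : Closed (fun v => decide (s v = v)) t := by
    intro v
    rcases eq_or_ne (t v) v with e | e
    · simp only [e]
    · have h3 : s v = v := (hst v).resolve_right e
      have h4 : s (t v) = t v := (hst (t v)).resolve_right (by rw [ht v]; exact e.symm)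
      simp only [h3, h4]
  refine ⟨mix (fun v => decide (s v = v)) s t, mix_inv hs ht h1 h2, fun v => ?_, ?_⟩
  · unfold mix
    by_cases e : s v = v <;> simp [e]
  · have e : mix (fun v => decide (s v = v)) t s = id := by
      funext v
      unfold mix
      by_cases e : s v = v
      · simp [e]
      · simp [e, (hst v).resolve_left e]
    have h3 := cost_mix c (fun v => decide (s v = v)) s t
    rwa [e, cost_id, add_zero] at h3

/-- Splitting the dual value along two shrunken sets. -/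
theorem DInv.glue_sum (h : DInv c π) {X : Finset (Fin n)} {a b : Fin n} (o : Option (Fin n))
    (hP : part π a ⊆ X) (hQ : part π b ⊆ X) (hd : Disjoint (part π a) (part π b))
    (ho : ∀ v ∈ o, v ∉ part π a ∧ v ∉ part π b) :
    ∑ T with T ⊆ X ∧ ∀ v ∈ o, v ∉ T, π T =
      ∑ T with T ⊆ X \ (part π a ∪ part π b) ∧ ∀ v ∈ o, v ∉ T, π T +
        ∑ T with T ⊆ part π a ∧ a ∉ T, π T + ∑ T with T ⊆ part π b ∧ b ∉ T, π T +
        load (hOf π) a b := by
  rw [load_hOf]
  simp only [sum_filter, ← sum_add_distrib]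
  refine sum_congr rfl fun T _ => ?_
  by_cases hT : π T = 0
  · simp [hT]
  obtain ⟨t, ht⟩ := card_pos.1 (h.odd T hT).pos
  have hsub := h.subset_part hT ht
  have ha := mem_part_self π a
  have hb := mem_part_self π b
  by_cases h1 : t ∈ part π a
  · rw [h.part_eq h1] at hsub
    have e1 : T ⊆ X ∧ ∀ v ∈ o, v ∉ T := ⟨hsub.trans hP, fun v hv hv' => (ho v hv).1 (hsub hv')⟩
    have e2 : ¬ T ⊆ X \ (part π a ∪ part π b) :=
      fun e => (mem_sdiff.1 (e ht)).2 (mem_union_left _ h1)
    have e3 : ¬ T ⊆ part π b := fun e => disjoint_left.1 hd h1 (e ht)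
    have e4 : b ∉ T := fun e => disjoint_left.1 hd (hsub e) hb
    rw [if_pos e1]
    by_cases e5 : a ∈ T <;> simp [e2, e3, e4, e5, hsub]
  by_cases h2 : t ∈ part π b
  · rw [h.part_eq h2] at hsub
    have e1 : T ⊆ X ∧ ∀ v ∈ o, v ∉ T := ⟨hsub.trans hQ, fun v hv hv' => (ho v hv).2 (hsub hv')⟩
    have e2 : ¬ T ⊆ X \ (part π a ∪ part π b) :=
      fun e => (mem_sdiff.1 (e ht)).2 (mem_union_right _ h2)
    have e3 : ¬ T ⊆ part π a := fun e => h1 (e ht)
    have e4 : a ∉ T := fun e => disjoint_left.1 hd ha (hsub e)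
    rw [if_pos e1]
    by_cases e5 : b ∈ T <;> simp [e2, e3, e4, e5, hsub]
  have f1 : ∀ u ∈ T, u ∉ part π a := fun u hu hu' =>
    h1 (h.part_eq hu' ▸ glue_part_symm (hsub hu))
  have f2 : ∀ u ∈ T, u ∉ part π b := fun u hu hu' =>
    h2 (h.part_eq hu' ▸ glue_part_symm (hsub hu))
  have e1 : T ⊆ X \ (part π a ∪ part π b) ↔ T ⊆ X :=
    ⟨fun e => e.trans sdiff_subset, fun e u hu => mem_sdiff.2 ⟨e hu, fun hu' =>
      (mem_union.1 hu').elim (f1 u hu) (f2 u hu)⟩⟩
  have e2 : ¬ T ⊆ part π a := fun e => h1 (e ht)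
  have e3 : ¬ T ⊆ part π b := fun e => h2 (e ht)
  have e4 : a ∉ T := fun e => f1 a e ha
  have e5 : b ∉ T := fun e => f2 b e hb
  simp only [e1, e2, e3, e4, e5, false_and, if_false, add_zero, not_false_eq_true, iff_true]

/-- Expansion.  `X` is a union of shrunken sets, `τ` is a matching of the shrunken graph which
matches the representatives in `X` among themselves, except for the representative of the
optional vertex `o`. -/
theorem DInv.glue (hc : Symm c) (h : DInv c π) {τ : Fn n} (hτ : InG (cadj c (hOf π)) τ)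
    {X : Finset (Fin n)} (hX : ∀ u, u ∈ X ↔ rep (hOf π) u ∈ X) (o : Option (Fin n))
    (ho : ∀ v ∈ o, v ∈ X ∧ τ (rep (hOf π) v) = rep (hOf π) v)
    (hm : ∀ p ∈ X, rep (hOf π) p = p → (∀ v ∈ o, rep (hOf π) v ≠ p) → τ p ≠ p ∧ τ p ∈ X) :
    ∃ N, IsInv N ∧ fixs N = o.toFinset ∪ Xᶜ ∧
      2 * ((cost c N : ℕ) : ℤ) + o.toFinset.card ≤
        2 * ∑ T with T ⊆ X ∧ ∀ v ∈ o, v ∉ T, π T + X.card := by
  induction' hcard : X.card using Nat.strong_induction_on with m ih generalizing X
  subst hcard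
  by_cases hex : ∃ p ∈ X, rep (hOf π) p = p ∧ ∀ v ∈ o, rep (hOf π) v ≠ p
  · obtain ⟨p, hpX, hp, hpo⟩ := hex
    obtain ⟨hne, hqX⟩ := hm p hpX hp hpo
    obtain ⟨-, a, b, ha, hb, hab⟩ := of_decide_eq_true (hτ.2 p hne)
    have mP : ∀ u, u ∈ part π a ↔ rep (hOf π) u = p := fun u => by rw [← h.rep_eq_iff, ha]
    have mQ : ∀ u, u ∈ part π b ↔ rep (hOf π) u = τ p := fun u => by rw [← h.rep_eq_iff, hb]
    have hP : part π a ⊆ X := fun u hu => (hX u).2 (((mP u).1 hu).symm ▸ hpX)
    have hQ : part π b ⊆ X := fun u hu => (hX u).2 (((mQ u).1 hu).symm ▸ hqX)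
    have hd : Disjoint (part π a) (part π b) := disjoint_left.2 fun u h1 h2 =>
      hne (((mQ u).1 h2).symm.trans ((mP u).1 h1))
    have hoPQ : ∀ v ∈ o, v ∉ part π a ∧ v ∉ part π b := by
      intro v hv
      refine ⟨fun e => hpo v hv ((mP v).1 e), fun e => hne ?_⟩
      have h1 := (ho v hv).2
      rw [(mQ v).1 e, hτ.1 p] at h1
      exact h1.symm
    have mX : ∀ u, u ∈ X \ (part π a ∪ part π b) ↔
        u ∈ X ∧ rep (hOf π) u ≠ p ∧ rep (hOf π) u ≠ τ p := fun u => by
      rw [mem_sdiff, mem_union, not_or, mP, mQ]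
    have hcard : X.card =
        (X \ (part π a ∪ part π b)).card + (part π a).card + (part π b).card := by
      rw [add_assoc, ← card_union_of_disjoint hd, card_sdiff_add_card_eq_card (union_subset hP hQ)]
    have haP := mem_part_self π a
    have hbQ := mem_part_self π b
    have hlt : (X \ (part π a ∪ part π b)).card < X.card := by
      have := card_pos.2 ⟨a, haP⟩
      omega
    obtain ⟨N1, hN1, hf1, hc1⟩ := ih _ hlt (X := X \ (part π a ∪ part π b))
      (fun u => by rw [mX, mX, h.rep_rep, ← hX])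
      (fun v hv => ⟨mem_sdiff.2 ⟨(ho v hv).1, fun e =>
        (mem_union.1 e).elim (hoPQ v hv).1 (hoPQ v hv).2⟩, (ho v hv).2⟩)
      (fun p' hp' hr ho' => by
        obtain ⟨h1, h2, h3⟩ := (mX p').1 hp'
        obtain ⟨h4, h5⟩ := hm p' h1 hr ho'
        rw [hr] at h2 h3
        refine ⟨h4, (mX _).2 ⟨h5, ?_, ?_⟩⟩
        · rw [(h.cadj_rep (hτ.2 p' h4)).2]
          exact fun e => h3 (hτ.1.eq_iff.1 e).symm
        · rw [(h.cadj_rep (hτ.2 p' h4)).2]
          exact fun e => h2 (hτ.1.inj e)) rfl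
    obtain ⟨N2, hN2, hf2, hc2⟩ := h.crit _ (h.part_live a) a haP
    obtain ⟨N3, hN3, hf3, hc3⟩ := h.crit _ (h.part_live b) b hbQ
    have g1 : ∀ v, N1 v = v ↔ v ∈ o.toFinset ∨ v ∉ X ∨ v ∈ part π a ∨ v ∈ part π b := by
      intro v
      rw [← mem_fixs, hf1, mem_union, mem_compl, mem_sdiff, mem_union, not_and_or, not_not]
    have g2 : ∀ v, N2 v = v ↔ v = a ∨ v ∉ part π a := by
      intro v
      rw [← mem_fixs, hf2, mem_insert, mem_compl]
    have g3 : ∀ v, N3 v = v ↔ v = b ∨ v ∉ part π b := by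
      intro v
      rw [← mem_fixs, hf3, mem_insert, mem_compl]
    have hd' : ∀ v, v ∈ part π a → v ∉ part π b := fun v hv => disjoint_left.1 hd hv
    obtain ⟨N4, hN4, g4, hc4⟩ := glue_comb c hN1 hN2 (fun v => by
      rw [g1, g2]
      by_cases e : v ∈ part π a <;> simp [e])
    obtain ⟨N5, hN5, g5, hc5⟩ := glue_comb c hN4 hN3 (fun v => by
      rw [g4, g1, g2, g3]
      by_cases e : v ∈ part π b
      · have e' : v ∉ part π a := fun e' => hd' v e' e
        simp [e, e']
      · simp [e])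
    have hab' : a ≠ b := fun e => hd' a haP (e ▸ hbQ)
    have h5a : N5 a = a := by
      rw [g5, g4, g1, g2, g3]
      simp [haP, hd' a haP]
    have h5b : N5 b = b := by
      have e' : b ∉ part π a := fun e' => hd' b e' hbQ
      rw [g5, g4, g1, g2, g3]
      simp [hbQ, e']
    refine ⟨ins N5 a b, ins_inv hN5 h5a h5b, ?_, ?_⟩
    · ext v
      rw [fixs_ins hab', mem_erase, mem_erase, mem_fixs, g5, g4, g1, g2, g3, mem_union, mem_compl]
      have h1 : v ∈ o.toFinset → v ∉ part π a ∧ v ∉ part π b :=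
        fun e => hoPQ v (Option.mem_toFinset.1 e)
      have h2 : v ∈ part π a → v ∈ X := fun e => hP e
      have h3 : v ∈ part π b → v ∈ X := fun e => hQ e
      have h4 : v = a → v ∈ part π a := fun e => e ▸ haP
      have h5 : v = b → v ∈ part π b := fun e => e ▸ hbQ
      generalize (v ∈ o.toFinset) = p1, (v ∈ part π a) = p2, (v ∈ part π b) = p3,
        (v ∈ X) = p4 at h1 h2 h3 h4 h5 ⊢
      rw [ne_eq, ne_eq]
      generalize (v = a) = p5, (v = b) = p6 at h4 h5 ⊢
      clear * - h1 h2 h3 h4 h5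
      tauto
    · rw [cost_ins hc hN5 h5a h5b hab', hc5, hc4, h.glue_sum o hP hQ hd hoPQ, hcard]
      push_cast
      linarith
  · push Not at hex
    cases o with
    | none =>
      have e : X = ∅ := eq_empty_of_forall_notMem fun u hu => by
        simpa using hex _ ((hX u).1 hu) (h.rep_rep u)
      subst e
      refine ⟨id, fun _ => rfl, by ext v; simp [mem_fixs], ?_⟩
      rw [cost_id]
      have : 0 ≤ ∑ T with T ⊆ (∅ : Finset (Fin n)) ∧ ∀ v ∈ (none : Option (Fin n)), v ∉ T, π T :=
        sum_nonneg fun T hT => h.nonneg T (by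
          rw [subset_empty.1 (mem_filter.1 hT).2.1]; simp)
      simpa using this
    | some v =>
      have e : X = part π v := by
        ext u
        constructor
        · intro hu
          obtain ⟨w, hw, e⟩ := hex _ ((hX u).1 hu) (h.rep_rep u)
          rw [← Option.mem_some_iff.1 hw] at e
          exact h.rep_eq_iff.1 e.symm
        · intro hu
          rw [hX, h.rep_eq_iff.2 hu, ← hX]
          exact (ho v rfl).1
      subst e
      obtain ⟨N, hN, hf, hcN⟩ := h.crit _ (h.part_live v) v (mem_part_self π v)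
      refine ⟨N, hN, by rw [hf]; ext u; simp, ?_⟩
      simpa using hcN

end Crest.Agent.R304
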