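import Crest.Agent.R304.Bridge
import Crest.Agent.R304.Ent

/-!
# Row 304: the entropy lower bound for the total weight of perfect matchings
-/

set_option autoImplicit false

namespace Crest.Agent.R304

open Finset

variable {n : ℕ}

namespace Haf

open Crest.Matchings

/-- The Gibbs variational inequality. -/
theorem gibbs {ι : Type} [Fintype ι] {q W : ι → ℝ} (hq0 : ∀ i, 0 ≤ q i) (hq1 : ∑ i, q i = 1)
    (hW0 : ∀ i, 0 ≤ W i) (hW : ∀ i, q i ≠ 0 → 0 < W i) (hZ : 0 < ∑ i, W i) :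
    ∑ i, Real.negMulLog (q i) + ∑ i, q i * Real.log (W i) ≤ Real.log (∑ i, W i) := by
  set Z := ∑ i, W i with hZd
  have h1 : ∀ i, Real.negMulLog (q i) + q i * Real.log (W i) ≤
      q i * Real.log Z + (W i / Z - q i) := by
    intro i
    rcases (hq0 i).eq_or_lt with h | h
    · rw [← h]
      have : 0 ≤ W i / Z := div_nonneg (hW0 i) hZ.le
      simpa using this
    · have hWi := hW i h.ne'
      have h2 := Real.log_le_sub_one_of_pos (x := W i / (q i * Z)) (by positivity)
      rw [Real.log_div hWi.ne' (by positivity), Real.log_mul h.ne' hZ.ne'] at h2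
      have h3 := mul_le_mul_of_nonneg_left h2 h.le
      have h4 : q i * (W i / (q i * Z) - 1) = W i / Z - q i := by field_simp
      rw [h4] at h3
      rw [Real.negMulLog_def]
      linarith
  have h2 := Finset.sum_le_sum fun i (_ : i ∈ Finset.univ) => h1 i
  rw [Finset.sum_add_distrib, Finset.sum_add_distrib, Finset.sum_sub_distrib, ← Finset.sum_mul,
    ← Finset.sum_div, hq1, ← hZd, div_self hZ.ne'] at h2
  linarith

theorem sum_range {ι κ : Type} [Fintype ι] [Fintype κ] {E : ι → κ} (hE : Function.Injective E)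
    (F : κ → ℝ) (h : ∀ M, F M ≠ 0 → ∃ σ, E σ = M) : ∑ M, F M = ∑ σ, F (E σ) :=
  (Fintype.sum_of_injective E hE _ F (fun M hM => by
    by_contra h0
    exact hM (h M h0)) fun _ => rfl).symm

/-- The expectation of an additive function. -/
theorem exp_cost (q : PM n → ℝ) (c : Fin n → Fin n → ℝ) :
    ∑ σ : PM n, q σ * cost c σ.1 =
      ∑ u, ∑ v, if u < v then (∑ σ : PM n, if σ.1 u = v then q σ else 0) * c u v else 0 := by
  have e : ∀ σ : PM n, cost c σ.1 = ∑ u, if u < σ.1 u then c u (σ.1 u) else 0 := fun _ => rfl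
  simp only [e, Finset.mul_sum]
  rw [Finset.sum_comm]
  refine Finset.sum_congr rfl fun u _ => ?_
  have e2 : ∀ v, (if u < v then (∑ σ : PM n, if σ.1 u = v then q σ else 0) * c u v else 0) =
      ∑ σ : PM n, if σ.1 u = v then q σ * (if u < v then c u v else 0) else 0 := by
    intro v
    by_cases h : u < v
    · simp only [if_pos h, Finset.sum_mul, ite_mul, zero_mul]
    · simp [if_neg h]
  simp only [e2]
  rw [Finset.sum_comm]
  refine Finset.sum_congr rfl fun σ _ => ?_
  rw [Finset.sum_ite_eq]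
  simp

theorem wt_pos' {w : Fin n → Fin n → ℝ} {σ : Fn n} (h : ∀ v, v < σ v → 0 < w v (σ v)) :
    0 < wt w σ ∧ Real.log (wt w σ) = cost (fun u v => Real.log (w u v)) σ := by
  have e : wt w σ = ∏ v, if v < σ v then w v (σ v) else 1 := rfl
  have e' : cost (fun u v => Real.log (w u v)) σ =
      ∑ v, if v < σ v then Real.log (w v (σ v)) else 0 := rfl
  have h1 : ∀ v, 0 < (if v < σ v then w v (σ v) else 1) := fun v => by
    split_ifs with hv
    · exact h v hv
    · exact one_pos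
  rw [e, e']
  refine ⟨Finset.prod_pos fun v _ => h1 v, ?_⟩
  rw [Real.log_prod fun v _ => (h1 v).ne']
  refine Finset.sum_congr rfl fun v _ => ?_
  split_ifs <;> simp

theorem wt_nonneg' {w : Fin n → Fin n → ℝ} (hw : ∀ u v, 0 ≤ w u v) (σ : Fn n) : 0 ≤ wt w σ := by
  have e : wt w σ = ∏ v, if v < σ v then w v (σ v) else 1 := rfl
  rw [e]
  refine Finset.prod_nonneg fun v _ => ?_
  split_ifs
  · exact hw _ _
  · exact zero_le_one

theorem marginal_eq {k : ℕ} {ends : Fin k → Fin n × Fin n} {E : PM n → Finset (Fin k)}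
    (hE : Function.Injective E) (hm : ∀ σ e, e ∈ E σ ↔ σ.1 (ends e).1 = (ends e).2)
    {q : Finset (Fin k) → ℝ} (hq : ∀ M, q M ≠ 0 → ∃ σ, E σ = M) (e : Fin k) :
    marginal q e = ∑ σ : PM n, if σ.1 (ends e).1 = (ends e).2 then q (E σ) else 0 := by
  have e1 : marginal q e = ∑ M ∈ Finset.univ.filter (fun M => e ∈ M), q M := rfl
  rw [e1, Finset.sum_filter, sum_range hE _ (fun M hM => hq M (fun h0 => hM (by simp [h0])))]
  simp only [hm]

/-- A law on perfect matchings with the given marginals and large entropy. -/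
theorem exists_law (hn : 0 < n) {p : PM n → ℝ} (hp0 : ∀ σ, 0 ≤ p σ) (hp1 : ∑ σ, p σ = 1)
    {x : Fin n → Fin n → ℝ} (hx : ∀ u v, x u v = ∑ σ : PM n, if σ.1 u = v then p σ else 0) :
    ∃ q : PM n → ℝ, (∀ σ, 0 ≤ q σ) ∧ ∑ σ, q σ = 1 ∧
      (∀ u v, u < v → (∑ σ : PM n, if σ.1 u = v then q σ else 0) = x u v) ∧
      (∑ u, ∑ v, if u < v then Real.negMulLog (x u v) else 0) ≤
        ∑ σ, Real.negMulLog (q σ) + n := by
  classical
  obtain ⟨σ₀, -, -⟩ : ∃ σ ∈ (Finset.univ : Finset (PM n)), p σ ≠ 0 :=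
    Finset.exists_ne_zero_of_sum_ne_zero (by rw [hp1]; exact one_ne_zero)
  obtain ⟨m, hm⟩ := σ₀.2.even
  rw [← two_mul] at hm
  subst hm
  have hm1 : 1 ≤ m := by omega
  obtain ⟨k, ends, E, hlt, hsum, hE, hPM, hmem⟩ := exists_ends (2 * m)
  set P : Finset (Fin k) → ℝ := fun M => ∑ σ, if E σ = M then p σ else 0 with hP
  have hPE : ∀ σ, P (E σ) = p σ := fun σ => by
    simp only [hP, hE.eq_iff]
    rw [Finset.sum_ite_eq']; simp
  have hPr : ∀ M, P M ≠ 0 → ∃ σ, E σ = M := fun M hM => by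
    obtain ⟨σ, -, h⟩ := Finset.exists_ne_zero_of_sum_ne_zero hM
    exact ⟨σ, by by_contra h0; exact h (if_neg h0)⟩
  have hlaw : IsMatchingLaw ends P := by
    refine ⟨fun M => Finset.sum_nonneg fun σ _ => ?_, ?_, fun M hM => (hPM M).2 (hPr M hM)⟩
    · split_ifs
      · exact hp0 σ
      · exact le_rfl
    · rw [sum_range hE P hPr]; simp only [hPE]; exact hp1
  have hmP : ∀ e, marginal P e = x (ends e).1 (ends e).2 := fun e => by
    rw [marginal_eq hE hmem hPr, hx]; simp only [hPE]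
  obtain ⟨q, hq, hqm, hent⟩ := entropy_bound m hm1 k ends (fun e => (hlt e).ne) P hlaw
  have hqr : ∀ M, q M ≠ 0 → ∃ σ, E σ = M := fun M hM => (hPM M).1 (hq.2.2 M hM)
  refine ⟨fun σ => q (E σ), fun σ => hq.1 _, ?_, fun u v huv => ?_, ?_⟩
  · rw [← sum_range hE q hqr]; exact hq.2.1
  · obtain ⟨e, he1, he2⟩ : ∃ e, (ends e).1 = u ∧ (ends e).2 = v := by
      by_contra hc
      have h1 := hsum (R := ℕ) (fun a b => if a = u ∧ b = v then 1 else 0)
      rw [Finset.sum_eq_zero (fun e _ => if_neg fun h => hc ⟨e, h⟩)] at h1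
      have h2 := Finset.sum_eq_zero_iff.1
        (Finset.sum_eq_zero_iff.1 h1.symm u (Finset.mem_univ _)) v (Finset.mem_univ _)
      simp [huv] at h2
    rw [← he1, ← he2, ← hmP, ← hqm, marginal_eq hE hmem hqr]
  · have hx0 : ∀ u v, 0 ≤ x u v := fun u v => by
      rw [hx]
      refine Finset.sum_nonneg fun σ _ => ?_
      split_ifs
      · exact hp0 σ
      · exact le_rfl
    have hx1 : ∀ u v, x u v ≤ 1 := fun u v => by
      rw [hx, ← hp1]
      refine Finset.sum_le_sum fun σ _ => ?_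
      split_ifs
      · exact le_rfl
      · exact hp0 σ
    have hsx : ∑ e, x (ends e).1 (ends e).2 = m := by
      have h1 := exp_cost p (fun _ _ => (1 : ℝ))
      simp only [cost_const, ← hx, mul_one] at h1
      rw [hsum x, ← h1, ← Finset.sum_mul, hp1, Nat.mul_div_cancel_left m (by norm_num)]
      simp
    simp only [hmP] at hent
    have hB0 : 0 ≤ ∑ e, Real.negMulLog (1 - x (ends e).1 (ends e).2) :=
      Finset.sum_nonneg fun e _ => Real.negMulLog_nonneg (by linarith [hx1 (ends e).1 (ends e).2])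
        (by linarith [hx0 (ends e).1 (ends e).2])
    have hB1 : ∑ e, Real.negMulLog (1 - x (ends e).1 (ends e).2) ≤ m := by
      rw [← hsx]
      refine Finset.sum_le_sum fun e _ => ?_
      have := Real.negMulLog_le_one_sub_self (x := 1 - x (ends e).1 (ends e).2)
        (by linarith [hx1 (ends e).1 (ends e).2])
      linarith
    have e1 : lawEntropy q = ∑ σ, Real.negMulLog (q (E σ)) :=
      sum_range hE (fun M => Real.negMulLog (q M))
        (fun M hM => hqr M fun h0 => hM (by simp [h0]))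
    rw [← hsum fun u v => Real.negMulLog (x u v), ← e1]
    have h2 : (0 : ℝ) ≤ 2 / (m : ℝ) := by positivity
    have h3 := mul_nonneg h2 hB0
    push_cast
    nlinarith

end Haf

/-- Let `x` be the marginals of a law `p` on perfect matchings of positive weight.  Then
`log Z ≥ ∑ x log w + ∑ -x log x - n`. -/
theorem haf_lower (hn : 0 < n) {w : Fin n → Fin n → ℝ} (hw : ∀ u v, 0 ≤ w u v) {p : PM n → ℝ}
    (hp0 : ∀ σ, 0 ≤ p σ) (hp1 : ∑ σ, p σ = 1) (hpw : ∀ σ, p σ ≠ 0 → ∀ v, 0 < w v (σ.1 v))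
    {x : Fin n → Fin n → ℝ} (hx : ∀ u v, x u v = ∑ σ : PM n, if σ.1 u = v then p σ else 0) :
    0 < ZZ w ∧
    (∑ u, ∑ v, if u < v then x u v * Real.log (w u v) + Real.negMulLog (x u v) else 0) ≤
      Real.log (ZZ w) + n := by
  obtain ⟨σ₀, -, h0⟩ : ∃ σ ∈ (Finset.univ : Finset (PM n)), p σ ≠ 0 :=
    Finset.exists_ne_zero_of_sum_ne_zero (by rw [hp1]; exact one_ne_zero)
  have eZ : ZZ w = ∑ σ : PM n, wt w σ.1 := rfl
  have hZ : 0 < ∑ σ : PM n, wt w σ.1 :=
    Finset.sum_pos' (fun σ _ => Haf.wt_nonneg' hw σ.1)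
      ⟨σ₀, Finset.mem_univ _, (Haf.wt_pos' fun v _ => hpw σ₀ h0 v).1⟩
  rw [eZ]
  refine ⟨hZ, ?_⟩
  obtain ⟨q, hq0, hq1, hqx, hent⟩ := Haf.exists_law hn hp0 hp1 hx
  have hpos : ∀ σ : PM n, q σ ≠ 0 → ∀ v, v < σ.1 v → 0 < w v (σ.1 v) := by
    intro σ hσ v hv
    have h1 : q σ ≤ x v (σ.1 v) := by
      rw [← hqx v _ hv]
      refine le_trans (le_of_eq (if_pos rfl).symm) (Finset.single_le_sum
        (f := fun τ : PM n => if τ.1 v = σ.1 v then q τ else 0) (fun τ _ => ?_) (Finset.mem_univ σ))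
      split_ifs
      · exact hq0 τ
      · exact le_rfl
    have h2 : x v (σ.1 v) ≠ 0 := (lt_of_lt_of_le (lt_of_le_of_ne (hq0 σ) hσ.symm) h1).ne'
    rw [hx] at h2
    obtain ⟨τ, -, h3⟩ := Finset.exists_ne_zero_of_sum_ne_zero h2
    by_cases h4 : τ.1 v = σ.1 v
    · rw [if_pos h4] at h3
      rw [← h4]; exact hpw τ h3 v
    · exact absurd (if_neg h4) h3
  have hG := Haf.gibbs (W := fun σ : PM n => wt w σ.1) hq0 hq1
    (fun σ => Haf.wt_nonneg' hw σ.1) (fun σ hσ => (Haf.wt_pos' (hpos σ hσ)).1) hZ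
  have e1 : ∑ σ : PM n, q σ * Real.log (wt w σ.1) =
      ∑ u, ∑ v, if u < v then x u v * Real.log (w u v) else 0 := by
    have e2 : ∀ σ : PM n, q σ * Real.log (wt w σ.1) =
        q σ * cost (fun u v => Real.log (w u v)) σ.1 := fun σ => by
      by_cases h : q σ = 0
      · simp [h]
      · rw [(Haf.wt_pos' (hpos σ h)).2]
    simp only [e2]
    rw [Haf.exp_cost]
    refine Finset.sum_congr rfl fun u _ => Finset.sum_congr rfl fun v _ => ?_
    split_ifs with h
    · rw [hqx u v h]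
    · rfl
  have e3 : (∑ u, ∑ v, if u < v then x u v * Real.log (w u v) + Real.negMulLog (x u v) else 0) =
      (∑ u, ∑ v, if u < v then x u v * Real.log (w u v) else 0) +
        ∑ u, ∑ v, if u < v then Real.negMulLog (x u v) else 0 := by
    simp only [← Finset.sum_add_distrib]
    refine Finset.sum_congr rfl fun u _ => Finset.sum_congr rfl fun v _ => ?_
    split_ifs <;> simp
  rw [e3, ← e1]
  linarith

end Crest.Agent.R304
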