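import Crest.Agent.R304.DP
import Crest.Agent.R304.GESat

/-!
# Row 304: the operations on matchings and the saturation run in polynomial time
-/

set_option autoImplicit false

namespace Crest.Agent.R304

open Finset Crest.Agent.Lib.PolyTime

variable {α : Type} [PEnc α] {n : α → ℕ}

namespace ImplA

theorem dtrue {f : α → Bool} (hf : Poly f) : Poly fun a => decide (f a = true) :=
  hf.decide_of_iff fun _ => Iff.rfl

theorem dp_grow (hn : Poly n) (hb : PB n) {R : ∀ a, Gr (n a)} {K : ∀ a, Fin (n a) → Bool}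
    (hR : DP R) (hK : DP K) : DP fun a => grow (R a) (K a) := by
  have h1 : Poly fun p : Σ a, Fin (n a) => K p.1 p.2 := ((hK.comp poly_fst).app DP.snd).poly
  have g : Poly fun q : Σ p : (Σ a, Fin (n a)), Fin (n p.1) => q.1.1 := poly_fst.comp poly_fst
  have hw : DP fun q : Σ p : (Σ a, Fin (n a)), Fin (n p.1) => q.2 := DP.snd
  have hu : DP fun q : Σ p : (Σ a, Fin (n a)), Fin (n p.1) => q.1.2 := DP.snd.comp poly_fst
  have h2 : Poly fun q : Σ p : (Σ a, Fin (n a)), Fin (n p.1) => K q.1.1 q.2 :=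
    ((hK.comp g).app hw).poly
  have h3 : Poly fun q : Σ p : (Σ a, Fin (n a)), Fin (n p.1) => R q.1.1 q.2 q.1.2 :=
    (((hR.comp g).app hw).app hu).poly
  have h4 : Poly fun p : Σ a, Fin (n a) =>
      decide (∃ w, K p.1 w = true ∧ R p.1 w p.2 = true) :=
    Poly.decide_exists_fin (n := fun p : Σ a, Fin (n a) => n p.1)
      (p := fun p w => K p.1 w = true ∧ R p.1 w p.2 = true) (hn.comp poly_fst) (hb.comp poly_fst)
      ((dtrue h2).decide_and (dtrue h3))
  exact DP.fn' hn hb (h1.or h4)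

theorem dp_swap {u v w : ∀ a, Fin (n a)} (hu : DP u) (hv : DP v) (hw : DP w) :
    DP fun a => Equiv.swap (u a) (v a) (w a) :=
  (DP.ite (DP.decide_eq hw hu) hv (DP.ite (DP.decide_eq hw hv) hu hw)).congr fun a => by
    rw [Equiv.swap_apply_def]

theorem dp_fin {m : ℕ} (i : Fin m) : DP (β := fun _ : α => Fin m) fun _ => i :=
  DP.of_poly (poly_const i)

theorem dp_toList {β : α → Type} [∀ a, PEnc (β a)] {o : ∀ a, Option (β a)} (ho : DP o) :
    DP fun a => (o a).toList :=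
  (ho.optionElim (g := fun _ x => [x]) DP.nil (DP.snd.cons DP.nil)).congr fun a => by
    cases o a <;> rfl

end ImplA

open ImplA

theorem dp_reach (hn : Poly n) (hb : PB n) {R : ∀ a, Gr (n a)} {v : ∀ a, Fin (n a)} (hR : DP R)
    (hv : DP v) : DP fun a => reach (R a) (v a) := by
  have h0 : DP fun a => (fun u => decide (u = v a) : Fin (n a) → Bool) :=
    DP.fn' hn hb (DP.decide_eq DP.snd (hv.comp poly_fst))
  have hs : DP fun p : Σ a, (Fin (n a) → Bool) => grow (R p.1) p.2 :=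
    dp_grow (n := fun p : Σ a, (Fin (n a) → Bool) => n p.1) (hn.comp poly_fst) (hb.comp poly_fst)
      (hR.comp poly_fst) DP.snd
  exact DP.iterate_inv (step := fun a => grow (R a)) h0 hs hn hb
    ((hb.mul (PB.const 4)).add (PB.const 1)) fun a i _ => sz_mask_le _

theorem dp_orb (hn : Poly n) (hb : PB n) {σ τ : ∀ a, Fn (n a)} {v : ∀ a, Fin (n a)} (hσ : DP σ)
    (hτ : DP τ) (hv : DP v) : DP fun a => orb (σ a) (τ a) (v a) := by
  have g : Poly fun q : Σ p : (Σ a, Fin (n a)), Fin (n p.1) => q.1.1 := poly_fst.comp poly_fst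
  have hw : DP fun q : Σ p : (Σ a, Fin (n a)), Fin (n p.1) => q.2 := DP.snd
  have hu : DP fun q : Σ p : (Σ a, Fin (n a)), Fin (n p.1) => q.1.2 := DP.snd.comp poly_fst
  have h : DP fun a => (fun x y => decide (y = σ a x ∨ y = τ a x) : Gr (n a)) :=
    DP.fn₂ hn hb hn hb ((DP.decide_eq hw ((hσ.comp g).app hu)).decide_or
      (DP.decide_eq hw ((hτ.comp g).app hu)))
  exact dp_reach hn hb h hv

theorem dp_mix (hn : Poly n) (hb : PB n) {K : ∀ a, Fin (n a) → Bool} {σ τ : ∀ a, Fn (n a)}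
    (hK : DP K) (hσ : DP σ) (hτ : DP τ) : DP fun a => mix (K a) (σ a) (τ a) := by
  have h1 : Poly fun p : Σ a, Fin (n a) => K p.1 p.2 := ((hK.comp poly_fst).app DP.snd).poly
  have h2 : DP fun p : Σ a, Fin (n a) => σ p.1 p.2 := (hσ.comp poly_fst).app DP.snd
  have h3 : DP fun p : Σ a, Fin (n a) => τ p.1 p.2 := (hτ.comp poly_fst).app DP.snd
  exact DP.fn hn hb (DP.cond h1 h3 h2)

theorem dp_rem (hn : Poly n) (hb : PB n) {σ : ∀ a, Fn (n a)} {u : ∀ a, Fin (n a)} (hσ : DP σ)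
    (hu : DP u) : DP fun a => rem (σ a) (u a) := by
  have hv : DP fun p : Σ a, Fin (n a) => p.2 := DP.snd
  have h1 : DP fun p : Σ a, Fin (n a) => u p.1 := hu.comp poly_fst
  have h2 : DP fun p : Σ a, Fin (n a) => σ p.1 p.2 := (hσ.comp poly_fst).app DP.snd
  have h3 : DP fun p : Σ a, Fin (n a) => σ p.1 (u p.1) := (hσ.app hu).comp poly_fst
  exact DP.fn hn hb (DP.ite (p := fun p : Σ a, Fin (n a) => p.2 = u p.1 ∨ p.2 = σ p.1 (u p.1))
    ((DP.decide_eq hv h1).decide_or (DP.decide_eq hv h3)) hv h2)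

theorem dp_ins (hn : Poly n) (hb : PB n) {σ : ∀ a, Fn (n a)} {u v : ∀ a, Fin (n a)} (hσ : DP σ)
    (hu : DP u) (hv : DP v) : DP fun a => ins (σ a) (u a) (v a) := by
  have hw : DP fun p : Σ a, Fin (n a) => p.2 := DP.snd
  have h1 : DP fun p : Σ a, Fin (n a) => u p.1 := hu.comp poly_fst
  have h2 : DP fun p : Σ a, Fin (n a) => σ p.1 p.2 := (hσ.comp poly_fst).app DP.snd
  have h3 : DP fun p : Σ a, Fin (n a) => v p.1 := hv.comp poly_fst
  exact DP.fn hn hb (DP.ite (DP.decide_eq hw h1) h3 (DP.ite (DP.decide_eq hw h3) h1 h2))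

theorem dp_cj (hn : Poly n) (hb : PB n) {σ : ∀ a, Fn (n a)} {u v : ∀ a, Fin (n a)} (hσ : DP σ)
    (hu : DP u) (hv : DP v) : DP fun a => cj (u a) (v a) (σ a) := by
  have hw : DP fun p : Σ a, Fin (n a) => p.2 := DP.snd
  have h1 : DP fun p : Σ a, Fin (n a) => u p.1 := hu.comp poly_fst
  have h3 : DP fun p : Σ a, Fin (n a) => v p.1 := hv.comp poly_fst
  have h2 : DP fun p : Σ a, Fin (n a) => σ p.1 (Equiv.swap (u p.1) (v p.1) p.2) :=
    (hσ.comp poly_fst).app (dp_swap (n := fun p : Σ a, Fin (n a) => n p.1) h1 h3 hw)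
  exact DP.fn hn hb (dp_swap (n := fun p : Σ a, Fin (n a) => n p.1) h1 h3 h2)

theorem dp_cjP (hn : Poly n) (hb : PB n) {σ : ∀ a, PM (n a)} {u v : ∀ a, Fin (n a)} (hσ : DP σ)
    (hu : DP u) (hv : DP v) : DP fun a => cjP (u a) (v a) (σ a) := by
  exact DP.mk' (dp_cj hn hb hσ.val' hu hv) _

theorem dp_force (hn : Poly n) (hb : PB n) {σ : ∀ a, PM (n a)} {u v : ∀ a, Fin (n a)} (hσ : DP σ)
    (hu : DP u) (hv : DP v) : DP fun a => force (σ a) (u a) (v a) := by
  exact dp_cjP hn hb hσ (hσ.val'.app hu) hv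

theorem dp_kem (hn : Poly n) (hb : PB n) {s : ∀ a, PM (n a) × PM (n a)} {v : ∀ a, Fin (n a)}
    (hs : DP s) (hv : DP v) : DP fun a => kem (v a) (s a) := by
  have h1 : DP fun a => (s a).1.1 := hs.fst.val'
  have h2 : DP fun a => (s a).2.1 := hs.snd'.val'
  have h3 := dp_orb hn hb h1 h2 hv
  exact DP.pair (DP.mk' (dp_mix hn hb h3 h1 h2) _) (DP.mk' (dp_mix hn hb h3 h2 h1) _)

theorem dp_mv (hn : Poly n) (hb : PB n) {s : ∀ a, PM (n a) × PM (n a)}
    {r : ∀ a, Fin 9 → Fin (n a)} (hr : DP r) (hs : DP s) : DP fun a => mv (r a) (s a) := by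
  have h : ∀ i : Fin 9, DP fun a => r a i := fun i =>
    DP.app (n := fun _ => 9) (β := fun a => Fin (n a)) hr (dp_fin i)
  have h1 := dp_kem hn hb ((dp_cjP hn hb hs.fst (h 0) (h 1)).pair
    (dp_cjP hn hb hs.snd' (h 2) (h 3))) (h 4)
  exact (dp_cjP hn hb h1.fst (h 5) (h 6)).pair (dp_cjP hn hb h1.snd' (h 7) (h 8))

theorem dp_sig0 (hn : Poly n) (hb : PB n) (h : ∀ a, Even (n a)) : DP fun a => sig0 (h a) := by
  have hw : DP fun p : Σ a, Fin (n a) => p.2 := DP.snd
  have hv : Poly fun p : Σ a, Fin (n a) => (p.2 : ℕ) := hw.val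
  refine DP.fn hn hb (DP.fin_iff.2 ?_)
  refine (Poly.ite (p := fun p : Σ a, Fin (n a) => (p.2 : ℕ) % 2 = 0)
    (Poly.decide_eq (hv.mod (poly_const 2)) (poly_const 0)) (hv.add (poly_const 1))
    (hv.sub (poly_const 1))).congr fun p => ?_
  unfold sig0
  split_ifs <;> rfl

theorem poly_nfix (hn : Poly n) (hb : PB n) {σ : ∀ a, Fn (n a)} (hσ : DP σ) :
    Poly fun a => nfix (σ a) := by
  have h2 : DP fun p : Σ a, Fin (n a) => σ p.1 p.2 := (hσ.comp poly_fst).app DP.snd
  exact Poly.card_filter_fin (p := fun a v => σ a v = v) hn hb (DP.decide_eq h2 DP.snd)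

theorem poly_cost {R : Type} [PEnc R] [AddCommMonoid R] [Mul R] [PArith R] (hn : Poly n) (hb : PB n)
    {c : ∀ a, Fin (n a) → Fin (n a) → R} {σ : ∀ a, Fn (n a)} (hc : DP c) (hσ : DP σ) :
    Poly fun a => cost (c a) (σ a) := by
  have hw : DP fun p : Σ a, Fin (n a) => p.2 := DP.snd
  have h2 : DP fun p : Σ a, Fin (n a) => σ p.1 p.2 := (hσ.comp poly_fst).app DP.snd
  have h3 : Poly fun p : Σ a, Fin (n a) => c p.1 p.2 (σ p.1 p.2) :=
    (((hc.comp poly_fst).app hw).app h2).poly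
  exact Poly.sum_fin (f := fun a v => if v < σ a v then c a v (σ a v) else 0) hn hb
    (Poly.ite (DP.decide_lt (n := fun p : Σ a, Fin (n a) => n p.1) hw h2) h3 (poly_const 0))

theorem poly_z0 (hn : Poly n) (hb : PB n) : Poly fun a => z0 (n a) := by
  exact (((hn.div (poly_const 2)).range (hb.div _)).map (f := fun _ i => 2 * i + 1)
    (((poly_const 2).mul Poly.id'.snd).add (poly_const 1))).listProd

namespace ImplA

theorem dp_cands (hn : Poly n) (hb : PB n) {adj : ∀ a, Gr (n a)} {T : ∀ a, List (Fn (n a))}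
    (h : DP adj) (hT : DP T) : DP fun a => cands (adj a) (T a) := by
  let A1 : Type := Σ a, Fn (n a)
  let A2 : Type := Σ p : A1, Fin (n p.1)
  have g1 : Poly fun p : A1 => p.1 := poly_fst
  have g2 : Poly fun q : A2 => q.1.1 := g1.comp poly_fst
  have hσ : DP fun q : A2 => q.1.2 := DP.snd.comp poly_fst
  have hu : DP fun q : A2 => q.2 := DP.snd
  have g3 : Poly fun r : Σ q : A2, Fin (n q.1.1) => r.1.1.1 := g2.comp poly_fst
  have hσ3 : DP fun r : Σ q : A2, Fin (n q.1.1) => r.1.1.2 := hσ.comp poly_fst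
  have hu3 : DP fun r : Σ q : A2, Fin (n q.1.1) => r.1.2 := hu.comp poly_fst
  have hv3 : DP fun r : Σ q : A2, Fin (n q.1.1) => r.2 := DP.snd
  have h1 : DP fun r : Σ q : A2, Fin (n q.1.1) => rem (rem r.1.1.2 r.1.2) r.2 :=
    dp_rem (hn.comp g3) (hb.comp g3) (dp_rem (hn.comp g3) (hb.comp g3) hσ3 hu3) hv3
  have h2 : DP fun r : Σ q : A2, Fin (n q.1.1) => ins r.1.1.2 r.1.2 r.2 :=
    dp_ins (hn.comp g3) (hb.comp g3) hσ3 hu3 hv3
  have h3 : Poly fun r : Σ q : A2, Fin (n q.1.1) => adj r.1.1.1 r.1.2 r.2 :=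
    (((h.comp g3).app hu3).app hv3).poly
  have h4 : DP fun r : Σ q : A2, Fin (n q.1.1) => rem (rem r.1.1.2 r.1.2) r.2 ::
      if r.1.1.2 r.1.2 = r.1.2 ∧ r.1.1.2 r.2 = r.2 ∧ adj r.1.1.1 r.1.2 r.2 = true then
        [ins r.1.1.2 r.1.2 r.2] else [] :=
    h1.cons (DP.ite ((DP.decide_eq (hσ3.app hu3) hu3).decide_and
      ((DP.decide_eq (hσ3.app hv3) hv3).decide_and (dtrue h3))) (h2.cons DP.nil) DP.nil)
  have g4 : Poly fun r : Σ q : A2, Fn (n q.1.1) => r.1.1.1 := g2.comp poly_fst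
  have hσ4 : DP fun r : Σ q : A2, Fn (n q.1.1) => r.1.1.2 := hσ.comp poly_fst
  have hu4 : DP fun r : Σ q : A2, Fn (n q.1.1) => r.1.2 := hu.comp poly_fst
  have hτ4 : DP fun r : Σ q : A2, Fn (n q.1.1) => r.2 := DP.snd
  have h5 : DP fun r : Σ q : A2, Fn (n q.1.1) => mix (orb r.1.1.2 r.2 r.1.2) r.1.1.2 r.2 :=
    dp_mix (hn.comp g4) (hb.comp g4) (dp_orb (hn.comp g4) (hb.comp g4) hσ4 hτ4 hu4) hσ4 hτ4
  have h6 : DP fun q : A2 => ((List.finRange (n q.1.1)).flatMap fun v =>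
      rem (rem q.1.2 q.2) v :: if q.1.2 q.2 = q.2 ∧ q.1.2 v = v ∧ adj q.1.1 q.2 v = true then
        [ins q.1.2 q.2 v] else []) ++ (T q.1.1).map fun τ => mix (orb q.1.2 τ q.2) q.1.2 τ :=
    ((DP.finRange (hn.comp g2) (hb.comp g2)).flatMap h4).append ((hT.comp g2).map h5)
  have h7 : DP fun p : A1 => (List.finRange (n p.1)).flatMap fun u =>
      ((List.finRange (n p.1)).flatMap fun v =>
        rem (rem p.2 u) v :: if p.2 u = u ∧ p.2 v = v ∧ adj p.1 u v = true then
          [ins p.2 u v] else []) ++ (T p.1).map fun τ => mix (orb p.2 τ u) p.2 τ :=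
    (DP.finRange (hn.comp g1) (hb.comp g1)).flatMap h6
  exact hT.flatMap h7

theorem dp_quads (hn : Poly n) (hb : PB n) : DP fun a => quads (n a) := by
  have hO : DP fun a => (none :: (List.finRange (n a)).map some) :=
    DP.none.cons ((DP.finRange hn hb).map (f := fun _ x => some x) DP.snd.some)
  let A1 : Type := Σ a, Option (Fin (n a))
  let A2 : Type := Σ p : A1, Option (Fin (n p.1))
  let A3 : Type := Σ p : A2, Option (Fin (n p.1.1))
  let A4 : Type := Σ p : A3, Option (Fin (n p.1.1.1))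
  have g1 : Poly fun p : A1 => p.1 := poly_fst
  have g2 : Poly fun p : A2 => p.1.1 := g1.comp poly_fst
  have g3 : Poly fun p : A3 => p.1.1.1 := g2.comp poly_fst
  have a1 : DP fun p : A1 => p.2.toList := dp_toList DP.snd
  have a2 : DP fun p : A2 => p.1.2.toList ++ p.2.toList :=
    (a1.comp poly_fst).append (dp_toList DP.snd)
  have a3 : DP fun p : A3 => p.1.1.2.toList ++ p.1.2.toList ++ p.2.toList :=
    (a2.comp poly_fst).append (dp_toList DP.snd)
  have a4 : DP fun p : A4 => p.1.1.1.2.toList ++ p.1.1.2.toList ++ p.1.2.toList ++ p.2.toList :=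
    (a3.comp poly_fst).append (dp_toList DP.snd)
  have b3 : DP fun p : A3 => (none :: (List.finRange (n p.1.1.1)).map some).map fun d =>
      p.1.1.2.toList ++ p.1.2.toList ++ p.2.toList ++ d.toList := (hO.comp g3).map a4
  have b2 : DP fun p : A2 => (none :: (List.finRange (n p.1.1)).map some).flatMap fun c =>
      (none :: (List.finRange (n p.1.1)).map some).map fun d =>
        p.1.2.toList ++ p.2.toList ++ c.toList ++ d.toList := (hO.comp g2).flatMap b3
  have b1 : DP fun p : A1 => (none :: (List.finRange (n p.1)).map some).flatMap fun b =>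
      (none :: (List.finRange (n p.1)).map some).flatMap fun c =>
      (none :: (List.finRange (n p.1)).map some).map fun d =>
        p.2.toList ++ b.toList ++ c.toList ++ d.toList := (hO.comp g1).flatMap b2
  exact hO.flatMap b1

theorem poly_allFix {σ : ∀ a, Fn (n a)} {q : ∀ a, List (Fin (n a))} (hσ : DP σ) (hq : DP q) :
    Poly fun a => (q a).all fun v => decide (σ a v = v) := by
  have h2 : DP fun p : Σ a, Fin (n a) => σ p.1 p.2 := (hσ.comp poly_fst).app DP.snd
  exact hq.all (f := fun a v => decide (σ a v = v)) (DP.decide_eq h2 DP.snd)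

theorem poly_hasSig (hn : Poly n) (hb : PB n) {T : ∀ a, List (Fn (n a))} {f : α → ℕ}
    {q : ∀ a, List (Fin (n a))} (hT : DP T) (hf : Poly f) (hq : DP q) :
    Poly fun a => hasSig (T a) (f a) (q a) := by
  have h1 : Poly fun p : Σ a, Fn (n a) => nfix p.2 :=
    poly_nfix (n := fun p : Σ a, Fn (n a) => n p.1) (hn.comp poly_fst) (hb.comp poly_fst) DP.snd
  have h2 : Poly fun p : Σ a, Fn (n a) => (q p.1).all fun v => decide (p.2 v = v) :=
    poly_allFix (n := fun p : Σ a, Fn (n a) => n p.1) DP.snd (hq.comp poly_fst)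
  exact hT.any (f := fun a τ => decide (nfix τ = f a) && (q a).all fun v => decide (τ v = v))
    ((Poly.decide_eq h1 (hf.comp poly_fst)).and h2)

theorem poly_isNew (hn : Poly n) (hb : PB n) {T : ∀ a, List (Fn (n a))} {σ : ∀ a, Fn (n a)}
    (hT : DP T) (hσ : DP σ) : Poly fun a => isNew (T a) (σ a) := by
  have h1 : Poly fun p : Σ a, List (Fin (n a)) => p.2.all fun v => decide (σ p.1 v = v) :=
    poly_allFix (n := fun p : Σ a, List (Fin (n a)) => n p.1) (hσ.comp poly_fst) DP.snd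
  have h2 : Poly fun p : Σ a, List (Fin (n a)) => hasSig (T p.1) (nfix (σ p.1)) p.2 :=
    poly_hasSig (n := fun p : Σ a, List (Fin (n a)) => n p.1) (hn.comp poly_fst)
      (hb.comp poly_fst) (hT.comp poly_fst) ((poly_nfix hn hb hσ).comp poly_fst) DP.snd
  exact (dp_quads hn hb).any
    (f := fun a q => (q.all fun v => decide (σ a v = v)) && !hasSig (T a) (nfix (σ a)) q)
    (h1.and h2.not)

theorem dp_satStep (hn : Poly n) (hb : PB n) {adj : ∀ a, Gr (n a)} {T : ∀ a, List (Fn (n a))}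
    (h : DP adj) (hT : DP T) : DP fun a => satStep (adj a) (T a) := by
  have h1 : Poly fun p : Σ a, Fn (n a) => isNew (T p.1) p.2 :=
    poly_isNew (n := fun p : Σ a, Fn (n a) => n p.1) (hn.comp poly_fst) (hb.comp poly_fst)
      (hT.comp poly_fst) DP.snd
  have h2 : DP fun p : Σ a, Fn (n a) => p.2 :: T p.1 := DP.snd.cons (hT.comp poly_fst)
  exact ((dp_cands hn hb h hT).find? (f := fun a => isNew (T a)) h1).optionElim
    (g := fun a σ => σ :: T a) hT h2

end ImplA

theorem dp_sat (hn : Poly n) (hb : PB n) {adj : ∀ a, Gr (n a)} (h : DP adj) :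
    DP fun a => sat (adj a) := by
  have h0 : DP fun a => [(id : Fn (n a))] := (DP.fn hn hb DP.snd).cons DP.nil
  have hs : DP fun p : Σ a, List (Fn (n a)) => satStep (adj p.1) p.2 :=
    dp_satStep (n := fun p : Σ a, List (Fn (n a)) => n p.1) (hn.comp poly_fst) (hb.comp poly_fst)
      (h.comp poly_fst) DP.snd
  have hT : PB fun a => (n a + 1) ^ 5 := (hb.add (PB.const 1)).pow 5
  refine DP.iterate_inv (step := fun a => satStep (adj a)) (T := fun a => (n a + 1) ^ 5)
    (B := fun a => ((n a + 1) ^ 5 + 1) * (n a * (4 * n a + 2) + 1 + 1) + 1) h0 hs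
    ((hn.add (poly_const 1)).pow (poly_const 5) (PB.const 5)) hT (by fun_prop) fun a i hi => ?_
  refine (sz_list_le (B := n a * (4 * n a + 2) + 1) fun σ _ => sz_Fn_le σ).trans ?_
  have := length_satStep_iter (adj a) i
  gcongr
  omega

theorem poly_geDef (hn : Poly n) (hb : PB n) {adj : ∀ a, Gr (n a)} (h : DP adj) :
    Poly fun a => geDef (adj a) := by
  have h1 : Poly fun p : Σ a, Fn (n a) => nfix p.2 :=
    poly_nfix (n := fun p : Σ a, Fn (n a) => n p.1) (hn.comp poly_fst) (hb.comp poly_fst) DP.snd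
  have h2 : Poly fun a => (sat (adj a)).map nfix :=
    ((dp_sat hn hb h).map (γ := fun _ => ℕ) (f := fun _ σ => nfix σ) (DP.of_poly h1)).poly
  exact Poly.foldr_select (h := fun _ => min) h2 hn (Poly.id'.snd.fst.natMin Poly.id'.snd.snd)
    fun _ x s => (min_choice x s).symm

theorem dp_geD (hn : Poly n) (hb : PB n) {adj : ∀ a, Gr (n a)} (h : DP adj) :
    DP fun a => geD (adj a) := by
  exact DP.fn' hn hb (poly_hasSig (n := fun p : Σ a, Fin (n a) => n p.1) (hn.comp poly_fst)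
    (hb.comp poly_fst) ((dp_sat hn hb h).comp poly_fst) ((poly_geDef hn hb h).comp poly_fst)
    (DP.snd.cons DP.nil))

theorem dp_geA (hn : Poly n) (hb : PB n) {adj : ∀ a, Gr (n a)} {D : ∀ a, Fin (n a) → Bool}
    (h : DP adj) (hD : DP D) : DP fun a => geA (adj a) (D a) := by
  have h1 : Poly fun p : Σ a, Fin (n a) => D p.1 p.2 := ((hD.comp poly_fst).app DP.snd).poly
  have g : Poly fun q : Σ p : (Σ a, Fin (n a)), Fin (n p.1) => q.1.1 := poly_fst.comp poly_fst
  have hw : DP fun q : Σ p : (Σ a, Fin (n a)), Fin (n p.1) => q.2 := DP.snd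
  have hu : DP fun q : Σ p : (Σ a, Fin (n a)), Fin (n p.1) => q.1.2 := DP.snd.comp poly_fst
  have h2 : Poly fun q : Σ p : (Σ a, Fin (n a)), Fin (n p.1) => D q.1.1 q.2 :=
    ((hD.comp g).app hw).poly
  have h3 : Poly fun q : Σ p : (Σ a, Fin (n a)), Fin (n p.1) => adj q.1.1 q.2 q.1.2 :=
    (((h.comp g).app hw).app hu).poly
  have h4 : Poly fun p : Σ a, Fin (n a) =>
      decide (∃ w, D p.1 w = true ∧ adj p.1 w p.2 = true) :=
    Poly.decide_exists_fin (n := fun p : Σ a, Fin (n a) => n p.1)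
      (p := fun p w => D p.1 w = true ∧ adj p.1 w p.2 = true) (hn.comp poly_fst) (hb.comp poly_fst)
      ((dtrue h2).decide_and (dtrue h3))
  exact DP.fn' hn hb (h1.not.and h4)

theorem dp_comp (hn : Poly n) (hb : PB n) {adj : ∀ a, Gr (n a)} {D : ∀ a, Fin (n a) → Bool}
    {v : ∀ a, Fin (n a)} (h : DP adj) (hD : DP D) (hv : DP v) :
    DP fun a => comp (adj a) (D a) (v a) := by
  have g : Poly fun q : Σ p : (Σ a, Fin (n a)), Fin (n p.1) => q.1.1 := poly_fst.comp poly_fst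
  have hw : DP fun q : Σ p : (Σ a, Fin (n a)), Fin (n p.1) => q.2 := DP.snd
  have hu : DP fun q : Σ p : (Σ a, Fin (n a)), Fin (n p.1) => q.1.2 := DP.snd.comp poly_fst
  have h1 : DP fun a => (fun x y => adj a x y && D a x && D a y : Gr (n a)) :=
    DP.fn₂ hn hb hn hb (((((h.comp g).app hu).app hw).poly.and ((hD.comp g).app hu).poly).and
      ((hD.comp g).app hw).poly)
  exact dp_reach hn hb h1 hv

end Crest.Agent.R304
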