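import Crest.Agent.R304.Wt
import Crest.Agent.R304.GEDefs
import Crest.Agent.R304.ChaosDefs
import Crest.Agent.R309.Tape

/-!
# Row 304: the randomised approximation scheme (definitions)

All numerical parameters are powers of `M = 2 ^ ℓ`.
-/

set_option autoImplicit false

namespace Crest.Agent.R304

open Finset Crest.Agent.R309

/-- The size of the population. -/
def NN (ℓ : ℕ) : ℕ := 2 ^ (16 * ℓ)
instance (ℓ : ℕ) : NeZero (NN ℓ) := ⟨by unfold NN; positivity⟩
/-- Small stages per change of the weights. -/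
def JJ (ℓ : ℕ) : ℕ := 2 ^ (35 * ℓ)
/-- Steps per small stage. -/
def TT (ℓ : ℕ) : ℕ := 4 * 2 ^ (18 * ℓ)
/-- Changes of the weights. -/
def RR (ℓ : ℕ) : ℕ := 2 ^ ℓ
/-- Bits for a move of a pair. -/
def Bpair (ℓ : ℕ) : ℕ := 2 + 9 * ℓ + 56 * ℓ
/-- Bits for a step of the population. -/
def Bs (ℓ : ℕ) : ℕ := 32 * ℓ + Bpair ℓ
/-- Bits for the initial population. -/
def Bi (n ℓ : ℕ) : ℕ := NN ℓ * (n * (20 * ℓ))
/-- Bits for a sample. -/
def Bsamp (n ℓ : ℕ) : ℕ := Bi n ℓ + RR ℓ * JJ ℓ * (TT ℓ * Bs ℓ)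
/-- Bits for the estimator. -/
def Btot (n ℓ : ℕ) : ℕ := RR ℓ * Bsamp n ℓ
/-- The base of the weights. -/
def rr (n ℓ : ℕ) : ℚ := 1 + 1 / (4 * n * JJ ℓ)
/-- The factor of one change of the weights. -/
def rho (n ℓ : ℕ) : ℚ := rr n ℓ ^ JJ ℓ
/-- The target for the marginals. -/
noncomputable def eta (n : ℕ) : ℝ := 1 / (4 * (n : ℝ) ^ 2)

variable {n : ℕ} [NeZero n] (ℓ : ℕ)

/-- Populations. -/
abbrev Pop (n ℓ : ℕ) := Fin (NN ℓ) → PM n

/-- The marks read from `9 ℓ` bits. -/
def marks (u : List Bool) : Fin 9 → Fin n := fun i => Fin.ofNat n (toNat (blk ℓ i u))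

/-- The proposal, reading `1 + 9 ℓ` bits. -/
def prop (u : List Bool) (s : PM n × PM n) : PM n × PM n :=
  if u.headD false = true then s.swap else mv (marks ℓ u.tail) s

/-- The weight `r ^ k` of a matching. -/
def wq (k : Mat n) (σ : PM n) : ℚ := rr n ℓ ^ cost k σ.1

/-- A lazy Metropolis step for a pair. -/
def pairStep (k : Mat n) (s : PM n × PM n) (u : List Bool) : PM n × PM n :=
  if u.headD false = true ∧
      (toNat ((u.drop (2 + 9 * ℓ)).take (56 * ℓ)) : ℚ) * (wq ℓ k s.1 * wq ℓ k s.2) <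
        2 ^ (56 * ℓ) * (wq ℓ k (prop ℓ ((u.drop 1).take (1 + 9 * ℓ)) s).1 *
          wq ℓ k (prop ℓ ((u.drop 1).take (1 + 9 * ℓ)) s).2) then
    prop ℓ ((u.drop 1).take (1 + 9 * ℓ)) s
  else s

/-- A member of the population read from `16 ℓ` bits. -/
def idx (u : List Bool) : Fin (NN ℓ) := Fin.ofNat (NN ℓ) (toNat (u.take (16 * ℓ)))

/-- A step of the population. -/
def popStep (k : Mat n) (x : Pop n ℓ) (u : List Bool) : Pop n ℓ :=
  if idx ℓ u = idx ℓ (u.drop (16 * ℓ)) then x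
  else Function.update (Function.update x (idx ℓ u)
      (pairStep ℓ k (x (idx ℓ u), x (idx ℓ (u.drop (16 * ℓ)))) (u.drop (32 * ℓ))).1)
    (idx ℓ (u.drop (16 * ℓ)))
      (pairStep ℓ k (x (idx ℓ u), x (idx ℓ (u.drop (16 * ℓ)))) (u.drop (32 * ℓ))).2

/-- The possible partners of `v` when the smaller vertices have been treated. -/
def free (σ : PM n) (v : Fin n) : List (Fin n) :=
  (List.finRange n).filter fun w => decide (v < w ∧ v ≤ σ.1 w)

/-- Choose a partner for `v`. -/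
def istep (v : Fin n) (σ : PM n) (u : List Bool) : PM n :=
  if v < σ.1 v then force σ v ((free σ v).getD (toNat u % (free σ v).length) v) else σ

/-- A nearly uniform perfect matching. -/
def init1 (σ0 : PM n) (u : List Bool) : PM n :=
  (foldT (fun (s : ℕ × PM n) v => (s.1 + 1, istep (Fin.ofNat n s.1) s.2 v)) (20 * ℓ) n (0, σ0) u).2

/-- The initial population. -/
def initPop (σ0 : PM n) (u : List Bool) : Pop n ℓ :=
  fun i => init1 ℓ σ0 (blk (n * (20 * ℓ)) i u)

/-- A small stage: change the exponents by one unit in the current direction and relax. -/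
def micro (ds : List (Mat n)) (s : ℕ × Mat n × Pop n ℓ) (u : List Bool) : ℕ × Mat n × Pop n ℓ :=
  (s.1 + 1, s.2.1 + ds.getD (s.1 / JJ ℓ) 0,
    foldT (popStep ℓ (s.2.1 + ds.getD (s.1 / JJ ℓ) 0)) (Bs ℓ) (TT ℓ) s.2.2 u)

/-- A population for the weights reached after the changes `ds`. -/
def samp (σ0 : PM n) (ds : List (Mat n)) (u : List Bool) : Pop n ℓ :=
  (foldT (micro ℓ ds) (TT ℓ * Bs ℓ) (ds.length * JJ ℓ) (0, 0, initPop ℓ σ0 (u.take (Bi n ℓ)))
    (u.drop (Bi n ℓ))).2.2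

variable {ℓ}

/-- The number of members containing the pair `u v`. -/
def cnt (x : Pop n ℓ) (u v : Fin n) : ℕ := (univ.filter fun i => (x i).1 u = v).card

/-- The pair seems to be rare. -/
def low (x : Pop n ℓ) (u v : Fin n) : Bool := decide (u ≠ v ∧ 8 * n ^ 2 * cnt x u v < NN ℓ)

/-- The pair seems to be frequent and its weight may be lowered. -/
def high (adj : Gr n) (κ : Mat n) (x : Pop n ℓ) (p : Fin n × Fin n) : Bool :=
  decide (p.1 ≠ p.2 ∧ (adj p.1 p.2 = false ∨ 0 < κ p.1 p.2) ∧ NN ℓ < 2 * n ^ 2 * cnt x p.1 p.2)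

/-- The next change of the weights, if any. -/
def dir (adj : Gr n) (κ : Mat n) (x : Pop n ℓ) : Option (Mat n) :=
  if ∃ u v, low x u v = true then some fun u v => if low x u v = true then 1 else 0
  else (((List.finRange n).product (List.finRange n)).find? (high adj κ x)).map fun p u v =>
    if (u = p.1 ∧ v = p.2) ∨ (u = p.2 ∧ v = p.1) then -1 else 0

/-- The mean over the population. -/
def mean (f : PM n → ℚ) (x : Pop n ℓ) : ℚ := (∑ i, f (x i)) / NN ℓ

variable (ℓ)

/-- The inverse of the factor by which the change `d` multiplies the weight. -/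
def back (d : Mat n) (σ : PM n) : ℚ := rho n ℓ ^ (-cost d σ.1)

/-- The correction from the learned weights to the graph. -/
def fin (adj : Gr n) (κ : Mat n) (σ : PM n) : ℚ :=
  if ∀ v, adj v (σ.1 v) = true then back ℓ κ σ else 0

/-- The update from a population. -/
def upd (adj : Gr n) (s : List (Mat n) × ℚ × Option ℚ) (x : Pop n ℓ) :
    List (Mat n) × ℚ × Option ℚ :=
  (dir adj s.1.sum x).elim
    (s.1, s.2.1, some (s.2.1 / mean (back ℓ (s.1.getLastD 0)) x * mean (fin ℓ adj s.1.sum) x))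
    fun d => (s.1 ++ [d], s.2.1 / mean (back ℓ (s.1.getLastD 0)) x, none)

/-- One stage of the learning. -/
def stage (σ0 : PM n) (adj : Gr n) (s : List (Mat n) × ℚ × Option ℚ) (u : List Bool) :
    List (Mat n) × ℚ × Option ℚ :=
  if s.2.2.isSome = true then s else upd ℓ adj s (samp ℓ σ0 s.1 u)

/-- The estimator. -/
def est (σ0 : PM n) (adj : Gr n) (u : List Bool) : ℚ :=
  (foldT (stage ℓ σ0 adj) (Bsamp n ℓ) (RR ℓ) ([], (z0 n : ℚ), none) u).2.2.getD 0

/-- The real weights `r ^ k`. -/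
noncomputable def Wr (k : Mat n) : Fin n → Fin n → ℝ := fun u v => (rr n ℓ : ℝ) ^ k u v

/-- The real weights `ρ ^ κ`. -/
noncomputable def Wm (κ : Mat n) : Fin n → Fin n → ℝ := Wr ℓ ((JJ ℓ : ℤ) • κ)

/-- The flows of the ideal chain on pairs. -/
noncomputable def flow (π : PM n → ℝ) (s t : PM n × PM n) : ℝ :=
  Pr (1 + 9 * ℓ) (fun u => prop ℓ u s = t) * min (π s.1 * π s.2) (π t.1 * π t.2) / 2

/-- A change of the weights. -/
def IsDir (d : Mat n) : Prop := Symm d ∧ ∀ u v, |d u v| ≤ 1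

/-- All small stages along the changes `ds` have balanced marginals. -/
def Adm (ds : List (Mat n)) : Prop :=
  (∀ d ∈ ds, IsDir d) ∧ ∀ t < ds.length, ∀ j ≤ JJ ℓ,
    Bal (eta n / 4) (Wr ℓ ((JJ ℓ : ℤ) • (ds.take t).sum + (j : ℤ) • ds.getD t 0))

/-- The potential. -/
noncomputable def Psi (κ : Mat n) : ℝ :=
  Real.log (ZZ (Wm ℓ κ)) -
    eta n * Real.log (rho n ℓ) * ∑ u, ∑ v, if u < v then (κ u v : ℝ) else 0

/-- The population estimates all marginals. -/
def Acc (W : Fin n → Fin n → ℝ) (x : Pop n ℓ) : Prop :=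
  ∀ u v, u ≠ v → |(cnt x u v : ℝ) / NN ℓ - mg W u v| ≤ eta n / 8

/-- The number of perfect matchings of the graph. -/
def numPM (adj : Gr n) : ℕ := (univ.filter fun σ : PM n => ∀ v, adj v (σ.1 v) = true).card

/-- The parameter is large enough. -/
def Big (n ℓ : ℕ) : Prop := 2 ^ 36 * n ^ 35 ≤ 2 ^ ℓ

end Crest.Agent.R304
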