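import Crest.Agent.R304.ImplA
import Crest.Agent.R304.Model

/-!
# Row 304: the sampler runs in polynomial time
-/

set_option autoImplicit false

namespace Crest.Agent.R304

open Finset Crest.Agent.Lib.PolyTime Crest.Agent.R309

variable {α : Type} [PEnc α] {n ℓ : α → ℕ} [∀ a, NeZero (n a)]

/-- The sizes are polynomially bounded. -/
structure Par (n ℓ : α → ℕ) : Prop where
  pn : Poly n
  bn : PB n
  pl : Poly ℓ
  bl : PB fun a => 2 ^ ℓ a

omit [∀ a, NeZero (n a)] in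
theorem Par.comp {β : Type} [PEnc β] (h : Par n ℓ) {g : β → α} (hg : Poly g) :
    Par (fun b => n (g b)) fun b => ℓ (g b) :=
  ⟨h.pn.comp hg, h.bn.comp hg, h.pl.comp hg, h.bl.comp hg⟩

namespace ImplC

omit [∀ a, NeZero (n a)]

theorem bℓ (h : Par n ℓ) : PB ℓ := h.bl.mono fun _ => Nat.lt_two_pow_self.le

theorem bpow (h : Par n ℓ) (c : ℕ) : PB fun a => 2 ^ (c * ℓ a) :=
  (h.bl.pow c).mono fun a => by rw [pow_mul']

theorem pmul (h : Par n ℓ) (c : ℕ) : Poly fun a => c * ℓ a := (poly_const c).mul h.pl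

theorem bmul (h : Par n ℓ) (c : ℕ) : PB fun a => c * ℓ a := (PB.const c).mul (bℓ h)

theorem ppow (h : Par n ℓ) (c : ℕ) : Poly fun a => 2 ^ (c * ℓ a) :=
  (poly_const 2).pow (pmul h c) (bmul h c)

theorem pNN (h : Par n ℓ) : Poly fun a => NN (ℓ a) := ppow h 16
theorem bNN (h : Par n ℓ) : PB fun a => NN (ℓ a) := bpow h 16
theorem pJJ (h : Par n ℓ) : Poly fun a => JJ (ℓ a) := ppow h 35
theorem bJJ (h : Par n ℓ) : PB fun a => JJ (ℓ a) := bpow h 35
theorem pTT (h : Par n ℓ) : Poly fun a => TT (ℓ a) := (poly_const 4).mul (ppow h 18)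
theorem bTT (h : Par n ℓ) : PB fun a => TT (ℓ a) := (PB.const 4).mul (bpow h 18)
theorem pRR (h : Par n ℓ) : Poly fun a => RR (ℓ a) := (poly_const 2).pow h.pl (bℓ h)
theorem bRR (h : Par n ℓ) : PB fun a => RR (ℓ a) := h.bl

theorem pBs (h : Par n ℓ) : Poly fun a => Bs (ℓ a) :=
  (pmul h 32).add (((poly_const 2).add (pmul h 9)).add (pmul h 56))

theorem bBs (h : Par n ℓ) : PB fun a => Bs (ℓ a) :=
  (bmul h 32).add (((PB.const 2).add (bmul h 9)).add (bmul h 56))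

theorem pBi (h : Par n ℓ) : Poly fun a => Bi (n a) (ℓ a) := (pNN h).mul (h.pn.mul (pmul h 20))

theorem bBi (h : Par n ℓ) : PB fun a => Bi (n a) (ℓ a) := (bNN h).mul (h.bn.mul (bmul h 20))

theorem pBsamp (h : Par n ℓ) : Poly fun a => Bsamp (n a) (ℓ a) :=
  (pBi h).add (((pRR h).mul (pJJ h)).mul ((pTT h).mul (pBs h)))

theorem bBsamp (h : Par n ℓ) : PB fun a => Bsamp (n a) (ℓ a) :=
  (bBi h).add (((bRR h).mul (bJJ h)).mul ((bTT h).mul (bBs h)))

theorem prr (h : Par n ℓ) : Poly fun a => rr (n a) (ℓ a) :=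
  (poly_const (1 : ℚ)).ratAdd ((poly_const (1 : ℚ)).ratDiv
    (((poly_const (4 : ℚ)).ratMul h.pn.natCastRat).ratMul (pJJ h).natCastRat))

theorem natAbs_cost_le {m K : ℕ} {k : Mat m} (hk : ∀ u v, (k u v).natAbs ≤ K) (σ : Fn m) :
    (cost k σ).natAbs ≤ m * K := by
  unfold cost
  refine (Int.natAbs_sum_le _ _).trans ?_
  refine (Finset.sum_le_card_nsmul _ _ K fun v _ => ?_).trans (by simp)
  split_ifs
  · exact hk _ _
  · simp

theorem sz_Pop_le {m l : ℕ} (x : Pop m l) : sz x ≤ NN l * (m * (4 * m + 2) + 1 + 1) + 1 :=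
  sz_fun_le fun _ => sz_PM_le _

theorem sz_Mat_le {m K : ℕ} {k : Mat m} (hk : ∀ u v, (k u v).natAbs ≤ K) :
    sz k ≤ m * (m * (4 * K + 5 + 1) + 1 + 1) + 1 :=
  sz_fun_le fun u => sz_fun_le fun v => by
    have h1 := sz_int_le (k u v)
    have h2 := sz_le_self (k u v).natAbs
    have h3 := hk u v
    omega

end ImplC

open ImplC

omit [∀ a, NeZero (n a)] in
theorem Par.Btot (h : Par n ℓ) :
    (Poly fun a => Btot (n a) (ℓ a)) ∧ PB fun a => Btot (n a) (ℓ a) := by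
  exact ⟨(pRR h).mul (pBsamp h), (bRR h).mul (bBsamp h)⟩

omit [∀ a, NeZero (n a)] in
theorem Par.Bsamp (h : Par n ℓ) :
    (Poly fun a => Bsamp (n a) (ℓ a)) ∧ PB fun a => Bsamp (n a) (ℓ a) := by
  exact ⟨pBsamp h, bBsamp h⟩

omit [∀ a, NeZero (n a)] in
theorem Par.rho (h : Par n ℓ) : Poly fun a => rho (n a) (ℓ a) := by
  exact (prr h).monoidPow (pJJ h) (bJJ h)

namespace ImplC

theorem dp_marks (h : Par n ℓ) {u : α → List Bool} (hu : Poly u) :
    DP fun a => (marks (ℓ a) (u a) : Fin 9 → Fin (n a)) := by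
  have hi : Poly fun p : Σ _ : α, Fin 9 => (p.2 : ℕ) :=
    DP.val (n := fun _ : Σ _ : α, Fin 9 => 9) (i := fun p => p.2) DP.snd
  have h1 : DP fun p : Σ _ : α, Fin 9 =>
      Fin.ofNat (n p.1) (toNat (blk (ℓ p.1) (p.2 : ℕ) (u p.1))) :=
    DP.ofNat (n := fun p : Σ _ : α, Fin 9 => n p.1) (h.pn.comp poly_fst)
      (poly_toNat (poly_blk (h.pl.comp poly_fst) hi (hu.comp poly_fst)))
  exact DP.fn (n := fun _ => 9) (β := fun a => Fin (n a)) (poly_const 9) (PB.const 9) h1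

theorem dp_prop (h : Par n ℓ) {s : ∀ a, PM (n a) × PM (n a)} {u : α → List Bool} (hu : Poly u)
    (hs : DP s) : DP fun a => prop (ℓ a) (u a) (s a) := by
  have h1 : DP fun a => (s a).swap := hs.snd'.pair hs.fst
  have h2 : DP fun a => mv (marks (ℓ a) (u a).tail) (s a) :=
    dp_mv h.pn h.bn (dp_marks h hu.tail) hs
  exact DP.cond (hu.headD (poly_const false)) h1 h2

omit [∀ a, NeZero (n a)] in
theorem poly_wq (h : Par n ℓ) {k : ∀ a, Mat (n a)} {σ : ∀ a, PM (n a)} {K : α → ℕ} (hk : DP k)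
    (hK : PB K) (hkK : ∀ a u v, (k a u v).natAbs ≤ K a) (hσ : DP σ) :
    Poly fun a => wq (ℓ a) (k a) (σ a) :=
  (prr h).ratZPow (poly_cost h.pn h.bn hk hσ.val')
    ((h.bn.mul hK).mono fun a => natAbs_cost_le (hkK a) _)

theorem dp_pairStep (h : Par n ℓ) {k : ∀ a, Mat (n a)} {s : ∀ a, PM (n a) × PM (n a)}
    {u : α → List Bool} {K : α → ℕ} (hk : DP k) (hK : PB K)
    (hkK : ∀ a u v, (k a u v).natAbs ≤ K a) (hs : DP s) (hu : Poly u) :
    DP fun a => pairStep (ℓ a) (k a) (s a) (u a) := by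
  have hp : DP fun a => prop (ℓ a) (((u a).drop 1).take (1 + 9 * ℓ a)) (s a) :=
    dp_prop h (((poly_const 1).add (pmul h 9)).take ((poly_const 1).drop hu)) hs
  have h1 : Poly fun a => (toNat (((u a).drop (2 + 9 * ℓ a)).take (56 * ℓ a)) : ℚ) :=
    (poly_toNat ((pmul h 56).take (((poly_const 2).add (pmul h 9)).drop hu))).natCastRat
  have h2 : Poly fun a => wq (ℓ a) (k a) (s a).1 * wq (ℓ a) (k a) (s a).2 :=
    (poly_wq h hk hK hkK hs.fst).ratMul (poly_wq h hk hK hkK hs.snd')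
  have h3 : Poly fun a => (2 : ℚ) ^ (56 * ℓ a) :=
    (poly_const (2 : ℚ)).monoidPow (pmul h 56) (bmul h 56)
  have h4 : Poly fun a =>
      wq (ℓ a) (k a) (prop (ℓ a) (((u a).drop 1).take (1 + 9 * ℓ a)) (s a)).1 *
        wq (ℓ a) (k a) (prop (ℓ a) (((u a).drop 1).take (1 + 9 * ℓ a)) (s a)).2 :=
    (poly_wq h hk hK hkK hp.fst).ratMul (poly_wq h hk hK hkK hp.snd')
  exact DP.ite ((hu.headD (poly_const false)).decide_true.decide_and
    ((h1.ratMul h2).decide_ratLt (h3.ratMul h4))) hp hs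

omit [∀ a, NeZero (n a)] in
theorem dp_idx (h : Par n ℓ) {u : α → List Bool} (hu : Poly u) : DP fun a => idx (ℓ a) (u a) :=
  DP.ofNat (n := fun a => NN (ℓ a)) (pNN h) (poly_toNat ((pmul h 16).take hu))

omit [∀ a, NeZero (n a)] in
theorem dp_free (h : Par n ℓ) {σ : ∀ a, PM (n a)} {v : ∀ a, Fin (n a)} (hσ : DP σ) (hv : DP v) :
    DP fun a => free (σ a) (v a) := by
  have hw : DP fun p : Σ a, Fin (n a) => p.2 := DP.snd
  have h1 : DP fun p : Σ a, Fin (n a) => v p.1 := hv.comp poly_fst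
  have h2 : DP fun p : Σ a, Fin (n a) => (σ p.1).1 p.2 := (hσ.val'.comp poly_fst).app hw
  have h3 : Poly fun p : Σ a, Fin (n a) => decide (v p.1 < p.2 ∧ v p.1 ≤ (σ p.1).1 p.2) :=
    (DP.decide_lt (n := fun p : Σ a, Fin (n a) => n p.1) h1 hw).decide_and
      (DP.decide_le (n := fun p : Σ a, Fin (n a) => n p.1) h1 h2)
  exact (DP.finRange h.pn h.bn).filter
    (f := fun a w => decide (v a < w ∧ v a ≤ (σ a).1 w)) h3

omit [∀ a, NeZero (n a)] in
theorem dp_istep (h : Par n ℓ) {σ : ∀ a, PM (n a)} {v : ∀ a, Fin (n a)} {u : α → List Bool}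
    (hσ : DP σ) (hv : DP v) (hu : Poly u) : DP fun a => istep (v a) (σ a) (u a) := by
  have hf := dp_free h hσ hv
  have h1 : DP fun a => (free (σ a) (v a)).getD (toNat (u a) % (free (σ a) (v a)).length) (v a) :=
    hf.listGetD ((poly_toNat hu).mod hf.length) hv
  exact DP.ite (DP.decide_lt hv (hσ.val'.app hv)) (dp_force h.pn h.bn hσ hv h1) hσ

theorem dp_init1 (h : Par n ℓ) {σ0 : ∀ a, PM (n a)} {u : α → List Bool} (hσ : DP σ0)
    (hu : Poly u) : DP fun a => init1 (ℓ a) (σ0 a) (u a) := by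
  let A : Type := Σ a, (ℕ × PM (n a)) × List Bool
  have g : Poly fun p : A => p.1 := poly_fst
  have hi : Poly fun p : A => p.2.1.1 := (DP.snd.fst.fst).poly
  have hx : DP fun p : A => p.2.1.2 := DP.snd.fst.snd'
  have hv : Poly fun p : A => p.2.2 := (DP.snd.snd').poly
  have h1 : DP fun p : A => istep (Fin.ofNat (n p.1) p.2.1.1) p.2.1.2 p.2.2 :=
    dp_istep (h.comp g) hx (DP.ofNat (n := fun p : A => n p.1) (h.pn.comp g) hi) hv
  have hs : DP fun p : A => (p.2.1.1 + 1, istep (Fin.ofNat (n p.1) p.2.1.1) p.2.1.2 p.2.2) :=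
    DP.pair (DP.of_poly (hi.add (poly_const 1))) h1
  have h0 : DP fun a => ((0 : ℕ), σ0 a) := DP.pair (DP.of_poly (poly_const 0)) hσ
  have h2 := DP.foldT (β := fun a => ℕ × PM (n a))
    (step := fun a (s : ℕ × PM (n a)) v => (s.1 + 1, istep (Fin.ofNat (n a) s.1) s.2 v)) hs
    (pmul h 20) h.pn h.bn h0 hu (fun _ i s => s.1 = i) (fun _ => rfl)
    (fun _ _ _ _ _ e => by simp only [e])
    (S := fun a => 4 * n a + 1 + (n a * (4 * n a + 2) + 1) + 1)
    (by have := h.bn; fun_prop) fun a i x hi e => by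
      have h1 := sz_le_self x.1
      have h2 := sz_PM_le x.2
      rw [sz_prod]
      omega
  exact h2.snd'

end ImplC

/-- A step of the population; `K` bounds the exponents. -/
theorem dp_popStep (h : Par n ℓ) {k : ∀ a, Mat (n a)} {x : ∀ a, Pop (n a) (ℓ a)}
    {u : α → List Bool} {K : α → ℕ} (hk : DP k) (hK : PB K)
    (hkK : ∀ a u v, (k a u v).natAbs ≤ K a) (hx : DP x) (hu : Poly u) :
    DP fun a => popStep (ℓ a) (k a) (x a) (u a) := by
  have hi : DP fun a => idx (ℓ a) (u a) := dp_idx h hu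
  have hj : DP fun a => idx (ℓ a) ((u a).drop (16 * ℓ a)) := dp_idx h ((pmul h 16).drop hu)
  have hs : DP fun a => (x a (idx (ℓ a) (u a)), x a (idx (ℓ a) ((u a).drop (16 * ℓ a)))) :=
    (DP.app (n := fun a => NN (ℓ a)) hx hi).pair (DP.app (n := fun a => NN (ℓ a)) hx hj)
  have hp : DP fun a => pairStep (ℓ a) (k a)
      (x a (idx (ℓ a) (u a)), x a (idx (ℓ a) ((u a).drop (16 * ℓ a)))) ((u a).drop (32 * ℓ a)) :=
    dp_pairStep h hk hK hkK hs ((pmul h 32).drop hu)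
  exact DP.ite (DP.decide_eq hi hj) hx
    (DP.update (n := fun a => NN (ℓ a)) (pNN h) (bNN h)
      (DP.update (n := fun a => NN (ℓ a)) (pNN h) (bNN h) hx hi hp.fst) hj hp.snd')

theorem dp_initPop (h : Par n ℓ) {σ0 : ∀ a, PM (n a)} {u : α → List Bool} (hσ : DP σ0)
    (hu : Poly u) : DP fun a => initPop (ℓ a) (σ0 a) (u a) := by
  let A : Type := Σ a, Fin (NN (ℓ a))
  have g : Poly fun p : A => p.1 := poly_fst
  have hi : Poly fun p : A => (p.2 : ℕ) :=
    DP.val (n := fun p : A => NN (ℓ p.1)) (i := fun p => p.2) DP.snd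
  have h1 : DP fun p : A =>
      init1 (ℓ p.1) (σ0 p.1) (blk (n p.1 * (20 * ℓ p.1)) (p.2 : ℕ) (u p.1)) :=
    dp_init1 (h.comp g) (hσ.comp g) (poly_blk ((h.pn.mul (pmul h 20)).comp g) hi (hu.comp g))
  exact DP.fn (n := fun a => NN (ℓ a)) (β := fun a => PM (n a)) (pNN h) (bNN h) h1

namespace ImplC

/-- A run of the population at fixed weights. -/
theorem dp_popRun (h : Par n ℓ) {k : ∀ a, Mat (n a)} {x : ∀ a, Pop (n a) (ℓ a)}
    {u : α → List Bool} {K : α → ℕ} (hk : DP k) (hK : PB K)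
    (hkK : ∀ a u v, (k a u v).natAbs ≤ K a) (hx : DP x) (hu : Poly u) :
    DP fun a => foldT (popStep (ℓ a) (k a)) (Bs (ℓ a)) (TT (ℓ a)) (x a) (u a) := by
  let A : Type := Σ a, Pop (n a) (ℓ a) × List Bool
  have g : Poly fun p : A => p.1 := poly_fst
  have hy : DP fun p : A => p.2.1 := DP.snd.fst
  have hv : Poly fun p : A => p.2.2 := (DP.snd.snd').poly
  have hs : DP fun p : A => popStep (ℓ p.1) (k p.1) p.2.1 p.2.2 :=
    dp_popStep (h.comp g) (K := fun p : A => K p.1) (hk.comp g) (hK.comp g)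
      (fun p => hkK p.1) hy hv
  exact DP.foldT (β := fun a => Pop (n a) (ℓ a)) (step := fun a => popStep (ℓ a) (k a)) hs
    (pBs h) (pTT h) (bTT h) hx hu (fun _ _ _ => True) (fun _ => trivial)
    (fun _ _ _ _ _ _ => trivial)
    (S := fun a => NN (ℓ a) * (n a * (4 * n a + 2) + 1 + 1) + 1)
    (by have := h.bn; have := bNN h; fun_prop) fun a i x _ _ => sz_Pop_le x

omit [∀ a, NeZero (n a)] in
theorem dp_matAdd (h : Par n ℓ) {k d : ∀ a, Mat (n a)} (hk : DP k) (hd : DP d) :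
    DP fun a => k a + d a := by
  let A : Type := Σ p : (Σ a, Fin (n a)), Fin (n p.1)
  have g : Poly fun q : A => q.1.1 := poly_fst.comp poly_fst
  have hw : DP fun q : A => q.2 := DP.snd
  have hu : DP fun q : A => q.1.2 := DP.snd.comp poly_fst
  have h1 : Poly fun q : A => k q.1.1 q.1.2 q.2 := (((hk.comp g).app hu).app hw).poly
  have h2 : Poly fun q : A => d q.1.1 q.1.2 q.2 := (((hd.comp g).app hu).app hw).poly
  exact DP.fn₂ h.pn h.bn h.pn h.bn (h1.intAdd h2)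

omit [∀ a, NeZero (n a)] in
theorem dp_matZero (h : Par n ℓ) : DP fun a => (0 : Mat (n a)) :=
  DP.fn₂ h.pn h.bn h.pn h.bn (poly_const (0 : ℤ))

theorem natAbs_step_le {m i j : ℕ} {k : Mat m} {ds : List (Mat m)}
    (hd : ∀ d ∈ ds, ∀ u v, |d u v| ≤ 1) (hk : ∀ u v, (k u v).natAbs ≤ i) (u v : Fin m) :
    ((k + ds.getD j 0) u v).natAbs ≤ i + 1 := by
  have h1 : |ds.getD j 0 u v| ≤ 1 := by
    rw [List.getD_eq_getElem?_getD]
    cases e : ds[j]? with
    | none => simp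
    | some d => exact hd d (List.mem_of_getElem? e) u v
  have h2 := hk u v
  have h3 : (ds.getD j 0 u v).natAbs ≤ 1 := by
    rw [Int.abs_eq_natAbs] at h1
    exact_mod_cast h1
  exact (Int.natAbs_add_le _ _).trans (Nat.add_le_add h2 h3)

theorem dp_micro (h : Par n ℓ) {ds : ∀ a, List (Mat (n a))}
    {s : ∀ a, ℕ × Mat (n a) × Pop (n a) (ℓ a)} {u : α → List Bool} {K : α → ℕ} (hds : DP ds)
    (hd : ∀ a, ∀ d ∈ ds a, ∀ u v, |d u v| ≤ 1) (hs : DP s) (hK : PB K)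
    (hkK : ∀ a u v, ((s a).2.1 u v).natAbs ≤ K a) (hu : Poly u) :
    DP fun a => micro (ℓ a) (ds a) (s a) (u a) := by
  have hi : Poly fun a => (s a).1 := hs.fst.poly
  have hk : DP fun a => (s a).2.1 + (ds a).getD ((s a).1 / JJ (ℓ a)) 0 :=
    dp_matAdd h hs.snd'.fst (hds.listGetD (hi.div (pJJ h)) (dp_matZero h))
  have hr : DP fun a => foldT (popStep (ℓ a) ((s a).2.1 + (ds a).getD ((s a).1 / JJ (ℓ a)) 0))
      (Bs (ℓ a)) (TT (ℓ a)) (s a).2.2 (u a) :=
    dp_popRun h (K := fun a => K a + 1) hk (hK.add (PB.const 1))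
      (fun a => natAbs_step_le (hd a) (hkK a)) hs.snd'.snd' hu
  exact DP.pair (DP.of_poly (hi.add (poly_const 1))) (hk.pair hr)

end ImplC

theorem dp_samp (h : Par n ℓ) {σ0 : ∀ a, PM (n a)} {ds : ∀ a, List (Mat (n a))}
    {u : α → List Bool} (hσ : DP σ0) (hds : DP ds)
    (hd : ∀ a, ∀ d ∈ ds a, ∀ u v, |d u v| ≤ 1) (hu : Poly u) :
    DP fun a => samp (ℓ a) (σ0 a) (ds a) (u a) := by
  let I : ∀ a, ℕ → ℕ × Mat (n a) × Pop (n a) (ℓ a) → Prop := fun a i s =>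
    s.1 = i ∧ ∀ u v, (s.2.1 u v).natAbs ≤ i
  let t : α → ℕ := fun a => (ds a).length * JJ (ℓ a)
  have ht : Poly t := hds.length.mul (pJJ h)
  have htb : PB t := hds.pb_length.mul (bJJ h)
  let A : Type := {p : Σ a, (ℕ × Mat (n a) × Pop (n a) (ℓ a)) × List Bool //
    ∃ i, i < t p.1 ∧ I p.1 i p.2.1}
  have g : Poly fun p : A => p.1.1 := poly_fst.comp poly_val
  have hy0 : DP fun p : Σ a, (ℕ × Mat (n a) × Pop (n a) (ℓ a)) × List Bool => p.2.1 := DP.snd.fst
  have hv0 : Poly fun p : Σ a, (ℕ × Mat (n a) × Pop (n a) (ℓ a)) × List Bool => p.2.2 :=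
    (DP.snd.snd').poly
  have hy : DP fun p : A => p.1.2.1 := hy0.comp poly_val
  have hv : Poly fun p : A => p.1.2.2 := hv0.comp poly_val
  have hs : DP fun p : A => micro (ℓ p.1.1) (ds p.1.1) p.1.2.1 p.1.2.2 :=
    dp_micro (h.comp g) (K := fun p : A => t p.1.1) (hds.comp g) (fun p => hd p.1.1) hy
      (htb.comp g) (fun p u v => by
        obtain ⟨i, hi, _, hI⟩ := p.2
        exact (hI u v).trans hi.le) hv
  have h0 : DP fun a => ((0 : ℕ), (0 : Mat (n a)),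
      initPop (ℓ a) (σ0 a) ((u a).take (Bi (n a) (ℓ a)))) :=
    DP.pair (DP.of_poly (poly_const 0)) ((dp_matZero h).pair (dp_initPop h hσ ((pBi h).take hu)))
  have h2 := DP.foldT' (β := fun a => ℕ × Mat (n a) × Pop (n a) (ℓ a))
    (step := fun a => micro (ℓ a) (ds a)) (t := t) I hs ((pTT h).mul (pBs h)) ht htb h0
    ((pBi h).drop hu) (fun _ => ⟨rfl, fun _ _ => le_rfl⟩)
    (fun a i x v _ hI => ⟨by simp only [micro, hI.1], natAbs_step_le (hd a) hI.2⟩)
    (S := fun a => 4 * t a + 1 + (n a * (n a * (4 * t a + 5 + 1) + 1 + 1) + 1 +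
      (NN (ℓ a) * (n a * (4 * n a + 2) + 1 + 1) + 1) + 1) + 1)
    (by have := h.bn; have := bNN h; fun_prop) fun a i x hi hI => by
      have h1 := sz_le_self x.1
      have h2 := sz_Mat_le (K := t a) fun u v => (hI.2 u v).trans hi
      have h3 := sz_Pop_le x.2.2
      have h4 := hI.1
      rw [sz_prod, sz_prod]
      omega
  exact h2.snd'.snd'

end Crest.Agent.R304
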