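import Crest.Agent.R304.Model

/-!
# Row 304: the initial population is nearly uniform
-/

set_option autoImplicit false

namespace Crest.Agent.R304

open Finset Crest.Agent.R309

namespace InitAux

theorem sum_mod (G : ℕ → ℝ) (L q : ℕ) :
    ∑ i ∈ range (q * L), G (i % L) = q * ∑ r ∈ range L, G r := by
  induction q with
  | zero => simp
  | succ q ih =>
    have h : ∑ i ∈ range L, G ((q * L + i) % L) = ∑ r ∈ range L, G r :=
      sum_congr rfl fun i hi => by
        rw [Nat.mul_add_mod_self_right, Nat.mod_eq_of_lt (mem_range.1 hi)]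
    rw [Nat.succ_mul, sum_range_add, ih, h]
    push_cast
    ring

theorem Ex_mod {G : ℕ → ℝ} (hG : ∀ r, 0 ≤ G r ∧ G r ≤ 1) {L : ℕ} (hL : 0 < L) (b : ℕ) :
    |Ex b (fun u => G (toNat u % L)) - (∑ r ∈ range L, G r) / L| ≤ L / 2 ^ b := by
  rw [Ex_toNat b fun i => G (i % L)]
  have h1 : ((2 ^ b / L : ℕ) : ℝ) * L + (2 ^ b % L : ℕ) = 2 ^ b := by
    exact_mod_cast Nat.div_add_mod' (2 ^ b) L
  have h2 : ∑ i ∈ range (2 ^ b), G (i % L) = (2 ^ b / L : ℕ) * ∑ r ∈ range L, G r +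
      ∑ i ∈ range (2 ^ b % L), G ((2 ^ b / L * L + i) % L) := by
    conv_lhs => rw [← Nat.div_add_mod' (2 ^ b) L]
    rw [sum_range_add, sum_mod]
  have h3 : ∀ (f : ℕ → ℕ) (k : ℕ), 0 ≤ ∑ i ∈ range k, G (f i) ∧ ∑ i ∈ range k, G (f i) ≤ k :=
    fun f k => ⟨sum_nonneg fun i _ => (hG _).1,
      (sum_le_sum fun i _ => (hG _).2).trans (by simp)⟩
  have h4 := h3 id L
  have h5 := h3 (fun i => (2 ^ b / L * L + i) % L) (2 ^ b % L)
  have h6 : ((2 ^ b % L : ℕ) : ℝ) ≤ L := by exact_mod_cast (Nat.mod_lt _ hL).le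
  have h7 : (0 : ℝ) ≤ (2 ^ b % L : ℕ) := Nat.cast_nonneg _
  have hL' : (0 : ℝ) < L := by exact_mod_cast hL
  simp only [id] at h4 h5
  rw [h2]
  generalize ∑ r ∈ range L, G r = S at *
  generalize ∑ i ∈ range (2 ^ b % L), G ((2 ^ b / L * L + i) % L) = R at *
  generalize ((2 ^ b % L : ℕ) : ℝ) = ρ at *
  generalize ((2 ^ b / L : ℕ) : ℝ) = q at *
  have h8 : (q * S + R) / 2 ^ b - S / L = (R - ρ * (S / L)) / 2 ^ b := by
    field_simp
    rw [← h1]
    ring
  have h9 : S / L ≤ 1 := (div_le_one hL').2 h4.2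
  have h10 : 0 ≤ S / L := div_nonneg h4.1 hL'.le
  rw [h8, abs_div, abs_of_pos (by positivity : (0 : ℝ) < 2 ^ b)]
  gcongr
  rw [abs_le]
  constructor <;> nlinarith

theorem sum_getD {α : Type} (G : α → ℝ) (d : α) (L : List α) :
    ∑ r ∈ range L.length, G (L.getD r d) = (L.map G).sum := by
  induction L with
  | nil => simp
  | cons a L ih => rw [List.length_cons, sum_range_succ']; simp [← ih, add_comm]

theorem pop {A : Type} [Fintype A] {π : A → ℝ} (h0 : ∀ a, 0 ≤ π a) (h1 : ∑ a, π a = 1)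
    {g : List Bool → A} {B : ℕ} {ε : ℝ}
    (h : ∀ F : A → ℝ, (∀ a, 0 ≤ F a ∧ F a ≤ 1) → |Ex B (fun u => F (g u)) - ∑ a, π a * F a| ≤ ε)
    (N : ℕ) : ∀ (m : ℕ) (F : (Fin N → A) → ℝ), N * B ≤ m → (∀ x, 0 ≤ F x ∧ F x ≤ 1) →
      |Ex m (fun u => F fun i => g (blk B i u)) - prodE N π F| ≤ N * ε := by
  have hb : ∀ (N : ℕ) (F : (Fin N → A) → ℝ), (∀ x, 0 ≤ F x ∧ F x ≤ 1) →
      0 ≤ prodE N π F ∧ prodE N π F ≤ 1 := fun N F hF => by
    refine ⟨sum_nonneg fun x _ => mul_nonneg (prod_nonneg fun i _ => h0 _) (hF x).1, ?_⟩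
    refine (sum_le_sum fun x _ =>
      mul_le_of_le_one_right (prod_nonneg fun i _ => h0 _) (hF x).2).trans (le_of_eq ?_)
    rw [← Fintype.piFinset_univ, ← prod_univ_sum (fun _ => univ) fun _ a => π a]
    simp [h1]
  induction N with
  | zero =>
    intro m F _ _
    have : ∀ x y : Fin 0 → A, x = y := fun x y => Subsingleton.elim x y
    simp only [prodE, Fintype.sum_unique, this _ default]
    simp
  | succ N ih =>
    intro m F hm hF
    rw [Nat.succ_mul] at hm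
    have e1 : ∀ u, (fun i : Fin (N + 1) => g (blk B i u)) =
        Fin.cons (g (u.take B)) fun i : Fin N => g (blk B i (u.drop B)) := fun u => by
      funext i
      refine Fin.cases ?_ (fun i => ?_) i
      · simp [blk_zero]
      · simp [blk_succ]
    have e2 : prodE (N + 1) π F = ∑ a, π a * prodE N π fun x => F (Fin.cons a x) := by
      simp only [prodE, mul_sum]
      rw [← (Fin.consEquiv fun _ : Fin (N + 1) => A).sum_comp, Fintype.sum_prod_type]
      simp [Fin.consEquiv, Fin.prod_univ_succ, mul_assoc]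
    simp only [e1]
    rw [Ex_split (by omega) fun u v => F (Fin.cons (g u) fun i : Fin N => g (blk B i v)), e2]
    have h2 := h (fun a => prodE N π fun x => F (Fin.cons a x)) fun a => hb _ _ fun x => hF _
    have h3 : |(Ex B fun u => Ex (m - B) fun v =>
        F (Fin.cons (g u) fun i : Fin N => g (blk B i v))) -
        Ex B fun u => prodE N π fun x => F (Fin.cons (g u) x)| ≤ N * ε := by
      rw [← Ex_sub]
      refine (abs_Ex_le _ _).trans ((Ex_mono fun u _ => ?_).trans_eq (Ex_const _ _))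
      exact ih (m - B) (fun x => F (Fin.cons (g u) x)) (by omega) fun x => hF _
    refine (abs_sub_le _ _ _).trans ((add_le_add h3 h2).trans (le_of_eq ?_))
    push_cast
    ring

variable {n : ℕ}

/-- The matchings that agree with `σ` below `i`. -/
def cyl (σ : PM n) (i : ℕ) : Finset (PM n) :=
  univ.filter fun τ => ∀ w : Fin n, (w : ℕ) < i → τ.1 w = σ.1 w

theorem mem_cyl {σ τ : PM n} {i : ℕ} :
    τ ∈ cyl σ i ↔ ∀ w : Fin n, (w : ℕ) < i → τ.1 w = σ.1 w := by simp [cyl]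

/-- The average over `cyl σ i`. -/
noncomputable def avg (F : PM n → ℝ) (σ : PM n) (i : ℕ) : ℝ :=
  (∑ τ ∈ cyl σ i, F τ) / (cyl σ i).card

theorem avg_mem {F : PM n → ℝ} (hF : ∀ σ, 0 ≤ F σ ∧ F σ ≤ 1) (σ : PM n) (i : ℕ) :
    0 ≤ avg F σ i ∧ avg F σ i ≤ 1 :=
  ⟨div_nonneg (sum_nonneg fun τ _ => (hF τ).1) (Nat.cast_nonneg _),
    div_le_one_of_le₀ ((sum_le_sum fun τ _ => (hF τ).2).trans (by simp)) (Nat.cast_nonneg _)⟩

theorem mem_cyl_succ {σ τ : PM n} {v : Fin n} :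
    τ ∈ cyl σ (v + 1) ↔ τ ∈ cyl σ v ∧ τ.1 v = σ.1 v := by
  simp only [mem_cyl]
  refine ⟨fun h => ⟨fun w hw => h w (by omega), h v (by omega)⟩, fun h w hw => ?_⟩
  rcases Nat.lt_succ_iff_lt_or_eq.1 hw with h1 | h1
  · exact h.1 w h1
  · rw [Fin.ext h1]; exact h.2

theorem mem_free {σ : PM n} {v w : Fin n} : w ∈ free σ v ↔ v < w ∧ v ≤ σ.1 w := by simp [free]

theorem cyl_force {σ : PM n} {v w : Fin n} (hv : v < σ.1 v) (hw : w ∈ free σ v) :
    cyl (force σ v w) (v + 1) = (cyl σ v).filter fun τ => τ.1 v = w := by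
  rw [mem_free] at hw
  ext τ
  rw [mem_cyl_succ, mem_filter, force_apply σ hw.1.ne, mem_cyl, mem_cyl]
  refine and_congr_left fun _ => forall₂_congr fun x hx => ?_
  have hx' : x < v := hx
  rw [force_apply_rest σ hx'.ne (hx'.trans hw.1).ne (hx'.trans hv).ne (hx'.trans_le hw.2).ne]

theorem free_of_mem {σ τ : PM n} {v : Fin n} (hv : v < σ.1 v) (h : τ ∈ cyl σ v) :
    τ.1 v ∈ free σ v := by
  rw [mem_cyl] at h
  refine mem_free.2 ⟨lt_of_le_of_ne (not_lt.1 fun h1 => ?_) (τ.2.2 v).symm, not_lt.1 fun h1 => ?_⟩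
  · have h2 := h _ h1
    rw [τ.2.1, eq_comm, σ.2.1.eq_iff] at h2
    exact lt_asymm hv (h2 ▸ h1)
  · have h2 := h _ h1
    rw [σ.2.1] at h2
    exact h1.ne (τ.2.1.inj h2)

theorem card_le {σ : PM n} {v w w' : Fin n} (hw : w ∈ free σ v) (hw' : w' ∈ free σ v) :
    ((cyl σ v).filter fun τ => τ.1 v = w).card ≤ ((cyl σ v).filter fun τ => τ.1 v = w').card := by
  rw [mem_free] at hw hw'
  refine card_le_card_of_injOn (cjP w w') (fun τ hτ => ?_) fun τ _ τ' _ h => by
    rw [← cjP_cjP w w' τ, h, cjP_cjP]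
  rw [mem_coe, mem_filter, mem_cyl] at hτ ⊢
  refine ⟨fun x hx => ?_, ?_⟩
  · have hx' : x < v := hx
    change Equiv.swap w w' (τ.1 (Equiv.swap w w' x)) = _
    rw [Equiv.swap_apply_of_ne_of_ne (hx'.trans hw.1).ne (hx'.trans hw'.1).ne, hτ.1 x hx,
      Equiv.swap_apply_of_ne_of_ne]
    · exact fun h => (hx'.trans_le hw.2).ne' (σ.2.1.eq_iff.1 h)
    · exact fun h => (hx'.trans_le hw'.2).ne' (σ.2.1.eq_iff.1 h)
  · change Equiv.swap w w' (τ.1 (Equiv.swap w w' v)) = _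
    rw [Equiv.swap_apply_of_ne_of_ne hw.1.ne hw'.1.ne, hτ.2, Equiv.swap_apply_left]

theorem step [NeZero n] {F : PM n → ℝ} (hF : ∀ σ, 0 ≤ F σ ∧ F σ ≤ 1) (σ : PM n) (v : Fin n)
    (b : ℕ) : |Ex b (fun u => avg F (istep v σ u) (v + 1)) - avg F σ v| ≤ n / 2 ^ b := by
  by_cases hv : v < σ.1 v
  · simp only [istep, if_pos hv]
    have hσ : σ ∈ cyl σ v := mem_cyl.2 fun _ _ => rfl
    have h0 := free_of_mem hv hσ
    have hnd : (free σ v).Nodup := (List.nodup_finRange n).filter _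
    have hL : 0 < (free σ v).length := List.length_pos_of_mem h0
    have hLn : (free σ v).length ≤ n := (List.length_filter_le _ _).trans (by simp)
    have h1 := Ex_mod (G := fun r => avg F (force σ v ((free σ v).getD r v)) (v + 1))
      (fun r => avg_mem hF _ _) hL b
    rw [sum_getD (fun w => avg F (force σ v w) (v + 1)), ← List.sum_toFinset _ hnd] at h1
    set c := ((cyl σ v).filter fun τ => τ.1 v = σ.1 v).card with hc
    have h2 : ∀ w ∈ (free σ v).toFinset, ((cyl σ v).filter fun τ => τ.1 v = w).card = c :=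
      fun w hw => le_antisymm (card_le (List.mem_toFinset.1 hw) h0)
        (card_le h0 (List.mem_toFinset.1 hw))
    have hm : ∀ τ ∈ cyl σ v, τ.1 v ∈ (free σ v).toFinset :=
      fun τ hτ => List.mem_toFinset.2 (free_of_mem hv hτ)
    have h3 : (cyl σ v).card = c * (free σ v).length := by
      rw [card_eq_sum_card_fiberwise hm, sum_congr rfl h2, sum_const, List.toFinset_card_of_nodup hnd,
        smul_eq_mul, mul_comm]
    have h4 : (∑ w ∈ (free σ v).toFinset, avg F (force σ v w) (v + 1)) / (free σ v).length =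
        avg F σ v := by
      rw [avg, h3, ← sum_fiberwise_of_maps_to hm, Nat.cast_mul, ← div_div, sum_div _ _ (c : ℝ)]
      congr 1
      refine sum_congr rfl fun w hw => ?_
      rw [avg, cyl_force hv (List.mem_toFinset.1 hw), h2 w hw]
    rw [h4] at h1
    refine h1.trans ?_
    gcongr
  · simp only [istep, if_neg hv, Ex_const]
    have h1 : cyl σ (v + 1) = cyl σ v := by
      ext τ
      refine mem_cyl_succ.trans (and_iff_left_of_imp fun h => ?_)
      have h2 := mem_cyl.1 h (σ.1 v) (lt_of_le_of_ne (not_lt.1 hv) (σ.2.2 v) : σ.1 v < v)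
      rw [σ.2.1] at h2
      exact τ.2.1.eq_iff.1 h2
    rw [avg, avg, h1, sub_self, abs_zero]
    positivity

theorem gib_one (σ : PM n) : gib (fun _ _ => 1) σ = 1 / Fintype.card (PM n) := by
  simp [gib, ZZ, wt]

end InitAux

variable {n : ℕ} [NeZero n] {ℓ : ℕ}

theorem init1_close (σ0 : PM n) {F : PM n → ℝ} (hF : ∀ σ, 0 ≤ F σ ∧ F σ ≤ 1) :
    |Ex (n * (20 * ℓ)) (fun u => F (init1 ℓ σ0 u)) - ∑ σ, gib (fun _ _ => 1) σ * F σ| ≤
      (n : ℝ) ^ 2 / 2 ^ (20 * ℓ) := by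
  set st := fun (s : ℕ × PM n) v => (s.1 + 1, istep (Fin.ofNat n s.1) s.2 v) with hst
  have h1 : ∀ t u, (foldT st (20 * ℓ) t (0, σ0) u).1 = t := fun t u =>
    foldT_inv (fun i (s : ℕ × PM n) => s.1 = i) rfl (fun i x u h => congrArg (· + 1) h) t u
  have h2 : ∀ t ≤ n, |Ex (n * (20 * ℓ)) (fun u => (fun s : ℕ × PM n => InitAux.avg F s.2 s.1)
      (foldT st (20 * ℓ) t (0, σ0) u)) - InitAux.avg F σ0 0| ≤ t * (n / 2 ^ (20 * ℓ)) := by
    intro t
    induction t with
    | zero => intro _; simp [foldT_zero]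
    | succ t ih =>
      intro ht
      rw [Ex_foldT_succ st (Nat.mul_le_mul_right _ ht) (0, σ0)
        fun s : ℕ × PM n => InitAux.avg F s.2 s.1]
      refine (abs_sub_le _ _ _).trans ((add_le_add ?_ (ih (by omega))).trans
        (le_of_eq (by push_cast; rw [add_mul, one_mul, add_comm])))
      rw [← Ex_sub]
      refine (abs_Ex_le _ _).trans ((Ex_mono fun u _ => ?_).trans_eq (Ex_const _ _))
      have h3 := h1 t u
      generalize foldT st (20 * ℓ) t (0, σ0) u = s at h3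
      have h4 : ((Fin.ofNat n s.1 : Fin n) : ℕ) = s.1 := Nat.mod_eq_of_lt (by omega)
      have h5 := InitAux.step hF s.2 (Fin.ofNat n s.1) (20 * ℓ)
      rw [h4] at h5
      exact h5
  have h3 := h2 n le_rfl
  have h4 : ∀ σ : PM n, InitAux.avg F σ n = F σ := fun σ => by
    have : InitAux.cyl σ n = {σ} := by
      ext τ
      rw [InitAux.mem_cyl, mem_singleton]
      exact ⟨fun h => Subtype.ext (funext fun w => h w w.2), fun h _ _ => by rw [h]⟩
    simp [InitAux.avg, this]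
  have h5 : InitAux.avg F σ0 0 = ∑ σ, gib (fun _ _ => 1) σ * F σ := by
    have : InitAux.cyl σ0 0 = univ := by simp [InitAux.cyl]
    simp only [InitAux.avg, this, InitAux.gib_one, ← mul_sum, card_univ]
    ring
  simp only [h1, h4, h5] at h3
  exact h3.trans (le_of_eq (by ring))

theorem initPop_close (σ0 : PM n) {F : Pop n ℓ → ℝ} (hF : ∀ x, 0 ≤ F x ∧ F x ≤ 1) :
    |Ex (Bi n ℓ) (fun u => F (initPop ℓ σ0 u)) - prodE (NN ℓ) (gib fun _ _ => 1) F| ≤
      NN ℓ * ((n : ℝ) ^ 2 / 2 ^ (20 * ℓ)) := by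
  have : Nonempty (PM n) := ⟨σ0⟩
  exact InitAux.pop (fun σ => by rw [InitAux.gib_one]; positivity)
    (by simp [InitAux.gib_one]) (fun F hF => init1_close σ0 hF) (NN ℓ) (Bi n ℓ) F le_rfl hF

end Crest.Agent.R304
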