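import Crest.Agent.R304.Model
import Crest.Agent.R304.Chaos
import Crest.Agent.R309.Metro

/-!
# Row 304: the implemented steps and the ideal kernel
-/

set_option autoImplicit false

namespace Crest.Agent.R304

open Finset Crest.Agent.R309

variable {n : ℕ} [NeZero n] {ℓ : ℕ}

omit [NeZero n] in
theorem one_lt_rr (hn : 0 < n) (ℓ : ℕ) : 1 < rr n ℓ := by
  have h1 : (0 : ℚ) < n := by exact_mod_cast hn
  have h2 : (0 : ℚ) < JJ ℓ := by unfold JJ; positivity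
  unfold rr
  have : (0 : ℚ) < 1 / (4 * n * JJ ℓ) := by positivity
  linarith

theorem kern_rr_pos (ℓ : ℕ) : 0 < rr n ℓ :=
  one_pos.trans (one_lt_rr (Nat.pos_of_ne_zero (NeZero.ne n)) ℓ)

theorem kern_wq_pos (k : Mat n) (σ : PM n) : 0 < wq ℓ k σ := zpow_pos (kern_rr_pos ℓ) _

/-- The acceptance test with `b` random bits. -/
theorem kern_accept (b : ℕ) {x y : ℚ} (hx : 0 < x) (hy : 0 < y) :
    |Ex b (fun r => ind ((toNat r : ℚ) * x < 2 ^ b * y)) - min (x : ℝ) y / x| ≤ 1 / 2 ^ b := by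
  have hwx : (0 : ℝ) < x := by exact_mod_cast hx
  have hwy : (0 : ℝ) < y := by exact_mod_cast hy
  have hN : (0 : ℝ) < 2 ^ b := by positivity
  have ht : (0 : ℝ) ≤ 2 ^ b * y / x := by positivity
  have e : Ex b (fun r => ind ((toNat r : ℚ) * x < 2 ^ b * y)) =
      (∑ i ∈ range (2 ^ b), ind ((i : ℝ) < 2 ^ b * y / x)) / 2 ^ b := by
    rw [← Ex_toNat b fun i => ind ((i : ℝ) < 2 ^ b * y / x)]
    refine Ex_congr fun u _ => ?_
    congr 1
    rw [lt_div_iff₀ hwx]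
    exact propext (by exact_mod_cast Iff.rfl)
  have ha : min (x : ℝ) y / x = min ((2 ^ b : ℕ) : ℝ) (2 ^ b * y / x) / 2 ^ b := by
    rw [← min_div_div_right hwx.le, ← min_div_div_right hN.le]
    congr 1
    · push_cast; field_simp
    · field_simp
  obtain ⟨h1, h2⟩ := sum_ind_lt (2 ^ b) ht
  rw [e, ha, ← sub_div, abs_div, abs_of_pos hN]
  refine div_le_div_of_nonneg_right ?_ hN.le
  rw [abs_le]; constructor <;> linarith

theorem kern_sum_kerQ {A : Type} [Fintype A] [DecidableEq A] (π : A → ℝ)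
    (J : A × A → A × A → ℝ) (s : A × A) (F : A × A → ℝ) :
    ∑ t, kerQ π J s t * F t = F s + ∑ t, J s t / (π s.1 * π s.2) * (F t - F s) := by
  simp only [kerQ, add_mul, sum_add_distrib, ite_mul, zero_mul, sum_ite_eq, mem_univ, if_true,
    mul_sub, sum_sub_distrib, ← sum_mul]
  ring

theorem kern_Ex_idx (G : Fin (NN ℓ) → ℝ) :
    Ex (16 * ℓ) (fun u => G (Fin.ofNat (NN ℓ) (toNat u))) = (∑ i, G i) / NN ℓ := by
  rw [Ex_toNat (16 * ℓ) fun i => G (Fin.ofNat (NN ℓ) i)]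
  have h : ((NN ℓ : ℕ) : ℝ) = 2 ^ (16 * ℓ) := by simp [NN]
  rw [h]
  congr 1
  rw [show 2 ^ (16 * ℓ) = NN ℓ from rfl,
    ← Fin.sum_univ_eq_sum_range (fun i => G (Fin.ofNat (NN ℓ) i)) (NN ℓ)]
  refine sum_congr rfl fun i _ => ?_
  congr 1
  exact Fin.ext (Nat.mod_eq_of_lt i.2)

theorem posW_Wr {k : Mat n} (hk : Symm k) : PosW (Wr ℓ k) := by
  refine ⟨fun u v => ?_, fun u v => zpow_pos (by exact_mod_cast kern_rr_pos ℓ) _⟩
  unfold Wr
  rw [hk u v]

theorem wt_Wr (k : Mat n) (σ : PM n) : wt (Wr ℓ k) σ.1 = (wq ℓ k σ : ℝ) := by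
  unfold Wr wq
  rw [wt_zpow (by exact_mod_cast (kern_rr_pos ℓ).ne'), Rat.cast_zpow]

theorem Ex_pairStep (hn : Even n) {k : Mat n} (hk : Symm k) {F : PM n × PM n → ℝ}
    (hF : ∀ s, 0 ≤ F s ∧ F s ≤ 1) (s : PM n × PM n) :
    |Ex (Bpair ℓ) (fun u => F (pairStep ℓ k s u)) -
      ∑ t, kerQ (gib (Wr ℓ k)) (flow ℓ (gib (Wr ℓ k))) s t * F t| ≤ 1 / 2 ^ (56 * ℓ) := by
  have hZ := ZZ_pos hn (posW_Wr (ℓ := ℓ) hk)
  set w : PM n × PM n → ℚ := fun t => wq ℓ k t.1 * wq ℓ k t.2 with hw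
  have hwp : ∀ t, 0 < w t := fun t => mul_pos (kern_wq_pos k _) (kern_wq_pos k _)
  have hg : ∀ t : PM n × PM n, gib (Wr ℓ k) t.1 * gib (Wr ℓ k) t.2 =
      (w t : ℝ) / ZZ (Wr ℓ k) ^ 2 := fun t => by
    simp only [gib, wt_Wr, hw]
    push_cast
    field_simp
  have e1 : Ex (Bpair ℓ) (fun u => F (pairStep ℓ k s u)) =
      F s + (Ex (1 + 9 * ℓ) fun v => Ex (56 * ℓ)
        (fun r => ind ((toNat r : ℚ) * w s < 2 ^ (56 * ℓ) * w (prop ℓ v s))) *
        (F (prop ℓ v s) - F s)) / 2 := by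
    rw [show Bpair ℓ = ((1 + 9 * ℓ) + 56 * ℓ) + 1 by unfold Bpair; ring, Ex_succ]
    have f1 : Ex ((1 + 9 * ℓ) + 56 * ℓ) (fun u => F (pairStep ℓ k s (false :: u))) = F s := by
      simp [pairStep]
    have f2 : Ex ((1 + 9 * ℓ) + 56 * ℓ) (fun u => F (pairStep ℓ k s (true :: u))) =
        F s + Ex (1 + 9 * ℓ) fun v => Ex (56 * ℓ)
          (fun r => ind ((toNat r : ℚ) * w s < 2 ^ (56 * ℓ) * w (prop ℓ v s))) *
          (F (prop ℓ v s) - F s) := by
      rw [Ex_append, ← Ex_const (1 + 9 * ℓ) (F s), ← Ex_add]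
      refine Ex_congr fun v hv => ?_
      rw [Ex_const, ← Ex_mul_right, ← Ex_const (56 * ℓ) (F s), ← Ex_add]
      refine Ex_congr fun r hr => ?_
      rw [Ex_const]
      have g1 : (List.drop 1 (true :: (v ++ r))).take (1 + 9 * ℓ) = v := by
        simp [← hv]
      have g2 : (List.drop (2 + 9 * ℓ) (true :: (v ++ r))).take (56 * ℓ) = r := by
        rw [show 2 + 9 * ℓ = (1 + 9 * ℓ) + 1 by ring]
        simp [← hv, ← hr]
      unfold pairStep
      rw [g1, g2]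
      by_cases h : (toNat r : ℚ) * w s < 2 ^ (56 * ℓ) * w (prop ℓ v s)
      · rw [ind_true h, if_pos ⟨rfl, h⟩]; ring
      · rw [ind_false h, if_neg fun h' => h h'.2]; ring
    rw [f1, f2]; ring
  have e2 : ∑ t, kerQ (gib (Wr ℓ k)) (flow ℓ (gib (Wr ℓ k))) s t * F t =
      F s + (Ex (1 + 9 * ℓ) fun v => min (w s : ℝ) (w (prop ℓ v s)) / w s *
        (F (prop ℓ v s) - F s)) / 2 := by
    rw [kern_sum_kerQ, Ex_law univ (g := fun v => prop ℓ v s) (fun _ _ => mem_univ _)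
      (fun t => min (w s : ℝ) (w t) / w s * (F t - F s)), sum_div]
    congr 1
    refine sum_congr rfl fun t _ => ?_
    have h1 : (0 : ℝ) < w s := by exact_mod_cast hwp s
    unfold flow
    rw [hg, hg, min_div_div_right (by positivity)]
    field_simp
  rw [e1, e2, add_sub_add_left_eq_sub, ← sub_div, ← Ex_sub, abs_div, abs_two]
  have key : |Ex (1 + 9 * ℓ) fun v => Ex (56 * ℓ)
      (fun r => ind ((toNat r : ℚ) * w s < 2 ^ (56 * ℓ) * w (prop ℓ v s))) *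
        (F (prop ℓ v s) - F s) - min (w s : ℝ) (w (prop ℓ v s)) / w s *
        (F (prop ℓ v s) - F s)| ≤ 1 / 2 ^ (56 * ℓ) := by
    refine (abs_Ex_le _ _).trans ?_
    rw [← Ex_const (1 + 9 * ℓ) (1 / 2 ^ (56 * ℓ) : ℝ)]
    refine Ex_mono fun v _ => ?_
    rw [← sub_mul, abs_mul]
    have h1 := kern_accept (56 * ℓ) (hwp s) (hwp (prop ℓ v s))
    have h2 : |F (prop ℓ v s) - F s| ≤ 1 := by
      have := hF (prop ℓ v s); have := hF s
      rw [abs_le]; constructor <;> linarith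
    calc _ ≤ 1 / 2 ^ (56 * ℓ) * 1 := mul_le_mul h1 h2 (abs_nonneg _) (by positivity)
      _ = _ := mul_one _
  have : (0 : ℝ) ≤ 1 / 2 ^ (56 * ℓ) := by positivity
  linarith

theorem Kop_popStep (hn : Even n) {k : Mat n} (hk : Symm k) {F : Pop n ℓ → ℝ}
    (hF : ∀ x, 0 ≤ F x ∧ F x ≤ 1) (x : Pop n ℓ) :
    |Kop (popStep ℓ k) (Bs ℓ) F x -
      liftP (NN ℓ) (kerQ (gib (Wr ℓ k)) (flow ℓ (gib (Wr ℓ k)))) F x| ≤ 1 / 2 ^ (56 * ℓ) := by
  have hN : (0 : ℝ) < NN ℓ := by exact_mod_cast Nat.pos_of_ne_zero (NeZero.ne (NN ℓ))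
  set H : Fin (NN ℓ) → Fin (NN ℓ) → ℝ := fun i j => if i = j then F x else
    Ex (Bpair ℓ) fun c => F (Function.update (Function.update x i
      (pairStep ℓ k (x i, x j) c).1) j (pairStep ℓ k (x i, x j) c).2) with hH
  have e1 : Kop (popStep ℓ k) (Bs ℓ) F x = (∑ i, ∑ j, H i j) / (NN ℓ : ℝ) ^ 2 := by
    unfold Kop
    rw [show Bs ℓ = 16 * ℓ + (16 * ℓ + Bpair ℓ) by unfold Bs; ring, Ex_append]
    have f1 : ∀ a : List Bool, a.length = 16 * ℓ →
        (Ex (16 * ℓ + Bpair ℓ) fun v => F (popStep ℓ k x (a ++ v))) =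
          (∑ j, H (Fin.ofNat (NN ℓ) (toNat a)) j) / NN ℓ := by
      intro a ha
      rw [Ex_append, ← kern_Ex_idx]
      refine Ex_congr fun b hb => ?_
      have g : ∀ c : List Bool, idx ℓ (a ++ (b ++ c)) = Fin.ofNat (NN ℓ) (toNat a) ∧
          idx ℓ ((a ++ (b ++ c)).drop (16 * ℓ)) = Fin.ofNat (NN ℓ) (toNat b) ∧
          (a ++ (b ++ c)).drop (32 * ℓ) = c := fun c => by
        refine ⟨?_, ?_, ?_⟩
        · unfold idx
          rw [List.take_left' ha]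
        · unfold idx
          rw [List.drop_left' ha, List.take_left' hb]
        · rw [← List.append_assoc, List.drop_left' (by rw [List.length_append, ha, hb]; ring)]
      simp only [popStep, (g _).1, (g _).2.1, (g _).2.2, hH]
      split_ifs
      · exact Ex_const _ _
      · rfl
    rw [Ex_congr f1, kern_Ex_idx fun i => (∑ j, H i j) / NN ℓ, ← sum_div, div_div, sq]
  rw [e1]
  unfold liftP
  rw [← sub_div, ← sum_sub_distrib, abs_div, abs_of_pos (pow_pos hN 2),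
    div_le_iff₀ (pow_pos hN 2)]
  refine (abs_sum_le_sum_abs _ _).trans ?_
  have h2 : ∀ i ∈ (univ : Finset (Fin (NN ℓ))), |∑ j, H i j - ∑ j, if i = j then F x else
      lift2 (kerQ (gib (Wr ℓ k)) (flow ℓ (gib (Wr ℓ k)))) i j F x| ≤
      NN ℓ * (1 / 2 ^ (56 * ℓ)) := by
    intro i _
    rw [← sum_sub_distrib]
    refine (abs_sum_le_sum_abs _ _).trans ?_
    refine (sum_le_card_nsmul _ _ (1 / 2 ^ (56 * ℓ) : ℝ) fun j _ => ?_).trans_eq (by simp)
    simp only [hH]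
    split_ifs
    · simp
    · exact Ex_pairStep hn hk
        (F := fun b => F (Function.update (Function.update x i b.1) j b.2)) (fun _ => hF _) _
  refine (sum_le_card_nsmul _ _ _ h2).trans_eq ?_
  simp only [card_univ, Fintype.card_fin, nsmul_eq_mul]
  ring

theorem Kop_iter_popStep (hn : Even n) {k : Mat n} (hk : Symm k) {K : ℝ}
    (hJ : JHyp (gib (Wr ℓ k)) (flow ℓ (gib (Wr ℓ k))) K) {F : Pop n ℓ → ℝ}
    (hF : ∀ x, 0 ≤ F x ∧ F x ≤ 1) (T : ℕ) (x : Pop n ℓ) :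
    |(Kop (popStep ℓ k) (Bs ℓ))^[T] F x -
      (liftP (NN ℓ) (kerQ (gib (Wr ℓ k)) (flow ℓ (gib (Wr ℓ k)))))^[T] F x| ≤
      T / 2 ^ (56 * ℓ) := by
  induction T generalizing x with
  | zero => simp
  | succ t ih =>
    rw [Function.iterate_succ_apply', Function.iterate_succ_apply']
    have h1 := Kop_popStep hn hk (Kop_iter_mem (popStep ℓ k) (Bs ℓ) t hF) x
    have h2 := hJ.liftP_sub (Nat.pos_of_ne_zero (NeZero.ne (NN ℓ))) ih x
    refine (abs_sub_le _ _ _).trans ((add_le_add h1 h2).trans (le_of_eq ?_))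
    push_cast; ring

end Crest.Agent.R304
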