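import Crest.Agent.R304.LearnA

/-!
# Row 304: the learning of the weights
-/

set_option autoImplicit false
set_option linter.unusedSectionVars false

namespace Crest.Agent.R304

open Finset

variable {n : ℕ} [NeZero n] {ℓ : ℕ} {adj : Gr n} {κ : Mat n}

namespace Learn

theorem n_pos : (0 : ℝ) < n := by exact_mod_cast NeZero.pos n

theorem J_pos : (0 : ℝ) < JJ ℓ := by
  unfold JJ
  positivity

theorem N_pos : (0 : ℝ) < NN ℓ := by exact_mod_cast NeZero.pos (NN ℓ)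

omit [NeZero n] in
theorem rr_eq : (rr n ℓ : ℝ) = 1 + 1 / (4 * n * JJ ℓ) := by
  unfold rr
  push_cast
  rfl

omit [NeZero n] in
theorem rho_eq : (rho n ℓ : ℝ) = (rr n ℓ : ℝ) ^ JJ ℓ := by
  unfold rho
  push_cast
  rfl

omit [NeZero n] in
theorem one_le_rr : (1 : ℝ) ≤ rr n ℓ := by
  rw [rr_eq]
  exact le_add_of_nonneg_right (by positivity)

omit [NeZero n] in
theorem one_le_rho : (1 : ℝ) ≤ rho n ℓ := by
  rw [rho_eq]
  exact one_le_pow₀ one_le_rr

omit [NeZero n] in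
theorem rho_pos : (0 : ℝ) < rho n ℓ := lt_of_lt_of_le one_pos one_le_rho

theorem eta_pos : 0 < eta n := by
  have := n_pos (n := n)
  unfold eta
  positivity

theorem eta_mul : (n : ℝ) ^ 2 * eta n = 1 / 4 := by
  have := n_pos (n := n)
  unfold eta
  field_simp

theorem Wm_eq (κ : Mat n) : Wm ℓ κ = fun u v => (rho n ℓ : ℝ) ^ κ u v := by
  funext u v
  change (rr n ℓ : ℝ) ^ ((JJ ℓ : ℤ) * κ u v) = _
  rw [rho_eq, zpow_mul, zpow_natCast]

theorem wt_Wm (κ : Mat n) (σ : Fn n) : wt (Wm ℓ κ) σ = (rho n ℓ : ℝ) ^ cost κ σ := by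
  rw [Wm_eq]
  exact wt_zpow rho_pos.ne' κ σ

theorem posW_Wm (hκ : Symm κ) : PosW (Wm ℓ κ) := by
  rw [Wm_eq]
  exact ⟨fun u v => congrArg (fun k : ℤ => (rho n ℓ : ℝ) ^ k) (hκ u v),
    fun u v => zpow_pos rho_pos _⟩

theorem back_eq (d : Mat n) (σ : PM n) : (back ℓ d σ : ℝ) = (rho n ℓ : ℝ) ^ (-cost d σ.1) := by
  unfold back
  rw [Rat.cast_zpow]

theorem cnt_symm (x : Pop n ℓ) (u v : Fin n) : cnt x u v = cnt x v u := by
  unfold cnt
  congr 1
  exact filter_congr fun i _ => (x i).2.1.eq_iff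

theorem low_iff {x : Pop n ℓ} {u v : Fin n} :
    low x u v = true ↔ u ≠ v ∧ 8 * n ^ 2 * cnt x u v < NN ℓ := by
  unfold low
  exact decide_eq_true_iff

theorem high_iff {x : Pop n ℓ} {p : Fin n × Fin n} : high adj κ x p = true ↔
    p.1 ≠ p.2 ∧ (adj p.1 p.2 = false ∨ 0 < κ p.1 p.2) ∧ NN ℓ < 2 * n ^ 2 * cnt x p.1 p.2 := by
  unfold high
  exact decide_eq_true_iff

theorem low_symm (x : Pop n ℓ) (u v : Fin n) : low x u v = low x v u := by
  rw [Bool.eq_iff_iff, low_iff, low_iff, cnt_symm, ne_comm]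

theorem dir_cases {x : Pop n ℓ} {d : Mat n} (hd : dir adj κ x = some d) :
    ((∃ u v, low x u v = true) ∧ ∀ u v, d u v = if low x u v = true then 1 else 0) ∨
    ((∀ u v, ¬ low x u v = true) ∧ ∃ p, high adj κ x p = true ∧
      ∀ u v, d u v = if (u = p.1 ∧ v = p.2) ∨ (u = p.2 ∧ v = p.1) then -1 else 0) := by
  unfold dir at hd
  by_cases h : ∃ u v, low x u v = true
  · rw [if_pos h, Option.some.injEq] at hd
    exact Or.inl ⟨h, fun u v => by rw [← hd]⟩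
  · rw [if_neg h, Option.map_eq_some_iff] at hd
    obtain ⟨p, hp, rfl⟩ := hd
    exact Or.inr ⟨fun u v h' => h ⟨u, v, h'⟩, p, List.find?_some hp, fun u v => rfl⟩

theorem dir_none_high {x : Pop n ℓ} (hd : dir adj κ x = none) (p : Fin n × Fin n) :
    ¬ high adj κ x p = true := by
  unfold dir at hd
  by_cases h : ∃ u v, low x u v = true
  · rw [if_pos h] at hd
    exact absurd hd (Option.some_ne_none _)
  · rw [if_neg h, Option.map_eq_none_iff, List.find?_eq_none] at hd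
    exact hd p (List.pair_mem_product.2 ⟨List.mem_finRange _, List.mem_finRange _⟩)

theorem ratio_lt {a b c N e : ℝ} (hN : 0 < N) (he : 0 < e) (hae : a * e = 1 / 4)
    (h : b * a * c < N) : b * (c / N) < 4 * e := by
  rw [← mul_div_assoc, div_lt_iff₀ hN]
  have := mul_lt_mul_of_pos_left h (show 0 < 4 * e by positivity)
  have h2 : 4 * e * (b * a * c) = b * c := by linear_combination (4 * b * c) * hae
  rwa [h2] at this

theorem ratio_gt {a b c N e : ℝ} (hN : 0 < N) (he : 0 < e) (hae : a * e = 1 / 4)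
    (h : N < b * a * c) : 4 * e < b * (c / N) := by
  rw [← mul_div_assoc, lt_div_iff₀ hN]
  have := mul_lt_mul_of_pos_left h (show 0 < 4 * e by positivity)
  have h2 : 4 * e * (b * a * c) = b * c := by linear_combination (4 * b * c) * hae
  rwa [h2] at this

variable {W : Fin n → Fin n → ℝ} {x : Pop n ℓ} {u v : Fin n}

theorem cnt_lt {b : ℕ} (h : b * n ^ 2 * cnt x u v < NN ℓ) :
    (b : ℝ) * ((cnt x u v : ℝ) / NN ℓ) < 4 * eta n :=
  ratio_lt N_pos eta_pos eta_mul (by exact_mod_cast h)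

theorem cnt_gt {b : ℕ} (h : NN ℓ < b * n ^ 2 * cnt x u v) :
    4 * eta n < (b : ℝ) * ((cnt x u v : ℝ) / NN ℓ) :=
  ratio_gt N_pos eta_pos eta_mul (by exact_mod_cast h)

theorem cnt_ge {b : ℕ} (h : ¬ b * n ^ 2 * cnt x u v < NN ℓ) :
    4 * eta n ≤ (b : ℝ) * ((cnt x u v : ℝ) / NN ℓ) := by
  have h1 : (NN ℓ : ℝ) ≤ b * n ^ 2 * cnt x u v := by exact_mod_cast not_lt.1 h
  rw [← mul_div_assoc, le_div_iff₀ N_pos]
  have := mul_le_mul_of_nonneg_left h1 (show 0 ≤ 4 * eta n by linarith [eta_pos (n := n)])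
  have h2 : 4 * eta n * (b * n ^ 2 * cnt x u v) = b * cnt x u v := by
    linear_combination (4 * b * cnt x u v) * eta_mul (n := n)
  rwa [h2] at this

theorem cnt_le {b : ℕ} (h : ¬ NN ℓ < b * n ^ 2 * cnt x u v) :
    (b : ℝ) * ((cnt x u v : ℝ) / NN ℓ) ≤ 4 * eta n := by
  have h1 : (b : ℝ) * n ^ 2 * cnt x u v ≤ NN ℓ := by exact_mod_cast not_lt.1 h
  rw [← mul_div_assoc, div_le_iff₀ N_pos]
  have := mul_le_mul_of_nonneg_left h1 (show 0 ≤ 4 * eta n by linarith [eta_pos (n := n)])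
  have h2 : 4 * eta n * (b * n ^ 2 * cnt x u v) = b * cnt x u v := by
    linear_combination (4 * b * cnt x u v) * eta_mul (n := n)
  rwa [h2] at this

theorem low_le (hx : Acc ℓ W x) (h : low x u v = true) : mg W u v ≤ 5 * eta n / 8 := by
  obtain ⟨h1, h2⟩ := low_iff.1 h
  have h3 := cnt_lt h2
  have h4 := (abs_le.1 (hx u v h1)).1
  generalize (cnt x u v : ℝ) / NN ℓ = c at h3 h4
  generalize mg W u v = m at h4 ⊢
  push_cast at h3
  linarith

theorem not_low_ge (hx : Acc ℓ W x) (huv : u ≠ v) (h : ¬ low x u v = true) :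
    3 * eta n / 8 ≤ mg W u v := by
  have h3 := cnt_ge fun h2 => h (low_iff.2 ⟨huv, h2⟩)
  have h4 := (abs_le.1 (hx u v huv)).2
  generalize (cnt x u v : ℝ) / NN ℓ = c at h3 h4
  generalize mg W u v = m at h4 ⊢
  push_cast at h3
  linarith

theorem high_ge (hx : Acc ℓ W x) {p : Fin n × Fin n} (h : high adj κ x p = true) :
    15 * eta n / 8 ≤ mg W p.1 p.2 := by
  obtain ⟨h1, -, h2⟩ := high_iff.1 h
  have h3 := cnt_gt h2
  have h4 := (abs_le.1 (hx _ _ h1)).2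
  generalize (cnt x p.1 p.2 : ℝ) / NN ℓ = c at h3 h4
  generalize mg W p.1 p.2 = m at h4 ⊢
  push_cast at h3
  linarith

theorem not_high_le (hx : Acc ℓ W x) (huv : u ≠ v) (h' : adj u v = false ∨ 0 < κ u v)
    (h : ¬ high adj κ x (u, v) = true) : mg W u v ≤ 17 * eta n / 8 := by
  have h3 : ((2 : ℕ) : ℝ) * ((cnt x u v : ℝ) / NN ℓ) ≤ 4 * eta n :=
    cnt_le fun h2 => h (high_iff.2 ⟨huv, h', h2⟩)
  have h4 := (abs_le.1 (hx u v huv)).1
  generalize (cnt x u v : ℝ) / NN ℓ = c at h3 h4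
  generalize mg W u v = m at h4 ⊢
  push_cast at h3
  linarith

omit [NeZero n] in
theorem pairs_le : ∑ u : Fin n, ∑ v : Fin n, (if u < v then (1 : ℝ) else 0) ≤ (n : ℝ) ^ 2 / 2 := by
  have h1 : ∑ u : Fin n, ∑ v : Fin n, (if u < v then (1 : ℝ) else 0) =
      ∑ u : Fin n, ∑ v : Fin n, (if v < u then (1 : ℝ) else 0) := sum_comm
  have h2 : ∑ u : Fin n, ∑ v : Fin n, (if u < v then (1 : ℝ) else 0) +
      ∑ u : Fin n, ∑ v : Fin n, (if v < u then (1 : ℝ) else 0) ≤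
      ∑ u : Fin n, ∑ v : Fin n, (1 : ℝ) := by
    rw [← sum_add_distrib]
    refine sum_le_sum fun u _ => ?_
    rw [← sum_add_distrib]
    refine sum_le_sum fun v _ => ?_
    by_cases h : u < v
    · rw [if_pos h, if_neg h.le.not_gt, add_zero]
    · rw [if_neg h, zero_add]
      split_ifs <;> norm_num
  rw [← h1] at h2
  simp only [sum_const, card_univ, Fintype.card_fin, nsmul_eq_mul, mul_one] at h2
  linarith

theorem log_ge {ρ : ℝ} (h1 : 1 ≤ ρ) (h2 : ρ ≤ 8 / 7) :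
    7 / 8 * (ρ - 1) ≤ 1 - 1 / ρ ∧ 1 - 1 / ρ ≤ Real.log ρ := by
  have h0 : 0 < ρ := by linarith
  refine ⟨?_, by simpa using Real.one_sub_inv_le_log_of_pos h0⟩
  rw [one_sub_div h0.ne', le_div_iff₀ h0]
  nlinarith

theorem arith_raise {ρ e B E t : ℝ} (h1 : 1 + t ≤ ρ) (ht : 0 ≤ t) (h2 : ρ ≤ 8 / 7) (he : 0 ≤ e)
    (hB : 1 ≤ B) (hE0 : 0 < E) (hE : E ≤ 1 + 8 / 7 * (ρ - 1) * (5 * e / 8) * B) :
    Real.log E - e * Real.log ρ * B ≤ -(t * e / 8) := by
  obtain ⟨h3, h4⟩ := log_ge (by linarith) h2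
  have h5 := Real.log_le_sub_one_of_pos hE0
  have h6 : e * (7 / 8 * (ρ - 1)) * B ≤ e * Real.log ρ * B :=
    mul_le_mul_of_nonneg_right (mul_le_mul_of_nonneg_left (h3.trans h4) he) (by linarith)
  have h7 : t * e * 1 ≤ (ρ - 1) * e * B :=
    mul_le_mul (mul_le_mul_of_nonneg_right (by linarith) he) hB zero_le_one
      (mul_nonneg (by linarith) he)
  have h8 : 0 ≤ t * e := mul_nonneg ht he
  nlinarith

theorem arith_lower {ρ e m E t : ℝ} (h1 : 1 + t ≤ ρ) (ht : 0 ≤ t) (h2 : ρ ≤ 8 / 7) (he : 0 ≤ e)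
    (hm : 15 * e / 8 ≤ m) (hE0 : 0 < E) (hE : E = 1 - (1 - 1 / ρ) * m) :
    Real.log E - e * Real.log ρ * (-1) ≤ -(t * e / 8) := by
  obtain ⟨h3, -⟩ := log_ge (by linarith) h2
  have h4 := Real.log_le_sub_one_of_pos (show 0 < ρ by linarith)
  have h5 := Real.log_le_sub_one_of_pos hE0
  have h6 : e * Real.log ρ ≤ e * (ρ - 1) := mul_le_mul_of_nonneg_left h4 he
  have h7 : 7 / 8 * (ρ - 1) * (15 * e / 8) ≤ (1 - 1 / ρ) * m :=
    mul_le_mul h3 hm (by positivity) (le_trans (by linarith) h3)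
  have h8 : t * e ≤ (ρ - 1) * e := mul_le_mul_of_nonneg_right (by linarith) he
  have h9 : 0 ≤ t * e := mul_nonneg ht he
  nlinarith

end Learn

open Learn

theorem rr_pow_le {j : ℕ} (hj : j ≤ JJ ℓ) : ((rr n ℓ : ℝ) ^ j) ^ (n / 2) ≤ 8 / 7 := by
  have hn := n_pos (n := n)
  have hJ := J_pos (ℓ := ℓ)
  have h1 : (rr n ℓ : ℝ) ≤ Real.exp (1 / (4 * n * JJ ℓ)) := by
    rw [rr_eq, add_comm]
    exact Real.add_one_le_exp _
  have h2 : ((j * (n / 2) : ℕ) : ℝ) * (1 / (4 * n * JJ ℓ)) ≤ 1 / 8 := by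
    have h3 : 2 * (j * (n / 2)) ≤ JJ ℓ * n := by
      rw [mul_left_comm]
      exact Nat.mul_le_mul hj (Nat.mul_div_le n 2)
    have h4 : (2 : ℝ) * ((j * (n / 2) : ℕ) : ℝ) ≤ JJ ℓ * n := by exact_mod_cast h3
    rw [mul_one_div, div_le_iff₀ (by positivity)]
    generalize ((j * (n / 2) : ℕ) : ℝ) = a at h4 ⊢
    generalize (JJ ℓ : ℝ) = J at h4 ⊢
    linarith
  have h5 : Real.exp (1 / 8) ≤ 8 / 7 := by
    have h6 := Real.add_one_le_exp (-(1 / 8))
    rw [Real.exp_neg, le_inv_comm₀ (by norm_num) (Real.exp_pos _)] at h6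
    norm_num at h6 ⊢
    exact h6
  rw [← pow_mul]
  refine (pow_le_pow_left₀ (zero_le_one.trans one_le_rr) h1 _).trans ?_
  rw [← Real.exp_nat_mul]
  exact (Real.exp_le_exp.2 h2).trans h5

theorem rho_ge : 1 + 1 / (4 * (n : ℝ)) ≤ (rho n ℓ : ℝ) := by
  have hn := n_pos (n := n)
  have hJ := J_pos (ℓ := ℓ)
  rw [rho_eq, rr_eq]
  refine le_trans (le_of_eq ?_) (one_add_mul_le_pow (a := 1 / (4 * (n : ℝ) * JJ ℓ))
    (le_trans (by norm_num) (show (0 : ℝ) ≤ _ by positivity)) (JJ ℓ))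
  generalize (JJ ℓ : ℝ) = J at hJ ⊢
  field_simp

theorem Wr_add (k d : Mat n) (j : ℕ) :
    Wr ℓ (k + (j : ℤ) • d) = tilt (Wr ℓ k) ((rr n ℓ : ℝ) ^ j) d := by
  funext u v
  change (rr n ℓ : ℝ) ^ (k u v + (j : ℤ) * d u v) =
    (rr n ℓ : ℝ) ^ k u v * ((rr n ℓ : ℝ) ^ j) ^ d u v
  rw [zpow_add₀ (lt_of_lt_of_le one_pos one_le_rr).ne', zpow_mul, zpow_natCast]

theorem Wm_zero : Wm ℓ (0 : Mat n) = fun _ _ => 1 := by
  rw [Wm_eq]
  funext u v
  exact zpow_zero _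

theorem bal_zero (hn : Even n) : Bal (eta n / 4) (Wm ℓ (0 : Mat n)) := by
  intro u v huv
  rw [Wm_zero, mg_one hn huv]
  have h2 : (2 : ℝ) ≤ n := by
    have := NeZero.pos n
    obtain ⟨k, hk⟩ := hn
    exact_mod_cast (show 2 ≤ n by omega)
  unfold eta
  rw [div_div]
  exact one_div_le_one_div_of_le (by linarith) (by nlinarith)

theorem psi_zero (hn : Even n) : Psi ℓ (0 : Mat n) ≤ (n : ℝ) ^ 2 := by
  have h1 : ZZ (fun _ _ : Fin n => (1 : ℝ)) = z0 n := by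
    unfold ZZ
    rw [sum_congr rfl fun σ _ => wt_const (1 : ℝ) σ, one_pow, sum_const, card_univ, card_PM hn,
      nsmul_eq_mul, mul_one]
  have h2 : (z0 n : ℝ) ≤ 2 ^ (n ^ 2) := by exact_mod_cast z0_le n
  have h3 : (0 : ℝ) < z0 n := by exact_mod_cast z0_pos n
  have h4 := Real.log_le_log h3 h2
  rw [Real.log_pow, Nat.cast_pow] at h4
  have h5 : Real.log 2 ≤ 1 := by linarith [Real.log_le_sub_one_of_pos (show (0 : ℝ) < 2 by norm_num)]
  unfold Psi
  rw [Wm_zero, h1]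
  simp only [Pi.zero_apply, Int.cast_zero, ite_self, sum_const_zero, mul_zero, sub_zero]
  exact h4.trans (mul_le_of_le_one_right (by positivity) h5)

theorem psi_nonneg (hκ : Symm κ) (h0 : ∀ u v, adj u v = true → 0 ≤ κ u v)
    (hG : ∃ σ : PM n, ∀ v, adj v (σ.1 v) = true) : 0 ≤ Psi ℓ κ := by
  obtain ⟨σ0, h1⟩ := hG
  obtain ⟨σ, h2, h3⟩ := exists_large σ0 hκ fun v => h0 _ _ (h1 v)
  have h4 : wt (Wm ℓ κ) σ.1 ≤ ZZ (Wm ℓ κ) :=
    single_le_sum (f := fun σ : PM n => wt (Wm ℓ κ) σ.1)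
      (fun τ _ => wt_nonneg (fun u v => ((posW_Wm hκ).2 u v).le) τ.1) (mem_univ σ)
  rw [wt_Wm] at h4
  have h5 := Real.log_le_log (zpow_pos rho_pos _) h4
  rw [Real.log_zpow] at h5
  have h6 : (∑ u, ∑ v, if u < v then (κ u v : ℝ) else 0) ≤ (n : ℝ) ^ 2 * (cost κ σ.1 : ℤ) := by
    exact_mod_cast h2
  have h7 : (0 : ℝ) ≤ (cost κ σ.1 : ℤ) := by exact_mod_cast h3
  have h8 := Real.log_nonneg (one_le_rho (n := n) (ℓ := ℓ))
  have h9 := mul_le_mul_of_nonneg_left h6 (mul_nonneg (eta_pos (n := n)).le h8)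
  have h10 := eta_mul (n := n)
  unfold Psi
  generalize (∑ u, ∑ v, if u < v then (κ u v : ℝ) else 0) = S at h9 ⊢
  generalize Real.log (ZZ (Wm ℓ κ)) = Z at h5 ⊢
  generalize Real.log (rho n ℓ) = L at h5 h8 h9 ⊢
  generalize ((cost κ σ.1 : ℤ) : ℝ) = c at h5 h7 h9
  have h11 : eta n * L * (n ^ 2 * c) = c * L / 4 := by linear_combination (L * c) * h10
  have h12 := mul_nonneg h7 h8
  linarith

theorem dir_isDir {x : Pop n ℓ} {d : Mat n} (hd : dir adj κ x = some d) : IsDir d := by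
  rcases dir_cases hd with ⟨-, h⟩ | ⟨-, p, -, h⟩
  · refine ⟨fun u v => by rw [h, h, low_symm], fun u v => ?_⟩
    rw [h]
    split_ifs <;> norm_num
  · refine ⟨fun u v => ?_, fun u v => ?_⟩
    · rw [h, h]
      exact if_congr (by tauto) rfl rfl
    · rw [h]
      split_ifs <;> norm_num

namespace Learn

theorem pow_le (hn : Even n) {j : ℕ} (hj : j ≤ JJ ℓ) : (rr n ℓ : ℝ) ^ j ≤ 8 / 7 := by
  refine le_trans (le_self_pow₀ (one_le_pow₀ one_le_rr) ?_) (rr_pow_le hj)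
  have := NeZero.pos n
  obtain ⟨k, hk⟩ := hn
  omega

theorem Wm_add (κ d : Mat n) : Wm ℓ (κ + d) = tilt (Wm ℓ κ) (rho n ℓ : ℝ) d := by
  unfold Wm
  rw [smul_add, Wr_add, rho_eq]

omit [NeZero n] in
theorem symm_add {d : Mat n} (hκ : Symm κ) (hd : Symm d) : Symm (κ + d) := fun u v => by
  change κ u v + d u v = κ v u + d v u
  rw [hκ u v, hd u v]

theorem psi_add (hn : Even n) (hκ : Symm κ) {d : Mat n} (hd : Symm d) :
    0 < ∑ σ : PM n, gib (Wm ℓ κ) σ * (rho n ℓ : ℝ) ^ cost d σ.1 ∧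
    Psi ℓ (κ + d) = Psi ℓ κ +
      (Real.log (∑ σ : PM n, gib (Wm ℓ κ) σ * (rho n ℓ : ℝ) ^ cost d σ.1) -
        eta n * Real.log (rho n ℓ) * ∑ u, ∑ v, if u < v then (d u v : ℝ) else 0) := by
  have h1 := ZZ_pos hn (posW_Wm (ℓ := ℓ) hκ)
  have h2 := ZZ_pos hn (posW_Wm (ℓ := ℓ) (symm_add hκ hd))
  rw [Wm_add, ZZ_tilt hn (posW_Wm hκ) rho_pos] at h2
  have h3 := (mul_pos_iff_of_pos_left h1).1 h2
  refine ⟨h3, ?_⟩
  have h4 : (∑ u, ∑ v, if u < v then ((κ + d) u v : ℝ) else 0) =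
      (∑ u, ∑ v, if u < v then (κ u v : ℝ) else 0) + ∑ u, ∑ v, if u < v then (d u v : ℝ) else 0 := by
    rw [← sum_add_distrib]
    refine sum_congr rfl fun u _ => ?_
    rw [← sum_add_distrib]
    refine sum_congr rfl fun v _ => ?_
    split_ifs
    · exact Int.cast_add _ _
    · exact (add_zero _).symm
  unfold Psi
  rw [h4, Wm_add, ZZ_tilt hn (posW_Wm hκ) rho_pos, Real.log_mul h1.ne' h3.ne']
  ring

theorem drop_eq : 1 / (4 * (n : ℝ)) * eta n / 8 = 1 / (128 * (n : ℝ) ^ 3) := by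
  have := n_pos (n := n)
  unfold eta
  field_simp
  norm_num

end Learn

theorem dir_some (hn : Even n) (ha : Symm adj) (hκ : Symm κ)
    (h0 : ∀ u v, adj u v = true → 0 ≤ κ u v) (hB : Bal (eta n / 4) (Wm ℓ κ)) {x : Pop n ℓ}
    (hx : Acc ℓ (Wm ℓ κ) x) {d : Mat n} (hd : dir adj κ x = some d) :
    (∀ j ≤ JJ ℓ, Bal (eta n / 4) (Wr ℓ ((JJ ℓ : ℤ) • κ + (j : ℤ) • d))) ∧
    (∀ u v, adj u v = true → 0 ≤ (κ + d) u v) ∧
    Psi ℓ (κ + d) ≤ Psi ℓ κ - 1 / (128 * (n : ℝ) ^ 3) := by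
  have hds := (dir_isDir hd).1
  have hW := posW_Wm (ℓ := ℓ) hκ
  have he := eta_pos (n := n)
  have hρ : (rho n ℓ : ℝ) ≤ 8 / 7 := by
    rw [rho_eq]
    exact pow_le hn le_rfl
  have ht : 0 ≤ 1 / (4 * (n : ℝ)) := by positivity
  obtain ⟨hE, hP⟩ := psi_add (ℓ := ℓ) hn hκ hds
  rw [hP, sub_eq_add_neg (Psi ℓ κ), add_le_add_iff_left, ← drop_eq]
  rcases dir_cases hd with ⟨⟨u0, v0, hl⟩, h⟩ | ⟨hl, p, hp, h⟩
  · have h01 : ∀ u v, d u v = 0 ∨ d u v = 1 := fun u v => by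
      rw [h]
      split_ifs
      · exact Or.inr rfl
      · exact Or.inl rfl
    have hb : (n : ℝ) ^ 2 * (5 * eta n / 8) ≤ 1 := by
      have := eta_mul (n := n)
      linarith
    have hlow : ∀ u v, d u v = 1 → mg (Wm ℓ κ) u v ≤ 5 * eta n / 8 := fun u v h1 => by
      refine low_le hx ?_
      by_contra h2
      rw [h, if_neg h2] at h1
      exact zero_ne_one h1
    refine ⟨fun j hj u v huv => ?_, fun u v huv => ?_, ?_⟩
    · obtain ⟨r1, r2, -⟩ := raise hn hW (one_le_pow₀ one_le_rr) (rr_pow_le hj) hds h01 hb hlow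
      rw [Wr_add]
      by_cases h1 : low x u v = true
      · exact (hB u v huv).trans (r1 u v huv (by rw [h, if_pos h1]))
      · refine le_trans ?_ (r2 u v)
        have h2 := not_low_ge hx huv h1
        generalize mg (Wm ℓ κ) u v = m at h2 ⊢
        linarith
    · change 0 ≤ κ u v + d u v
      have h1 := h0 u v huv
      rcases h01 u v with h2 | h2 <;> rw [h2] <;> omega
    · have r3 := (raise hn hW (one_le_rho (ℓ := ℓ)) (by rw [rho_eq]; exact rr_pow_le le_rfl)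
        hds h01 hb hlow).2.2
      refine arith_raise rho_ge ht hρ he.le ?_ hE r3
      have hnn : ∀ u v, (0 : ℝ) ≤ if u < v then (d u v : ℝ) else 0 := fun u v => by
        split_ifs
        · rcases h01 u v with h2 | h2 <;> rw [h2] <;> norm_num
        · exact le_rfl
      have key : ∀ u v, u < v → low x u v = true →
          1 ≤ ∑ u, ∑ v, if u < v then (d u v : ℝ) else 0 := fun u v h1 h2 => by
        refine le_trans ?_ (single_le_sum (f := fun u => ∑ v, if u < v then (d u v : ℝ) else 0)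
          (fun a _ => sum_nonneg fun b _ => hnn a b) (mem_univ u))
        refine le_trans ?_ (single_le_sum (f := fun v => if u < v then (d u v : ℝ) else 0)
          (fun b _ => hnn u b) (mem_univ v))
        rw [if_pos h1, h, if_pos h2, Int.cast_one]
      rcases lt_or_gt_of_ne (low_iff.1 hl).1 with h1 | h1
      · exact key _ _ h1 hl
      · exact key _ _ h1 (by rw [low_symm, hl])
  · obtain ⟨hp1, hp2, -⟩ := high_iff.1 hp
    refine ⟨fun j hj u v huv => ?_, fun u v huv => ?_, ?_⟩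
    · have h1 : (1 : ℝ) ≤ (rr n ℓ : ℝ) ^ j := one_le_pow₀ one_le_rr
      rw [Wr_add]
      refine le_trans ?_ ((lower hn hW h1 hp1 h).1 u v)
      have h2 := not_low_ge hx huv (hl u v)
      have h3 := mul_le_mul_of_nonneg_left (pow_le hn hj) he.le
      rw [le_div_iff₀ (lt_of_lt_of_le one_pos h1)]
      generalize mg (Wm ℓ κ) u v = m at h2 ⊢
      generalize (rr n ℓ : ℝ) ^ j = a at h3 ⊢
      linarith
    · change 0 ≤ κ u v + d u v
      have h1 := h0 u v huv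
      rw [h]
      split_ifs with h2
      · rcases h2 with ⟨rfl, rfl⟩ | ⟨rfl, rfl⟩
        · have := hp2.resolve_left (by rw [huv]; decide)
          omega
        · have := hp2.resolve_left (by rw [ha, huv]; decide)
          rw [hκ] at this
          omega
      · omega
    · obtain ⟨-, r2, r3⟩ := lower hn hW (one_le_rho (ℓ := ℓ)) hp1 h
      rw [r3]
      exact arith_lower rho_ge ht hρ he.le (high_ge hx hp) hE r2

theorem fin_mem (h0 : ∀ u v, adj u v = true → 0 ≤ κ u v) (σ : PM n) :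
    0 ≤ (fin ℓ adj κ σ : ℝ) ∧ (fin ℓ adj κ σ : ℝ) ≤ 1 := by
  unfold fin
  by_cases h : ∀ v, adj v (σ.1 v) = true
  · rw [if_pos h, back_eq]
    refine ⟨(zpow_pos rho_pos _).le, zpow_le_one_of_nonpos₀ one_le_rho (neg_nonpos.2 ?_)⟩
    have h1 := cost_le_of_le (c := fun _ _ => (0 : ℤ)) (c' := κ) (σ := σ.1)
      fun v _ => h0 _ _ (h v)
    rwa [cost_const, smul_zero] at h1
  · rw [if_neg h, Rat.cast_zero]
    exact ⟨le_rfl, zero_le_one⟩

namespace Learn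

/-- The indicator of the pairs that may still be lowered. -/
noncomputable def bad (adj : Gr n) (κ : Mat n) (u v : Fin n) : ℝ :=
  if (adj u v = false ∨ 0 < κ u v) ∨ adj v u = false then 1 else 0

theorem fin_ge (h0 : ∀ u v, adj u v = true → 0 ≤ κ u v) (σ : PM n) :
    1 - cost (bad adj κ) σ.1 ≤ (fin ℓ adj κ σ : ℝ) := by
  have hnn : ∀ v, (0 : ℝ) ≤ if v < σ.1 v then bad adj κ v (σ.1 v) else 0 := fun v => by
    unfold bad
    split_ifs <;> norm_num
  have hc : cost (bad adj κ) σ.1 = ∑ v, if v < σ.1 v then bad adj κ v (σ.1 v) else 0 := rfl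
  by_cases h : ∃ v, v < σ.1 v ∧ ((adj v (σ.1 v) = false ∨ 0 < κ v (σ.1 v)) ∨
      adj (σ.1 v) v = false)
  · obtain ⟨v, h1, h2⟩ := h
    refine le_trans (sub_nonpos.2 ?_) (fin_mem h0 σ).1
    rw [hc]
    refine le_trans ?_ (single_le_sum (fun a _ => hnn a) (mem_univ v))
    unfold bad
    rw [if_pos h1, if_pos h2]
  · have h1 : ∀ v, v < σ.1 v → adj v (σ.1 v) = true ∧ adj (σ.1 v) v = true ∧ κ v (σ.1 v) = 0 := by
      intro v hv
      have h2 : ¬ _ := fun h' => h ⟨v, hv, h'⟩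
      rw [not_or, not_or, Bool.not_eq_false, Bool.not_eq_false] at h2
      exact ⟨h2.1.1, h2.2, le_antisymm (not_lt.1 h2.1.2) (h0 _ _ h2.1.1)⟩
    have h2 : ∀ v, adj v (σ.1 v) = true := fun v => by
      rcases lt_or_gt_of_ne (σ.2.2 v) with h3 | h3
      · have := (h1 (σ.1 v) (by rw [σ.2.1 v]; exact h3)).2.1
        rwa [σ.2.1 v] at this
      · exact (h1 v h3).1
    have h3 : cost κ σ.1 = 0 := by
      change (∑ v, if v < σ.1 v then κ v (σ.1 v) else 0) = 0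
      refine sum_eq_zero fun v _ => ?_
      split_ifs with h4
      · exact (h1 v h4).2.2
      · rfl
    unfold fin
    rw [if_pos h2, back_eq, h3, neg_zero, zpow_zero, hc]
    exact sub_le_self _ (sum_nonneg fun v _ => hnn v)

end Learn

theorem dir_none (hn : Even n) (hκ : Symm κ) (h0 : ∀ u v, adj u v = true → 0 ≤ κ u v)
    {x : Pop n ℓ} (hx : Acc ℓ (Wm ℓ κ) x) (hd : dir adj κ x = none) :
    1 / 2 ≤ ∑ σ, gib (Wm ℓ κ) σ * (fin ℓ adj κ σ : ℝ) := by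
  have hW := posW_Wm (ℓ := ℓ) hκ
  have he := eta_pos (n := n)
  refine le_trans ?_ (sum_le_sum fun σ _ =>
    mul_le_mul_of_nonneg_left (fin_ge h0 σ) (gib_pos hn hW σ).le)
  simp only [mul_sub, mul_one]
  rw [sum_sub_distrib, sum_gib hn hW, sum_gib_cost]
  have h1 : (∑ u, ∑ v, if u < v then bad adj κ u v * mg (Wm ℓ κ) u v else 0) ≤
      ∑ u : Fin n, ∑ v : Fin n, (if u < v then (1 : ℝ) else 0) * (17 * eta n / 8) := by
    refine sum_le_sum fun u _ => sum_le_sum fun v _ => ?_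
    by_cases huv : u < v
    · rw [if_pos huv, if_pos huv, one_mul]
      unfold bad
      by_cases h2 : (adj u v = false ∨ 0 < κ u v) ∨ adj v u = false
      · rw [if_pos h2, one_mul]
        rcases h2 with h2 | h2
        · exact not_high_le hx huv.ne h2 (dir_none_high hd _)
        · rw [mg_symm]
          exact not_high_le hx huv.ne' (Or.inl h2) (dir_none_high hd _)
      · rw [if_neg h2, zero_mul]
        positivity
    · rw [if_neg huv, if_neg huv, zero_mul]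
  simp only [← sum_mul] at h1
  have h2 := h1.trans (mul_le_mul_of_nonneg_right pairs_le (by positivity))
  have h3 := eta_mul (n := n)
  generalize (∑ u, ∑ v, if u < v then bad adj κ u v * mg (Wm ℓ κ) u v else 0) = S at h2 ⊢
  linarith

theorem back_mem {d : Mat n} (hd : IsDir d) (σ : PM n) :
    1 / 2 ≤ (back ℓ d σ : ℝ) ∧ (back ℓ d σ : ℝ) ≤ 2 := by
  have h1 := abs_cost_le hd.2 σ
  have h2 : |cost d σ.1| ≤ ((n / 2 : ℕ) : ℤ) := by omega
  obtain ⟨h3, h4⟩ := abs_le.1 h2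
  have h5 : (rho n ℓ : ℝ) ^ ((n / 2 : ℕ) : ℤ) ≤ 2 := by
    rw [zpow_natCast, rho_eq]
    exact (rr_pow_le le_rfl).trans (by norm_num)
  rw [back_eq]
  refine ⟨le_trans ?_ (zpow_le_zpow_right₀ one_le_rho (neg_le_neg h4)),
    (zpow_le_zpow_right₀ one_le_rho (neg_le.1 h3)).trans h5⟩
  rw [zpow_neg, one_div]
  exact inv_anti₀ (zpow_pos rho_pos _) h5

theorem sum_back (hn : Even n) (hκ : Symm κ) {d : Mat n} (hd : Symm d) :
    ZZ (Wm ℓ (κ + d)) * ∑ σ, gib (Wm ℓ (κ + d)) σ * (back ℓ d σ : ℝ) = ZZ (Wm ℓ κ) := by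
  have h1 := ZZ_pos hn (posW_Wm (ℓ := ℓ) (symm_add hκ hd))
  rw [mul_sum]
  refine sum_congr rfl fun σ _ => ?_
  have h2 : cost (κ + d) σ.1 = cost κ σ.1 + cost d σ.1 := cost_add κ d σ.1
  unfold gib
  rw [← mul_assoc, mul_div_cancel₀ _ h1.ne', wt_Wm, wt_Wm, back_eq, ← zpow_add₀ rho_pos.ne', h2,
    add_neg_cancel_right]

theorem sum_fin (hn : Even n) (hκ : Symm κ) :
    ZZ (Wm ℓ κ) * ∑ σ, gib (Wm ℓ κ) σ * (fin ℓ adj κ σ : ℝ) = numPM adj := by
  have h1 := ZZ_pos hn (posW_Wm (ℓ := ℓ) hκ)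
  unfold numPM
  rw [mul_sum, card_filter, Nat.cast_sum]
  refine sum_congr rfl fun σ _ => ?_
  unfold gib fin
  rw [← mul_assoc, mul_div_cancel₀ _ h1.ne', wt_Wm]
  by_cases h : ∀ v, adj v (σ.1 v) = true
  · rw [if_pos h, if_pos h, back_eq, ← zpow_add₀ rho_pos.ne', add_neg_cancel, zpow_zero,
      Nat.cast_one]
  · rw [if_neg h, if_neg h, Rat.cast_zero, mul_zero, Nat.cast_zero]

end Crest.Agent.R304
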