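import Crest.Agent.R304.Kern

/-!
# Row 304: how the marginals and the partition function react to a change of the weights
-/

set_option autoImplicit false

namespace Crest.Agent.R304

open Finset

variable {n : ℕ} {W : Fin n → Fin n → ℝ}

/-- Tilting the weights by `a ^ d`. -/
noncomputable def tilt (W : Fin n → Fin n → ℝ) (a : ℝ) (d : Mat n) : Fin n → Fin n → ℝ :=
  fun u v => W u v * a ^ d u v

namespace LearnA

theorem wt_tilt {a : ℝ} (ha : 0 < a) (d : Mat n) (σ : Fn n) :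
    wt (tilt W a d) σ = wt W σ * a ^ cost d σ := by
  have h := wt_mul W (fun u v => a ^ d u v) σ
  rw [wt_zpow ha.ne'] at h
  exact h

theorem S_pos (hn : Even n) (hW : PosW W) {a : ℝ} (ha : 0 < a) (d : Mat n) :
    0 < ∑ σ : PM n, gib W σ * a ^ cost d σ.1 := by
  have : Nonempty (PM n) := ⟨⟨sig0 hn, isPM_sig0 hn⟩⟩
  exact Finset.sum_pos (fun σ _ => mul_pos (gib_pos hn hW σ) (zpow_pos ha _)) univ_nonempty

theorem cast_cost_real (d : Mat n) (σ : Fn n) :
    ((cost d σ : ℤ) : ℝ) = cost (fun u v => (d u v : ℝ)) σ := by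
  unfold cost
  push_cast
  refine Finset.sum_congr rfl fun v _ => ?_
  split_ifs <;> simp

theorem two_sum_lt {R : Type} [AddCommMonoid R] {f : Fin n → Fin n → R} (hf : Symm f) :
    (∑ u, ∑ v, if u < v then f u v else 0) + (∑ u, ∑ v, if u < v then f u v else 0) =
      ∑ u, ∑ v, if u ≠ v then f u v else 0 := by
  have h : (∑ u, ∑ v, if u < v then f u v else 0) = ∑ u, ∑ v, if v < u then f u v else 0 := by
    rw [Finset.sum_comm]
    refine Finset.sum_congr rfl fun u _ => Finset.sum_congr rfl fun v _ => ?_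
    rw [hf v u]
  nth_rewrite 2 [h]
  rw [← Finset.sum_add_distrib]
  refine Finset.sum_congr rfl fun u _ => ?_
  rw [← Finset.sum_add_distrib]
  refine Finset.sum_congr rfl fun v _ => ?_
  rcases lt_trichotomy u v with h | h | h
  · simp [h, h.ne, not_lt.2 h.le]
  · simp [h]
  · simp [h, h.ne', not_lt.2 h.le]

theorem cost_nonneg {κ : Mat n} {σ : Fn n} (h : ∀ v, σ v ≠ v → 0 ≤ κ v (σ v)) :
    0 ≤ cost κ σ := by
  unfold cost
  refine Finset.sum_nonneg fun v _ => ?_
  split_ifs with hv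
  · exact h v hv.ne'
  · exact le_rfl

theorem edge_le_cost {κ : Mat n} (hκ : Symm κ) (σ : PM n) (h : ∀ v, 0 ≤ κ v (σ.1 v)) (u : Fin n) :
    κ u (σ.1 u) ≤ cost κ σ.1 := by
  rw [cost_rem hκ σ.2.1 (σ.2.2 u)]
  have : 0 ≤ cost κ (rem σ.1 u) := by
    refine cost_nonneg fun v hv => ?_
    unfold rem at hv ⊢
    split_ifs at hv ⊢ with hc
    · exact absurd rfl hv
    · exact h v
  linarith

theorem pow_le_lin {a c : ℝ} (ha : 1 ≤ a) : ∀ k : ℕ, a ^ k ≤ c → a ^ k ≤ 1 + c * (a - 1) * k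
  | 0, _ => by simp
  | k + 1, h => by
    have h1 : a ^ k ≤ a ^ (k + 1) := pow_le_pow_right₀ ha (Nat.le_succ k)
    have h2 := pow_le_lin ha k (h1.trans h)
    have h3 : a ^ k * (a - 1) ≤ c * (a - 1) :=
      mul_le_mul_of_nonneg_right (h1.trans h) (by linarith)
    rw [pow_succ]
    push_cast
    nlinarith

end LearnA

open LearnA

theorem ZZ_tilt (hn : Even n) (hW : PosW W) {a : ℝ} (ha : 0 < a) (d : Mat n) :
    ZZ (tilt W a d) = ZZ W * ∑ σ : PM n, gib W σ * a ^ cost d σ.1 := by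
  have hZ := (ZZ_pos hn hW).ne'
  rw [Finset.mul_sum]
  conv_lhs => unfold ZZ
  refine Finset.sum_congr rfl fun σ _ => ?_
  rw [wt_tilt ha, gib]
  field_simp

theorem mg_tilt (hn : Even n) (hW : PosW W) {a : ℝ} (ha : 0 < a) (d : Mat n) (u v : Fin n) :
    mg (tilt W a d) u v * ∑ σ : PM n, gib W σ * a ^ cost d σ.1 =
      ∑ σ : PM n, if σ.1 u = v then gib W σ * a ^ cost d σ.1 else 0 := by
  have hZ := (ZZ_pos hn hW).ne'
  have hS := (S_pos hn hW ha d).ne'
  rw [mg, Finset.sum_mul]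
  refine Finset.sum_congr rfl fun σ _ => ?_
  split_ifs with h
  · rw [gib, ZZ_tilt hn hW ha d, wt_tilt ha]
    generalize (∑ σ : PM n, gib W σ * a ^ cost d σ.1) = S at hS ⊢
    rw [gib]
    field_simp
  · simp

/-- Raising a set of rare pairs. -/
theorem raise (hn : Even n) (hW : PosW W) {a b : ℝ} (ha : 1 ≤ a) (ha' : a ^ (n / 2) ≤ 8 / 7)
    {d : Mat n} (hd : Symm d) (h01 : ∀ u v, d u v = 0 ∨ d u v = 1) (hb : (n : ℝ) ^ 2 * b ≤ 1)
    (hlow : ∀ u v, d u v = 1 → mg W u v ≤ b) :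
    (∀ u v, u ≠ v → d u v = 1 → mg W u v ≤ mg (tilt W a d) u v) ∧
    (∀ u v, 7 / 8 * mg W u v ≤ mg (tilt W a d) u v) ∧
    ∑ σ : PM n, gib W σ * a ^ cost d σ.1 ≤
      1 + 8 / 7 * (a - 1) * b * ∑ u, ∑ v, if u < v then (d u v : ℝ) else 0 := by
  have ha0 : 0 < a := by linarith
  have hd0 : ∀ u v, 0 ≤ d u v := fun u v => by rcases h01 u v with h | h <;> simp [h]
  have hd1 : ∀ u v, d u v ≤ 1 := fun u v => by rcases h01 u v with h | h <;> simp [h]
  have hX0 : ∀ σ : PM n, 0 ≤ cost d σ.1 := fun σ => cost_nonneg fun v _ => hd0 _ _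
  have hX1 : ∀ σ : PM n, cost d σ.1 ≤ ((n / 2 : ℕ) : ℤ) := fun σ => by
    have h1 : cost d σ.1 ≤ cost (fun _ _ => (1 : ℤ)) σ.1 := cost_le_of_le fun v _ => hd1 _ _
    rw [cost_const] at h1
    simpa using h1
  have hup : ∀ σ : PM n, a ^ cost d σ.1 ≤ 8 / 7 := fun σ => by
    have h1 : a ^ cost d σ.1 ≤ a ^ ((n / 2 : ℕ) : ℤ) := zpow_le_zpow_right₀ ha (hX1 σ)
    rw [zpow_natCast] at h1
    exact h1.trans ha'
  have hlo : ∀ σ : PM n, 1 ≤ a ^ cost d σ.1 := fun σ => one_le_zpow₀ ha (hX0 σ)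
  have hlin : ∀ σ : PM n, a ^ cost d σ.1 ≤ 1 + 8 / 7 * (a - 1) * ((cost d σ.1 : ℤ) : ℝ) := by
    intro σ
    have h1 := hup σ
    obtain ⟨k, hk⟩ := Int.eq_ofNat_of_zero_le (hX0 σ)
    rw [hk] at h1 ⊢
    rw [zpow_natCast] at h1 ⊢
    simpa using pow_le_lin ha k h1
  set D : ℝ := ∑ u, ∑ v, if u < v then (d u v : ℝ) else 0 with hD
  have hE : ∑ σ : PM n, gib W σ * ((cost d σ.1 : ℤ) : ℝ) ≤ b * D := by
    simp_rw [cast_cost_real]
    rw [sum_gib_cost, hD, Finset.mul_sum]
    refine Finset.sum_le_sum fun u _ => ?_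
    rw [Finset.mul_sum]
    refine Finset.sum_le_sum fun v _ => ?_
    split_ifs with h
    · rcases h01 u v with h' | h'
      · simp [h']
      · simpa [h'] using hlow u v h'
    · simp
  have h3 : ∑ σ : PM n, gib W σ * a ^ cost d σ.1 ≤ 1 + 8 / 7 * (a - 1) * b * D := by
    calc ∑ σ : PM n, gib W σ * a ^ cost d σ.1
        ≤ ∑ σ : PM n, gib W σ * (1 + 8 / 7 * (a - 1) * ((cost d σ.1 : ℤ) : ℝ)) :=
          Finset.sum_le_sum fun σ _ =>
            mul_le_mul_of_nonneg_left (hlin σ) (gib_pos hn hW σ).le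
      _ = ∑ σ : PM n, gib W σ +
            8 / 7 * (a - 1) * ∑ σ : PM n, gib W σ * ((cost d σ.1 : ℤ) : ℝ) := by
          rw [Finset.mul_sum, ← Finset.sum_add_distrib]
          refine Finset.sum_congr rfl fun σ _ => ?_
          ring
      _ ≤ 1 + 8 / 7 * (a - 1) * (b * D) := by
          rw [sum_gib hn hW]
          have : 0 ≤ 8 / 7 * (a - 1) := by linarith
          nlinarith [mul_le_mul_of_nonneg_left hE this]
      _ = _ := by ring
  have hD0 : 0 ≤ D := Finset.sum_nonneg fun u _ => Finset.sum_nonneg fun v _ => by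
    split_ifs
    · exact_mod_cast hd0 u v
    · exact le_rfl
  have hD1 : D + D ≤ (n : ℝ) ^ 2 := by
    have hs : Symm fun u v => (d u v : ℝ) := fun u v => by simp only [hd u v]
    rw [hD, two_sum_lt hs]
    calc (∑ u : Fin n, ∑ v : Fin n, if u ≠ v then (d u v : ℝ) else 0)
        ≤ ∑ _u : Fin n, ∑ _v : Fin n, (1 : ℝ) :=
          Finset.sum_le_sum fun u _ => Finset.sum_le_sum fun v _ => by
            split_ifs
            · exact_mod_cast hd1 u v
            · exact zero_le_one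
      _ = (n : ℝ) ^ 2 := by simp [sq]
  have hbD : b * D ≤ 1 / 2 := by
    rcases le_total b 0 with h | h
    · nlinarith
    · nlinarith
  have hSa : ∑ σ : PM n, gib W σ * a ^ cost d σ.1 ≤ a := by
    have : 0 ≤ a - 1 := by linarith
    nlinarith [mul_le_mul_of_nonneg_left hbD this]
  have hS8 : ∑ σ : PM n, gib W σ * a ^ cost d σ.1 ≤ 8 / 7 := by
    calc ∑ σ : PM n, gib W σ * a ^ cost d σ.1 ≤ ∑ σ : PM n, gib W σ * (8 / 7) :=
          Finset.sum_le_sum fun σ _ => mul_le_mul_of_nonneg_left (hup σ) (gib_pos hn hW σ).le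
      _ = 8 / 7 := by rw [← Finset.sum_mul, sum_gib hn hW, one_mul]
  have hS0 := S_pos hn hW ha0 d
  have hW' : PosW (tilt W a d) :=
    ⟨fun u v => by simp only [tilt, hW.1 u v, hd u v],
      fun u v => mul_pos (hW.2 u v) (zpow_pos ha0 _)⟩
  refine ⟨fun u v huv h1 => ?_, fun u v => ?_, h3⟩
  · have hN : mg W u v * a ≤ mg (tilt W a d) u v * ∑ σ : PM n, gib W σ * a ^ cost d σ.1 := by
      rw [mg_tilt hn hW ha0, mg, Finset.sum_mul]
      refine Finset.sum_le_sum fun σ _ => ?_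
      split_ifs with h
      · refine mul_le_mul_of_nonneg_left ?_ (gib_pos hn hW σ).le
        have h2 := edge_le_cost hd σ (fun w => hd0 _ _) u
        rw [h, h1] at h2
        simpa using zpow_le_zpow_right₀ ha h2
      · simp
    have h0 := mg_nonneg hW' u v
    have h4 := mul_le_mul_of_nonneg_left hSa h0
    exact le_of_mul_le_mul_right (hN.trans h4) ha0
  · have hN : mg W u v ≤ mg (tilt W a d) u v * ∑ σ : PM n, gib W σ * a ^ cost d σ.1 := by
      rw [mg_tilt hn hW ha0, mg]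
      refine Finset.sum_le_sum fun σ _ => ?_
      split_ifs with h
      · exact le_mul_of_one_le_right (gib_pos hn hW σ).le (hlo σ)
      · exact le_rfl
    have h0 := mg_nonneg hW' u v
    have h4 := mul_le_mul_of_nonneg_left hS8 h0
    linarith

/-- Lowering one pair. -/
theorem lower (hn : Even n) (hW : PosW W) {a : ℝ} (ha : 1 ≤ a) {p q : Fin n} (hpq : p ≠ q)
    {d : Mat n} (hd : ∀ u v, d u v = if (u = p ∧ v = q) ∨ (u = q ∧ v = p) then -1 else 0) :
    (∀ u v, mg W u v / a ≤ mg (tilt W a d) u v) ∧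
    ∑ σ : PM n, gib W σ * a ^ cost d σ.1 = 1 - (1 - 1 / a) * mg W p q ∧
    (∑ u, ∑ v, if u < v then (d u v : ℝ) else 0) = -1 := by
  have ha0 : 0 < a := by linarith
  have hs : Symm d := fun u v => by
    rw [hd u v, hd v u]
    exact if_congr (by tauto) rfl rfl
  have hX : ∀ σ : PM n, cost d σ.1 = if σ.1 p = q then -1 else 0 := by
    intro σ
    split_ifs with h
    · rw [cost_rem hs σ.2.1 (σ.2.2 p), h, hd p q, if_pos (Or.inl ⟨rfl, rfl⟩)]
      have : cost d (rem σ.1 p) = 0 := by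
        unfold cost
        refine Finset.sum_eq_zero fun v _ => ?_
        split_ifs with hv
        · rw [hd, if_neg]
          rintro (⟨h1, h2⟩ | ⟨h1, h2⟩)
          · simp [rem, h1] at hv
          · simp [rem, h1, h] at hv
        · rfl
      rw [this, zero_add]
    · unfold cost
      refine Finset.sum_eq_zero fun v _ => ?_
      split_ifs with hv
      · rw [hd, if_neg]
        rintro (⟨h1, h2⟩ | ⟨h1, h2⟩)
        · exact h (h1 ▸ h2)
        · exact h (σ.2.1.eq_iff.1 (h1 ▸ h2))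
      · rfl
  have h2 : ∑ σ : PM n, gib W σ * a ^ cost d σ.1 = 1 - (1 - 1 / a) * mg W p q := by
    rw [← sum_gib hn hW, mg, Finset.mul_sum, ← Finset.sum_sub_distrib]
    refine Finset.sum_congr rfl fun σ _ => ?_
    rw [hX σ, sum_gib hn hW]
    split_ifs with h
    · rw [zpow_neg, zpow_one]
      field_simp
      ring
    · simp
  have hinv : 1 / a ≤ 1 := by rw [div_le_one ha0]; exact ha
  have hS1 : ∑ σ : PM n, gib W σ * a ^ cost d σ.1 ≤ 1 := by
    rw [h2]
    have := mg_nonneg hW p q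
    nlinarith
  have hW' : PosW (tilt W a d) :=
    ⟨fun u v => by simp only [tilt, hW.1 u v, hs u v],
      fun u v => mul_pos (hW.2 u v) (zpow_pos ha0 _)⟩
  refine ⟨fun u v => ?_, h2, ?_⟩
  · have hN : mg W u v / a ≤ mg (tilt W a d) u v * ∑ σ : PM n, gib W σ * a ^ cost d σ.1 := by
      rw [mg_tilt hn hW ha0, mg, Finset.sum_div]
      refine Finset.sum_le_sum fun σ _ => ?_
      have hg := (gib_pos hn hW σ).le
      rw [hX σ]
      split_ifs with h h'
      · rw [zpow_neg, zpow_one, div_eq_mul_inv]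
      · rw [zpow_zero, mul_one]
        exact div_le_self hg ha
      · simp
    have h0 := mg_nonneg hW' u v
    have h4 := mul_le_mul_of_nonneg_left hS1 h0
    linarith
  · have hs' : Symm fun u v => (d u v : ℝ) := fun u v => by simp only [hs u v]
    have h3 := two_sum_lt hs'
    have h4 : (∑ u : Fin n, ∑ v : Fin n, if u ≠ v then (d u v : ℝ) else 0) = -2 := by
      have h5 : ∀ u v : Fin n, (if u ≠ v then (d u v : ℝ) else 0) =
          (if v = q then (if u = p then -1 else 0) else 0) +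
            (if v = p then (if u = q then -1 else 0) else 0) := by
        intro u v
        rw [hd u v]
        by_cases h1 : u = p <;> by_cases h2 : u = q <;> by_cases h3 : v = p <;>
          by_cases h4 : v = q <;> simp_all [eq_comm]
      simp_rw [h5, Finset.sum_add_distrib]
      norm_num
    linarith

/-- Some perfect matching has a large exponent. -/
theorem exists_large (σ0 : PM n) {κ : Mat n} (hκ : Symm κ) (h0 : ∀ v, 0 ≤ κ v (σ0.1 v)) :
    ∃ σ : PM n, (∑ u, ∑ v, if u < v then κ u v else 0) ≤ (n : ℤ) ^ 2 * cost κ σ.1 ∧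
      0 ≤ cost κ σ.1 := by
  obtain ⟨σ, -, hσ⟩ := Finset.exists_max_image (univ : Finset (PM n)) (fun σ => cost κ σ.1)
    ⟨σ0, mem_univ _⟩
  have hc0 : 0 ≤ cost κ σ0.1 := cost_nonneg fun v _ => h0 v
  have hc1 : cost κ σ0.1 ≤ cost κ σ.1 := hσ σ0 (mem_univ _)
  have hM : 0 ≤ cost κ σ.1 := hc0.trans hc1
  refine ⟨σ, ?_, hM⟩
  have he := edge_le_cost hκ σ0 h0
  have hg : ∀ u v, u ≠ v → κ u v + κ (σ0.1 u) (σ0.1 v) ≤ 2 * cost κ σ.1 := by
    intro u v huv
    by_cases h : σ0.1 u = v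
    · have h1 := he u
      have h2 := he v
      rw [h] at h1 ⊢
      linarith
    · have h1 := cost_force hκ σ0 huv h
      have h2 := hσ (force σ0 u v) (mem_univ _)
      have h3 := he u
      have h4 := he v
      linarith
  have hperm : (∑ u, ∑ v, if u ≠ v then κ (σ0.1 u) (σ0.1 v) else 0) =
      ∑ u, ∑ v, if u ≠ v then κ u v else 0 := by
    let e : Equiv.Perm (Fin n) := Function.Involutive.toPerm σ0.1 σ0.2.1
    rw [← Equiv.sum_comp e (fun u => ∑ v, if u ≠ v then κ u v else 0)]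
    refine Finset.sum_congr rfl fun u _ => ?_
    rw [← Equiv.sum_comp e (fun v => if e u ≠ v then κ (e u) v else 0)]
    refine Finset.sum_congr rfl fun v _ => ?_
    exact if_congr (by simp) rfl rfl
  have htwo := two_sum_lt hκ
  have hsum : (∑ u, ∑ v, if u ≠ v then κ u v else 0) +
      (∑ u, ∑ v, if u ≠ v then κ (σ0.1 u) (σ0.1 v) else 0) ≤ (n : ℤ) ^ 2 * (2 * cost κ σ.1) := by
    rw [← Finset.sum_add_distrib]
    calc _ ≤ ∑ _u : Fin n, ∑ _v : Fin n, 2 * cost κ σ.1 := by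
          refine Finset.sum_le_sum fun u _ => ?_
          rw [← Finset.sum_add_distrib]
          refine Finset.sum_le_sum fun v _ => ?_
          split_ifs with h
          · exact hg u v h
          · linarith
      _ = _ := by simp [sq, mul_assoc]
  have hn2 : 0 ≤ (n : ℤ) ^ 2 * cost κ σ.1 := mul_nonneg (sq_nonneg _) hM
  rw [hperm] at hsum
  linarith

end Crest.Agent.R304
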