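import Crest.Agent.R304.Force

/-!
# Row 304: alternating walks and cycles; telescoping over the cycles
-/

set_option autoImplicit false

namespace Crest.Agent.R304

open Finset

variable {n : ℕ}

/-- The alternating walk from `v`, starting with an edge of `P`. -/
def walk (P Q : PM n) (v : Fin n) : ℕ → Fin n
  | 0 => v
  | t + 1 => (if t % 2 = 0 then P else Q).1 (walk P Q v t)

theorem walk_succ_even (P Q : PM n) (v : Fin n) {t : ℕ} (ht : t % 2 = 0) :
    walk P Q v (t + 1) = P.1 (walk P Q v t) := by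
  rw [walk, if_pos ht]

theorem walk_succ_odd (P Q : PM n) (v : Fin n) {t : ℕ} (ht : t % 2 = 1) :
    walk P Q v (t + 1) = Q.1 (walk P Q v t) := by
  rw [walk, if_neg (by omega)]

theorem walk_step_eq (P Q : PM n) (v : Fin n) {s t : ℕ} (h : s % 2 = t % 2) :
    ∃ σ : PM n, walk P Q v (s + 1) = σ.1 (walk P Q v s) ∧
      walk P Q v (t + 1) = σ.1 (walk P Q v t) := by
  rcases Nat.mod_two_eq_zero_or_one s with hs | hs
  · exact ⟨P, walk_succ_even P Q v hs, walk_succ_even P Q v (by omega)⟩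
  · exact ⟨Q, walk_succ_odd P Q v hs, walk_succ_odd P Q v (by omega)⟩

/-- The first return of the alternating walk. -/
theorem exists_return (I H : PM n) (o : Fin n) : ∃ L, 2 ≤ L ∧ L % 2 = 0 ∧
    walk I H o L = o ∧ ∀ s < L, ∀ t < L, walk I H o s = walk I H o t → s = t := by
  classical
  have hex : ∃ L, ∃ s < L, walk I H o s = walk I H o L := by
    obtain ⟨a, b, hab, e⟩ := Finite.exists_ne_map_eq_of_infinite (walk I H o)
    rcases lt_or_gt_of_ne hab with h | h
    · exact ⟨b, a, h, e⟩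
    · exact ⟨a, b, h, e.symm⟩
  obtain ⟨s, hs, e⟩ := Nat.find_spec hex
  have hmin : ∀ t < Nat.find hex, ∀ s < t, walk I H o s ≠ walk I H o t := fun t ht s hst e =>
    Nat.find_min hex ht ⟨s, hst, e⟩
  generalize Nat.find hex = L at *
  have hinj : ∀ s < L, ∀ t < L, walk I H o s = walk I H o t → s = t := by
    intro a ha b hb e
    rcases lt_trichotomy a b with h | h | h
    · exact absurd e (hmin b hb a h)
    · exact h
    · exact absurd e.symm (hmin a ha b h)
  obtain ⟨L, rfl⟩ : ∃ L', L = L' + 1 := ⟨L - 1, by omega⟩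
  by_cases hp : s % 2 = L % 2
  · exfalso
    obtain ⟨σ, e1, e2⟩ := walk_step_eq I H o hp
    have e3 : walk I H o (s + 1) = walk I H o L := by rw [e1, e, e2, σ.2.1]
    rcases (Nat.lt_succ_iff.1 hs).eq_or_lt with rfl | hlt
    · exact σ.2.2 _ (e1.symm.trans e3)
    · have := hinj _ (by omega) _ (by omega) e3
      omega
  · rcases s with _ | s
    · exact ⟨L + 1, by omega, by omega, e.symm, hinj⟩
    · exfalso
      obtain ⟨σ, e1, e2⟩ := walk_step_eq I H o (show s % 2 = L % 2 by omega)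
      rw [e1, e2] at e
      have := hinj _ (by omega) _ (by omega) (σ.2.1.inj e)
      omega

theorem orb_walk (I H : PM n) (o : Fin n) (t : ℕ) : orb I.1 H.1 o (walk I H o t) = true := by
  induction t with
  | zero => exact orb_self _ _ _
  | succ t ih =>
    rcases Nat.mod_two_eq_zero_or_one t with ht | ht
    · rw [walk_succ_even I H o ht, orb_closed_left I.2.1 H.2.1 o, ih]
    · rw [walk_succ_odd I H o ht, orb_closed_right I.2.1 H.2.1 o, ih]

theorem exists_walk_of_orb (I H : PM n) (o : Fin n) {L : ℕ} (h2 : 2 ≤ L) (hL : L % 2 = 0)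
    (hret : walk I H o L = o) {u : Fin n} (hu : orb I.1 H.1 o u = true) :
    ∃ t < L, walk I H o t = u := by
  refine orb_ind (p := fun u => ∃ t < L, walk I H o t = u) ⟨0, by omega, rfl⟩ ?_ ?_ hu
  · rintro _ ⟨t, ht, rfl⟩
    rcases Nat.mod_two_eq_zero_or_one t with hp | hp
    · exact ⟨t + 1, by omega, walk_succ_even I H o hp⟩
    · obtain ⟨t, rfl⟩ : ∃ t', t = t' + 1 := ⟨t - 1, by omega⟩
      exact ⟨t, by omega, by rw [walk_succ_even I H o (by omega), I.2.1]⟩
  · rintro _ ⟨t, ht, rfl⟩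
    rcases Nat.mod_two_eq_zero_or_one t with hp | hp
    · rcases t with _ | t
      · obtain ⟨L, rfl⟩ : ∃ L', L = L' + 1 := ⟨L - 1, by omega⟩
        refine ⟨L, by omega, ?_⟩
        rw [walk_succ_odd I H o (by omega)] at hret
        exact (H.2.1.eq_iff.1 hret).symm
      · exact ⟨t, by omega, by rw [walk_succ_odd I H o (by omega), H.2.1]⟩
    · rcases (Nat.succ_le_of_lt ht).eq_or_lt with e | hlt
      · refine ⟨0, by omega, ?_⟩
        rw [← walk_succ_odd I H o hp, show t + 1 = L from e, hret]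
        rfl
      · exact ⟨t + 1, hlt, walk_succ_odd I H o hp⟩

/-- The alternating cycle through `o`. -/
theorem exists_loop (I H : PM n) (o : Fin n) : ∃ L, 2 ≤ L ∧ L ≤ n ∧ L % 2 = 0 ∧
    walk I H o L = o ∧ Set.InjOn (walk I H o) (Set.Icc 1 L) ∧
    FF 0 I (walk I H o) 1 (L - 1) = (kem o (I, H)).1 := by
  obtain ⟨L, h2, hL, hret, hinj⟩ := exists_return I H o
  have h0 : walk I H o L = walk I H o 0 := hret
  have hI : Set.InjOn (walk I H o) (Set.Icc 1 L) := by
    rintro a ⟨a1, a2⟩ b ⟨b1, b2⟩ e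
    rcases a2.eq_or_lt with rfl | a2 <;> rcases b2.eq_or_lt with b3 | b2
    · exact b3.symm
    · have := hinj 0 (by omega) b b2 (h0.symm.trans e)
      omega
    · subst b3
      have := hinj a a2 0 (by omega) (e.trans h0)
      omega
    · exact hinj a a2 b b2 e
  refine ⟨L, h2, ?_, hL, hret, hI, ?_⟩
  · have := Finset.card_le_card_of_injOn (s := range L) (t := univ) (walk I H o)
      (fun _ _ => by simp) (fun a ha b hb e => hinj a (by simpa using ha) b (by simpa using hb) e)
    simpa using this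
  have hown : Own 0 I (walk I H o) 1 (L - 1) :=
    ⟨by rwa [show L - 1 + 1 = L by omega],
      fun t _ ht => (walk_succ_even I H o (by omega)).symm⟩
  have u1 : up 0 1 = 1 := by simp [up]
  have u2 : up 0 (L - 1) = L - 1 := by
    unfold up
    rw [if_neg (by omega)]
  have hx1 : I.1 (walk I H o 1) = walk I H o 0 := by
    rw [walk_succ_even I H o (t := 0) rfl, I.2.1]
  have hodd : ∀ t < L, t % 2 = 1 →
      (FF 0 I (walk I H o) 1 (L - 1)).1 (walk I H o t) = H.1 (walk I H o t) := by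
    intro t ht hp
    rw [← walk_succ_odd I H o hp]
    rcases (Nat.succ_le_of_lt ht).eq_or_lt with e | hlt
    · have := hown.FF_patch (by omega)
      rw [u1, u2, hx1, show L - 1 = t by omega] at this
      rw [show L - 1 = t by omega, this, show t + 1 = L from e, h0]
    · exact hown.FF_edge (by omega) (by omega) (by omega)
  have heven : ∀ t < L, t % 2 = 1 →
      (FF 0 I (walk I H o) 1 (L - 1)).1 (walk I H o (t + 1)) = H.1 (walk I H o (t + 1)) := by
    intro t ht hp
    rw [walk_succ_odd I H o hp, H.2.1, ← hodd t ht hp, (FF 0 I (walk I H o) 1 (L - 1)).2.1]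
  refine Subtype.ext (funext fun v => ?_)
  change _ = mix (orb I.1 H.1 o) I.1 H.1 v
  unfold mix
  split_ifs with hv
  · obtain ⟨t, ht, rfl⟩ := exists_walk_of_orb I H o h2 hL hret hv
    rcases Nat.mod_two_eq_zero_or_one t with hp | hp
    · rcases t with _ | t
      · have := heven (L - 1) (by omega) (by omega)
        rwa [show L - 1 + 1 = L by omega, h0] at this
      · exact heven t (by omega) (by omega)
    · exact hodd t ht hp
  · refine hown.FF_rest (by omega) (fun t _ _ e => hv ?_) (fun e => hv ?_)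
    · rw [e]; exact orb_walk I H o t
    · rw [e, u1, hx1]; exact orb_walk I H o 0

/-- The union of the components of the vertices below `m`. -/
def orbs (σ τ : Fn n) (m : ℕ) : Fin n → Bool :=
  fun u => decide (∃ w : Fin n, (w : ℕ) < m ∧ orb σ τ w u = true)

theorem orbs_closed_left {σ τ : Fn n} (hσ : IsInv σ) (hτ : IsInv τ) (m : ℕ) :
    Closed (orbs σ τ m) σ := fun v => by
  simp only [orbs, orb_closed_left hσ hτ _ v]

theorem orbs_closed_right {σ τ : Fn n} (hσ : IsInv σ) (hτ : IsInv τ) (m : ℕ) :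
    Closed (orbs σ τ m) τ := fun v => by
  simp only [orbs, orb_closed_right hσ hτ _ v]

/-- The swap on all the components of the vertices below `m`. -/
def kems (m : ℕ) (s : PM n × PM n) : PM n × PM n :=
  (⟨mix (orbs s.1.1 s.2.1 m) s.1.1 s.2.1, mix_pm s.1.2 s.2.2
      (orbs_closed_left s.1.2.1 s.2.2.1 m) (orbs_closed_right s.1.2.1 s.2.2.1 m)⟩,
    ⟨mix (orbs s.1.1 s.2.1 m) s.2.1 s.1.1, mix_pm s.2.2 s.1.2
      (orbs_closed_right s.1.2.1 s.2.2.1 m) (orbs_closed_left s.1.2.1 s.2.2.1 m)⟩)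

theorem orbs_mix (K : Fin n → Bool) (σ τ : Fn n) (m : ℕ) :
    orbs (mix K σ τ) (mix K τ σ) m = orbs σ τ m := by
  funext u
  simp only [orbs, orb_mix]

theorem kems_kems (m : ℕ) (s : PM n × PM n) : kems m (kems m s) = s := by
  refine Prod.ext (Subtype.ext ?_) (Subtype.ext ?_)
  · change mix (orbs (mix _ _ _) (mix _ _ _) m) (mix _ _ _) (mix _ _ _) = _
    rw [orbs_mix, mix_mix]
  · change mix (orbs (mix _ _ _) (mix _ _ _) m) (mix _ _ _) (mix _ _ _) = _
    rw [orbs_mix, mix_mix]

theorem kems_zero (s : PM n × PM n) : kems 0 s = s := by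
  refine Prod.ext (Subtype.ext ?_) (Subtype.ext ?_) <;> funext u <;> simp [kems, mix, orbs]

theorem kems_top (s : PM n × PM n) : (kems n s).1 = s.2 := by
  refine Subtype.ext (funext fun u => ?_)
  have : orbs s.1.1 s.2.1 n u = true := by
    simp only [orbs, decide_eq_true_eq]
    exact ⟨u, u.2, orb_self _ _ _⟩
  simp [kems, mix, this]

theorem orbs_succ (σ τ : Fn n) (v u : Fin n) :
    orbs σ τ (v + 1) u = (orbs σ τ v u || orb σ τ v u) := by
  rw [Bool.eq_iff_iff]
  simp only [orbs, decide_eq_true_eq, Bool.or_eq_true]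
  constructor
  · rintro ⟨w, hw, h⟩
    rcases (Nat.lt_succ_iff.1 hw).eq_or_lt with e | hlt
    · right; rwa [← Fin.ext e]
    · exact Or.inl ⟨w, hlt, h⟩
  · rintro (⟨w, hw, h⟩ | h)
    · exact ⟨w, by omega, h⟩
    · exact ⟨v, by omega, h⟩

theorem mix_step {K K' O : Fin n → Bool} (σ τ : Fn n) (h : ∀ u, K' u = (K u || O u))
    (hd : ∀ u, O u = true → K u = false) :
    mix K' σ τ = mix O (mix K σ τ) (mix K τ σ) := by
  funext u
  unfold mix
  rw [h u]
  by_cases hO : O u = true
  · simp [hO, hd u hO]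
  · simp [hO]

theorem kems_succ (v : Fin n) (s : PM n × PM n) :
    kems (v + 1) s = kems v s ∨ kems (v + 1) s = kem v (kems v s) := by
  have h1 := s.1.2.1
  have h2 := s.2.2.1
  by_cases hv : orbs s.1.1 s.2.1 v v = true
  · left
    have e : orbs s.1.1 s.2.1 (v + 1) = orbs s.1.1 s.2.1 v := by
      funext u
      rw [orbs_succ]
      by_cases hO : orb s.1.1 s.2.1 v u = true
      · have : orbs s.1.1 s.2.1 v u = true := by
          simp only [orbs, decide_eq_true_eq] at hv ⊢
          obtain ⟨w, hw, h⟩ := hv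
          exact ⟨w, hw, by rw [← orb_eq h1 h2 h]; exact hO⟩
        simp [this]
      · simp [hO]
    refine Prod.ext (Subtype.ext ?_) (Subtype.ext ?_) <;> simp only [kems, e]
  · right
    have hd : ∀ u, orb s.1.1 s.2.1 v u = true → orbs s.1.1 s.2.1 v u = false := by
      intro u hu
      by_contra hc
      apply hv
      simp only [orbs, Bool.not_eq_false, decide_eq_true_eq] at hc ⊢
      obtain ⟨w, hw, h⟩ := hc
      refine ⟨w, hw, ?_⟩
      rw [← orb_eq h1 h2 h, orb_eq h1 h2 hu]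
      exact orb_self _ _ _
    refine Prod.ext (Subtype.ext ?_) (Subtype.ext ?_)
    · change mix _ _ _ = mix (orb (mix _ _ _) (mix _ _ _) v) (mix _ _ _) (mix _ _ _)
      rw [orb_mix]
      exact mix_step _ _ (orbs_succ _ _ v) hd
    · change mix _ _ _ = mix (orb (mix _ _ _) (mix _ _ _) v) (mix _ _ _) (mix _ _ _)
      rw [orb_mix]
      exact mix_step _ _ (orbs_succ _ _ v) hd

theorem kems_law {π : PM n → ℝ}
    (hk : ∀ v s, π (kem v s).1 * π (kem v s).2 = π s.1 * π s.2) (s : PM n × PM n) (m : ℕ)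
    (hm : m ≤ n) : π (kems m s).1 * π (kems m s).2 = π s.1 * π s.2 := by
  induction m with
  | zero => rw [kems_zero]
  | succ m ih =>
    rcases kems_succ ⟨m, hm⟩ s with e | e
    · exact (congrArg (fun t : PM n × PM n => π t.1 * π t.2) e).trans (ih (by omega))
    · exact (congrArg (fun t : PM n × PM n => π t.1 * π t.2) e).trans
        ((hk _ _).trans (ih (by omega)))

theorem sq_le_kems (g : PM n → ℝ) (s : PM n × PM n) :
    (g s.1 - g s.2) ^ 2 ≤ n * ∑ o : Fin n, (g (kem o (kems o s)).1 - g (kems o s).1) ^ 2 := by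
  have e : ∑ o : Fin n, (g (kems (o + 1) s).1 - g (kems o s).1) = g s.2 - g s.1 := by
    rw [Fin.sum_univ_eq_sum_range (fun m => g (kems (m + 1) s).1 - g (kems m s).1) n,
      Finset.sum_range_sub (fun m => g (kems m s).1), kems_top, kems_zero]
  have h := sq_sum_le_card_mul_sum_sq (s := univ)
    (f := fun o : Fin n => g (kems (o + 1) s).1 - g (kems o s).1)
  rw [e, Finset.card_univ, Fintype.card_fin] at h
  rw [show (g s.1 - g s.2) ^ 2 = (g s.2 - g s.1) ^ 2 by ring]
  refine h.trans (mul_le_mul_of_nonneg_left (Finset.sum_le_sum fun o _ => ?_) (Nat.cast_nonneg _))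
  rcases kems_succ o s with e | e
  · rw [e, sub_self]
    simpa using sq_nonneg _
  · rw [e]

/-- Telescoping over the cycles. -/
theorem var_le_kem {π : PM n → ℝ} (hπ : ∀ σ, 0 ≤ π σ)
    (hk : ∀ v s, π (kem v s).1 * π (kem v s).2 = π s.1 * π s.2) (g : PM n → ℝ) :
    ∑ s : PM n × PM n, π s.1 * π s.2 * (g s.1 - g s.2) ^ 2 ≤
      n * ∑ o, ∑ s : PM n × PM n, π s.1 * π s.2 * (g (kem o s).1 - g s.1) ^ 2 := by
  have e : ∀ o : Fin n, ∑ s : PM n × PM n, π s.1 * π s.2 * (g (kem o s).1 - g s.1) ^ 2 =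
      ∑ s : PM n × PM n, π s.1 * π s.2 * (g (kem o (kems o s)).1 - g (kems o s).1) ^ 2 := by
    intro o
    rw [← (Function.Involutive.bijective (kems_kems (n := n) o)).sum_comp]
    exact Finset.sum_congr rfl fun s _ => by rw [kems_law hk s o o.2.le]
  simp_rw [e]
  rw [Finset.sum_comm, Finset.mul_sum]
  refine Finset.sum_le_sum fun s _ => ?_
  rw [← Finset.mul_sum, mul_left_comm]
  exact mul_le_mul_of_nonneg_left (sq_le_kems g s) (mul_nonneg (hπ _) (hπ _))

/-- The matchings that agree with `Y` on the first `k + 1` vertices of the walk from `z`. -/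
def cls (X : PM n) (z : Fin n) (k : ℕ) (Y : PM n) : Finset (PM n) :=
  univ.filter fun Y' => ∀ t ≤ k, Y'.1 (walk Y X z t) = Y.1 (walk Y X z t)

theorem mem_cls_self (X : PM n) (z : Fin n) (k : ℕ) (Y : PM n) : Y ∈ cls X z k Y := by
  simp [cls]

theorem walk_eq_of_mem_cls {X Y Y' : PM n} {z : Fin n} {k : ℕ} (h : Y' ∈ cls X z k Y) (t : ℕ)
    (ht : t ≤ k + 1) : walk Y' X z t = walk Y X z t := by
  simp only [cls, mem_filter, mem_univ, true_and] at h
  induction t with
  | zero => rfl
  | succ t ih =>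
    rcases Nat.mod_two_eq_zero_or_one t with hp | hp
    · rw [walk_succ_even _ _ _ hp, walk_succ_even _ _ _ hp, ih (by omega), h t (by omega)]
    · rw [walk_succ_odd _ _ _ hp, walk_succ_odd _ _ _ hp, ih (by omega)]

theorem cls_eq {X Y Y' : PM n} {z : Fin n} {k : ℕ} (h : Y' ∈ cls X z k Y) :
    cls X z k Y' = cls X z k Y := by
  have hw := walk_eq_of_mem_cls h
  simp only [cls, mem_filter, mem_univ, true_and] at h
  ext Z
  simp only [cls, mem_filter, mem_univ, true_and]
  refine forall₂_congr fun t ht => ?_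
  rw [hw t (by omega), h t ht]

/-- Resampling inside a class preserves the law. -/
theorem sum_cls {π : PM n → ℝ} (hπ : ∀ σ, 0 < π σ) (X : PM n) (z : Fin n) (k : ℕ)
    (F : PM n → ℝ) :
    ∑ Y, π Y * ((∑ Y' ∈ cls X z k Y, F Y') / ∑ Y' ∈ cls X z k Y, π Y') = ∑ Y, F Y := by
  have hsymm : ∀ Y Y' : PM n, Y' ∈ cls X z k Y ↔ Y ∈ cls X z k Y' := fun Y Y' =>
    ⟨fun h => by rw [cls_eq h]; exact mem_cls_self _ _ _ _,
      fun h => by rw [cls_eq h]; exact mem_cls_self _ _ _ _⟩
  have hpos : ∀ Y : PM n, 0 < ∑ Y' ∈ cls X z k Y, π Y' := fun Y =>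
    Finset.sum_pos (fun _ _ => hπ _) ⟨Y, mem_cls_self _ _ _ _⟩
  calc ∑ Y, π Y * ((∑ Y' ∈ cls X z k Y, F Y') / ∑ Y' ∈ cls X z k Y, π Y')
      = ∑ Y, ∑ Y' ∈ cls X z k Y, π Y * (F Y' / ∑ Z ∈ cls X z k Y', π Z) := by
        refine Finset.sum_congr rfl fun Y _ => ?_
        rw [Finset.sum_div, Finset.mul_sum]
        exact Finset.sum_congr rfl fun Y' h => by rw [cls_eq h]
    _ = ∑ Y', ∑ Y ∈ cls X z k Y', π Y * (F Y' / ∑ Z ∈ cls X z k Y', π Z) :=
        Finset.sum_comm' fun Y Y' => by simp [hsymm Y Y']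
    _ = ∑ Y, F Y := by
        refine Finset.sum_congr rfl fun Y _ => ?_
        rw [← Finset.sum_mul, mul_div_cancel₀ _ (hpos Y).ne']

end Crest.Agent.R304
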