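import Crest.Agent.R304.Force

/-!
# Row 304: exchanging a segment of an alternating path is a move
-/

set_option autoImplicit false

namespace Crest.Agent.R304

open Finset

variable {n : ℕ}

theorem cycle_closed {σ : Fn n} (hσ : IsInv σ) {y : ℕ → Fin n} {a b e : ℕ}
    (hpar : (a + b) % 2 = 1) (h1 : ∀ t, a ≤ t → t < b → t % 2 = e % 2 → σ (y t) = y (t + 1))
    (h2 : b % 2 = e % 2 → σ (y b) = y a) (u : Fin n) (hu : ∃ t, a ≤ t ∧ t ≤ b ∧ u = y t) :
    ∃ t, a ≤ t ∧ t ≤ b ∧ σ u = y t := by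
  obtain ⟨t, g1, g2, rfl⟩ := hu
  by_cases ht : t % 2 = e % 2
  · rcases g2.eq_or_lt with rfl | g2
    · exact ⟨a, le_rfl, g1, h2 ht⟩
    · exact ⟨t + 1, by omega, g2, h1 t g1 g2 ht⟩
  · rcases g1.eq_or_lt with rfl | g1
    · exact ⟨b, g2, le_rfl, hσ.eq_iff.1 (h2 (by omega))⟩
    · obtain ⟨s, rfl⟩ : ∃ s, t = s + 1 := ⟨t - 1, by omega⟩
      exact ⟨s, by omega, by omega, hσ.eq_iff.1 (h1 s (by omega) (by omega) (by omega))⟩

/-- The component of an alternating cycle. -/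
theorem orb_cycle {σ τ : Fn n} (hσ : IsInv σ) (hτ : IsInv τ) {y : ℕ → Fin n} {a b e : ℕ}
    (hab : a ≤ b) (hpar : (a + b) % 2 = 1)
    (h1 : ∀ t, a ≤ t → t < b → t % 2 = e % 2 → σ (y t) = y (t + 1))
    (h2 : b % 2 = e % 2 → σ (y b) = y a)
    (h3 : ∀ t, a ≤ t → t < b → t % 2 = (e + 1) % 2 → τ (y t) = y (t + 1))
    (h4 : b % 2 = (e + 1) % 2 → τ (y b) = y a) (v : Fin n) :
    orb σ τ (y a) v = true ↔ ∃ t, a ≤ t ∧ t ≤ b ∧ v = y t := by
  refine ⟨orb_ind (p := fun v => ∃ t, a ≤ t ∧ t ≤ b ∧ v = y t) ⟨a, le_rfl, hab, rfl⟩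
    (cycle_closed hσ hpar h1 h2) (cycle_closed hτ hpar h3 h4), ?_⟩
  rintro ⟨t, g1, g2, rfl⟩
  induction t, g1 using Nat.le_induction with
  | base => exact orb_self _ _ _
  | succ t g1 ih =>
    by_cases ht : t % 2 = e % 2
    · rw [← h1 t g1 g2 ht, orb_closed_left hσ hτ]
      exact ih (by omega)
    · rw [← h3 t g1 g2 (by omega), orb_closed_right hσ hτ]
      exact ih (by omega)

theorem pm_agree {F G : PM n} {u v : Fin n} (h1 : F.1 u = v) (h2 : G.1 u = v) : F.1 v = G.1 v := by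
  rw [F.2.1.eq_iff.1 h1, G.2.1.eq_iff.1 h2]

variable {c i j : ℕ} {P Q : PM n} {z : ℕ → Fin n}

theorem seg_odd (hP : Own c P z i j) (hQ : Own (c + 1) Q z i j) (hij : i ≤ j)
    (hi : i % 2 ≠ c % 2) (hj : j % 2 = c % 2) :
    kem (z i) (force P (z i) (z j), Q) = (FF c P z i j, FF (c + 1) Q z i j) := by
  have u1 : up c i = i := if_neg hi
  have u2 : up c j = j + 1 := if_pos hj
  have u3 : up (c + 1) i = i + 1 := if_pos (by omega)
  have u4 : up (c + 1) j = j := if_neg (by omega)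
  have hp : ∀ t, i ≤ t → t ≤ j + 1 → P.1 (z i) ≠ z t := fun t g1 g2 => by
    have := hP.partner_ne hij (t := t) (by omega) (by omega)
    rwa [u1] at this
  have hPj : P.1 (z j) = z (j + 1) := hP.2 j ⟨hij, le_rfl⟩ hj
  have hQi : Q.1 (z (i + 1)) = z i := Q.2.1.eq_iff.1 (hQ.2 i ⟨le_rfl, hij⟩ (by omega))
  have hne : z i ≠ z j := hP.ne le_rfl (by omega) hij (by omega) (by omega)
  have f1 : (force P (z i) (z j)).1 (z i) = z j := force_apply P hne
  have f2 : (force P (z i) (z j)).1 (P.1 (z i)) = z (j + 1) := by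
    rw [force_apply_other P hne (hp j hij (by omega)), hPj]
  have f3 : ∀ t, i ≤ t → t < j → t % 2 = c % 2 → (force P (z i) (z j)).1 (z t) = z (t + 1) := by
    intro t g1 g2 g3
    rw [force_apply_rest P (hP.ne g1 (by omega) le_rfl (by omega) (by omega))
      (hP.ne g1 (by omega) hij (by omega) (by omega)) (hp t g1 (by omega)).symm
      (by rw [hPj]; exact hP.ne g1 (by omega) (by omega) le_rfl (by omega))]
    exact hP.2 t ⟨g1, g2.le⟩ g3
  have f4 : ∀ t, i ≤ t → t < j → t % 2 = (c + 1) % 2 → Q.1 (z t) = z (t + 1) :=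
    fun t g1 g2 g3 => hQ.2 t ⟨g1, g2.le⟩ g3
  have hK := orb_cycle (force P (z i) (z j)).2.1 Q.2.1 hij (by omega) f3
    (fun _ => (force P (z i) (z j)).2.1.eq_iff.1 f1) f4 (fun g => absurd g (by omega))
  have pP := hP.FF_patch hij
  have pQ := hQ.FF_patch hij
  rw [u1, u2] at pP
  rw [u3, u4, hQi] at pQ
  refine Prod.ext (Subtype.ext (funext fun v => ?_)) (Subtype.ext (funext fun v => ?_))
  · change mix _ _ _ v = _
    unfold mix
    split_ifs with hv
    · obtain ⟨t, g1, g2, rfl⟩ := (hK v).1 hv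
      by_cases ht : t % 2 = c % 2
      · obtain ⟨s, rfl⟩ : ∃ s, t = s + 1 := ⟨t - 1, by omega⟩
        exact pm_agree (f4 s (by omega) (by omega) (by omega))
          (hP.FF_edge (by omega) (by omega) (by omega))
      · rw [hP.FF_edge g1 (by omega) ht]
        exact f4 t g1 (by omega) (by omega)
    · have hv' : ∀ t, i ≤ t → t ≤ j → v ≠ z t := fun t g1 g2 e => hv ((hK v).2 ⟨t, g1, g2, e⟩)
      by_cases e1 : v = P.1 (z i)
      · rw [e1, f2, (FF c P z i j).2.1.eq_iff.1 pP]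
      by_cases e2 : v = z (j + 1)
      · rw [e2, pP, (force P (z i) (z j)).2.1.eq_iff.1 f2]
      rw [force_apply_rest P (hv' i le_rfl hij) (hv' j hij le_rfl) e1 (by rwa [hPj]),
        hP.FF_rest hij (fun t g1 g2 => ?_) (by rwa [u1])]
      rcases (show t ≤ j ∨ t = j + 1 by omega) with g | rfl
      · exact hv' t (by omega) g
      · exact e2
  · change mix _ _ _ v = _
    unfold mix
    split_ifs with hv
    · obtain ⟨t, g1, g2, rfl⟩ := (hK v).1 hv
      by_cases ht : t % 2 = c % 2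
      · rcases g2.eq_or_lt with rfl | g2
        · rw [pQ, (force P (z i) (z t)).2.1.eq_iff.1 f1]
        · rw [f3 t g1 g2 ht, hQ.FF_edge g1 g2 (by omega)]
      · rcases g1.eq_or_lt with rfl | g1
        · rw [f1, (FF (c + 1) Q z i j).2.1.eq_iff.1 pQ]
        · obtain ⟨s, rfl⟩ : ∃ s, t = s + 1 := ⟨t - 1, by omega⟩
          exact pm_agree (f3 s (by omega) (by omega) (by omega))
            (hQ.FF_edge (by omega) (by omega) (by omega))
    · have hv' : ∀ t, i ≤ t → t ≤ j → v ≠ z t := fun t g1 g2 e => hv ((hK v).2 ⟨t, g1, g2, e⟩)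
      exact (hQ.FF_rest hij (fun t g1 g2 => hv' t (by omega) (by omega))
        (by rw [u3, hQi]; exact hv' i le_rfl hij)).symm

theorem seg_even (hP : Own c P z i j) (hQ : Own (c + 1) Q z i j) (hij : i ≤ j)
    (hi : i % 2 ≠ c % 2) (hj : j % 2 ≠ c % 2) :
    kem (z i) (P, cjP (z (j + 1)) (P.1 (z i)) Q) =
      (FF c P z i j, cjP (z (j + 1)) (P.1 (z i)) (FF (c + 1) Q z i j)) := by
  have u1 : up c i = i := if_neg hi
  have u2 : up c j = j := if_neg hj
  have u3 : up (c + 1) i = i + 1 := if_pos (by omega)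
  have u4 : up (c + 1) j = j + 1 := if_pos (by omega)
  have hp : ∀ t, i ≤ t → t ≤ j → z t ≠ P.1 (z i) := fun t g1 g2 => by
    have := hP.partner_ne hij (t := t) (by omega) (by omega)
    rw [u1] at this
    exact this.symm
  have hQj : Q.1 (z j) = z (j + 1) := hQ.2 j ⟨hij, le_rfl⟩ (by omega)
  have hQi : Q.1 (z (i + 1)) = z i := Q.2.1.eq_iff.1 (hQ.2 i ⟨le_rfl, hij⟩ (by omega))
  have pP := hP.FF_patch hij
  have pQ := hQ.FF_patch hij
  rw [u1, u2] at pP
  rw [u3, u4, hQi] at pQ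
  have pQ' := (FF (c + 1) Q z i j).2.1.eq_iff.1 pQ
  have hQr : ∀ v, (∀ t, i ≤ t → t ≤ j + 1 → v ≠ z t) → (FF (c + 1) Q z i j).1 v = Q.1 v :=
    fun v hv => hQ.FF_rest hij (fun t g1 g2 => hv t (by omega) (by omega))
      (by rw [u3, hQi]; exact hv i le_rfl (by omega))
  have hPr : ∀ v, (∀ t, i ≤ t → t ≤ j → v ≠ z t) → v ≠ P.1 (z i) → (FF c P z i j).1 v = P.1 v :=
    fun v hv hv' => hP.FF_rest hij (fun t g1 g2 => hv t (by omega) (by omega)) (by rwa [u1])
  generalize hp0 : P.1 (z i) = p at *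
  have hs : ∀ t, i ≤ t → t ≤ j → Equiv.swap (z (j + 1)) p (z t) = z t := fun t g1 g2 =>
    Equiv.swap_apply_of_ne_of_ne (hP.ne g1 (by omega) (by omega) le_rfl (by omega)) (hp t g1 g2)
  have hc : ∀ (R : PM n) v, (cjP (z (j + 1)) p R).1 v =
      Equiv.swap (z (j + 1)) p (R.1 (Equiv.swap (z (j + 1)) p v)) := fun _ _ => rfl
  have f1 : (cjP (z (j + 1)) p Q).1 (z j) = p := by
    rw [hc, hs j hij le_rfl, hQj, Equiv.swap_apply_left]
  have f2 : ∀ t, i ≤ t → t < j → t % 2 = (c + 1) % 2 →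
      (cjP (z (j + 1)) p Q).1 (z t) = z (t + 1) := fun t g1 g2 g3 => by
    rw [hc, hs t g1 g2.le, hQ.2 t ⟨g1, g2.le⟩ g3, hs (t + 1) (by omega) g2]
  have f3 : (cjP (z (j + 1)) p (FF (c + 1) Q z i j)).1 (z i) = p := by
    rw [hc, hs i le_rfl hij, pQ', Equiv.swap_apply_left]
  have f4 : ∀ t, i ≤ t → t < j → t % 2 = c % 2 →
      (cjP (z (j + 1)) p (FF (c + 1) Q z i j)).1 (z t) = z (t + 1) := fun t g1 g2 g3 => by
    rw [hc, hs t g1 g2.le, hQ.FF_edge g1 g2 (by omega), hs (t + 1) (by omega) g2]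
  have f5 : ∀ t, i ≤ t → t < j → t % 2 = c % 2 → P.1 (z t) = z (t + 1) :=
    fun t g1 g2 g3 => hP.2 t ⟨g1, g2.le⟩ g3
  have y1 : ∀ t, t ≤ j → Function.update z (j + 1) p t = z t :=
    fun t g => Function.update_of_ne (by omega) _ _
  have y2 : Function.update z (j + 1) p (j + 1) = p := Function.update_self _ _ _
  have hK0 := orb_cycle (y := Function.update z (j + 1) p) (a := i) (b := j + 1) (e := c)
    P.2.1 (cjP (z (j + 1)) p Q).2.1 (by omega) (by omega)
    (fun t g1 g2 g3 => by rw [y1 t (by omega), y1 (t + 1) (by omega), f5 t g1 (by omega) g3])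
    (fun _ => by rw [y2, y1 i hij, P.2.1.eq_iff.1 hp0])
    (fun t g1 g2 g3 => by
      rcases (Nat.lt_succ_iff.1 g2).eq_or_lt with rfl | g2
      · rw [y1 t le_rfl, y2, f1]
      · rw [y1 t g2.le, y1 (t + 1) g2, f2 t g1 g2 g3])
    (fun g => absurd g (by omega))
  rw [y1 i hij] at hK0
  have hK : ∀ v, orb P.1 (cjP (z (j + 1)) p Q).1 (z i) v = true ↔
      v = p ∨ ∃ t, i ≤ t ∧ t ≤ j ∧ v = z t := fun v => by
    rw [hK0]
    constructor
    · rintro ⟨t, g1, g2, rfl⟩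
      rcases g2.eq_or_lt with rfl | g2
      · exact Or.inl y2
      · exact Or.inr ⟨t, g1, by omega, y1 t (by omega)⟩
    · rintro (rfl | ⟨t, g1, g2, rfl⟩)
      · exact ⟨j + 1, by omega, le_rfl, y2.symm⟩
      · exact ⟨t, g1, by omega, (y1 t g2).symm⟩
  refine Prod.ext (Subtype.ext (funext fun v => ?_)) (Subtype.ext (funext fun v => ?_))
  · change mix _ _ _ v = _
    unfold mix
    split_ifs with hv
    · rcases (hK v).1 hv with rfl | ⟨t, g1, g2, rfl⟩
      · exact pm_agree f1 pP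
      by_cases ht : t % 2 = c % 2
      · obtain ⟨s, rfl⟩ : ∃ s, t = s + 1 := ⟨t - 1, by omega⟩
        exact pm_agree (f2 s (by omega) (by omega) (by omega))
          (hP.FF_edge (by omega) (by omega) (by omega))
      · rcases g2.eq_or_lt with rfl | g2
        · rw [pP]; exact f1
        · rw [hP.FF_edge g1 g2 ht]
          exact f2 t g1 g2 (by omega)
    · exact (hPr v (fun t g1 g2 e => hv ((hK v).2 (Or.inr ⟨t, g1, g2, e⟩)))
        fun e => hv ((hK v).2 (Or.inl e))).symm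
  · change mix _ _ _ v = _
    unfold mix
    split_ifs with hv
    · rcases (hK v).1 hv with rfl | ⟨t, g1, g2, rfl⟩
      · exact pm_agree hp0 f3
      by_cases ht : t % 2 = c % 2
      · rw [f4 t g1 (by omega) ht]
        exact f5 t g1 (by omega) ht
      · rcases g1.eq_or_lt with rfl | g1
        · rw [f3]; exact hp0
        · obtain ⟨s, rfl⟩ : ∃ s, t = s + 1 := ⟨t - 1, by omega⟩
          exact pm_agree (f5 s (by omega) (by omega) (by omega))
            (f4 s (by omega) (by omega) (by omega))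
    · have hv1 : ∀ t, i ≤ t → t ≤ j → v ≠ z t :=
        fun t g1 g2 e => hv ((hK v).2 (Or.inr ⟨t, g1, g2, e⟩))
      have hv2 : v ≠ p := fun e => hv ((hK v).2 (Or.inl e))
      change (cjP (z (j + 1)) p Q).1 v = (cjP (z (j + 1)) p (FF (c + 1) Q z i j)).1 v
      rw [hc, hc, hQr]
      intro t g1 g2
      by_cases e : v = z (j + 1)
      · rw [e, Equiv.swap_apply_left]
        rcases g2.eq_or_lt with rfl | g2
        · exact fun e' => hv2 (e.trans e'.symm)
        · exact (hp t g1 (by omega)).symm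
      · rw [Equiv.swap_apply_of_ne_of_ne e hv2]
        rcases g2.eq_or_lt with rfl | g2
        · exact e
        · exact hv1 t g1 (by omega)

theorem cjP_self (a : Fin n) (σ : PM n) : cjP a a σ = σ := Subtype.ext (cj_self a σ.1)

theorem seg_move' (hP : Own c P z i j) (hQ : Own (c + 1) Q z i j) (hij : i ≤ j)
    (hi : i % 2 ≠ c % 2) : ∃ r, mv r (P, Q) = (FF c P z i j, FF (c + 1) Q z i j) := by
  by_cases hj : j % 2 = c % 2
  · refine ⟨![P.1 (z i), z j, z i, z i, z i, z i, z i, z i, z i], ?_⟩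
    have := seg_odd hP hQ hij hi hj
    change (cjP (z i) (z i) (kem (z i) (force P (z i) (z j), cjP (z i) (z i) Q)).1,
      cjP (z i) (z i) (kem (z i) (force P (z i) (z j), cjP (z i) (z i) Q)).2) = _
    rw [cjP_self, cjP_self, cjP_self, this]
  · refine ⟨![z i, z i, z (j + 1), P.1 (z i), z i, z i, z i, z (j + 1), P.1 (z i)], ?_⟩
    have := seg_even hP hQ hij hi hj
    change (cjP (z i) (z i) (kem (z i) (cjP (z i) (z i) P, cjP (z (j + 1)) (P.1 (z i)) Q)).1,
      cjP (z (j + 1)) (P.1 (z i))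
        (kem (z i) (cjP (z i) (z i) P, cjP (z (j + 1)) (P.1 (z i)) Q)).2) = _
    rw [cjP_self, cjP_self, this, cjP_cjP]

theorem mv_swap (r : Fin 9 → Fin n) (s : PM n × PM n) :
    mv (fun i => r (![2, 3, 0, 1, 4, 7, 8, 5, 6] i)) s.swap = (mv r s).swap := by
  have := kem_swap (r 4) (cjP (r 0) (r 1) s.1, cjP (r 2) (r 3) s.2)
  change (cjP (r 7) (r 8) (kem (r 4) (cjP (r 0) (r 1) s.1, cjP (r 2) (r 3) s.2).swap).1,
    cjP (r 5) (r 6) (kem (r 4) (cjP (r 0) (r 1) s.1, cjP (r 2) (r 3) s.2).swap).2) = _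
  rw [this]
  rfl

theorem seg_move (hP : Own c P z i j) (hQ : Own (c + 1) Q z i j) (hij : i ≤ j) :
    ∃ r, mv r (P, Q) = (FF c P z i j, FF (c + 1) Q z i j) := by
  by_cases hi : i % 2 = c % 2
  · obtain ⟨r, hr⟩ := seg_move' (c := c + 1) hQ
      ⟨hP.1, fun t ht e => hP.2 t ht (by omega)⟩ hij (by omega)
    refine ⟨_, (mv_swap r (Q, P)).trans ?_⟩
    rw [hr, FF_add_two]
    rfl
  · exact seg_move' hP hQ hij hi

end Crest.Agent.R304
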