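import Crest.Agent.R304.NodeW
import Crest.Agent.R304.Seg
import Crest.Agent.R304.Loop

/-!
# Row 304: additivity of the exchange along a cycle, up to moves of pairs
-/

set_option autoImplicit false

namespace Crest.Agent.R304

open Finset

variable {n : ℕ}

/-- The local energy of `g ⊕ g'` at a pair of matchings. -/
noncomputable def Xi (π g g' : PM n → ℝ) (s : PM n × PM n) : ℝ :=
  ∑ r : Fin 9 → Fin n, min (π s.1 * π s.2) (π (mv r s).1 * π (mv r s).2) *
    (g (mv r s).1 + g' (mv r s).2 - g s.1 - g' s.2) ^ 2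

/-- The energy seen from a pair of matchings after a move and a resampling of the second one. -/
noncomputable def Ups (π g : PM n → ℝ) (s : PM n × PM n) : ℝ :=
  ∑ r : Fin 9 → Fin n, ∑ z : Fin n, ∑ k ∈ range n, π (mv r s).2 *
    ((∑ Y' ∈ cls (mv r s).1 z k (mv r s).2, Xi π g g ((mv r s).1, Y')) /
      ∑ Y' ∈ cls (mv r s).1 z k (mv r s).2, π Y')

variable {β : Fin n → Fin n → ℝ} {o : Fin n} {lam : ℝ} {x : ℕ → Fin n} {L c i s j : ℕ}

theorem Xi_nonneg {π : PM n → ℝ} (hπ : ∀ σ, 0 ≤ π σ) (g g' : PM n → ℝ) (s : PM n × PM n) :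
    0 ≤ Xi π g g' s :=
  sum_nonneg fun _ _ => mul_nonneg
    (le_min (mul_nonneg (hπ _) (hπ _)) (mul_nonneg (hπ _) (hπ _))) (sq_nonneg _)

theorem Ups_term_nonneg {π : PM n → ℝ} (hπ : ∀ σ, 0 ≤ π σ) (g : PM n → ℝ) (X Y : PM n)
    (C : Finset (PM n)) : 0 ≤ π Y * ((∑ Y' ∈ C, Xi π g g (X, Y')) / ∑ Y' ∈ C, π Y') :=
  mul_nonneg (hπ _) (div_nonneg (sum_nonneg fun _ _ => Xi_nonneg hπ _ _ _)
    (sum_nonneg fun _ _ => hπ _))

theorem Ups_nonneg {π : PM n → ℝ} (hπ : ∀ σ, 0 ≤ π σ) (g : PM n → ℝ) (s : PM n × PM n) :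
    0 ≤ Ups π g s :=
  sum_nonneg fun _ _ => sum_nonneg fun _ _ => sum_nonneg fun _ _ => Ups_term_nonneg hπ g _ _ _

theorem le_Xi {π : PM n → ℝ} (hπ : ∀ σ, 0 ≤ π σ) (g : PM n → ℝ) {X Y X' Y' : PM n}
    (h : ∃ r, mv r (X, Y) = (X', Y')) {a : ℝ} (h1 : a ≤ π X * π Y) (h2 : a ≤ π X' * π Y') :
    a * (g X' + g Y' - g X - g Y) ^ 2 ≤ Xi π g g (X, Y) := by
  obtain ⟨r, hr⟩ := h
  refine le_trans ?_ (single_le_sum (fun _ _ => mul_nonneg
    (le_min (mul_nonneg (hπ _) (hπ _)) (mul_nonneg (hπ _) (hπ _))) (sq_nonneg _)) (mem_univ r))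
  rw [hr]
  exact mul_le_mul_of_nonneg_right (le_min h1 h2) (sq_nonneg _)

theorem le_Ups {π : PM n → ℝ} (hπ : ∀ σ, 0 ≤ π σ) (g : PM n → ℝ) {s : PM n × PM n} {X Y : PM n}
    (h : ∃ r, mv r s = (X, Y)) (z : Fin n) {k : ℕ} (hk : k < n) :
    π Y * ((∑ Y' ∈ cls X z k Y, Xi π g g (X, Y')) / ∑ Y' ∈ cls X z k Y, π Y') ≤ Ups π g s := by
  obtain ⟨r, hr⟩ := h
  refine le_trans ?_ (single_le_sum (fun _ _ => sum_nonneg fun _ _ => sum_nonneg fun _ _ =>
    Ups_term_nonneg hπ g _ _ _) (mem_univ r))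
  refine le_trans ?_ (single_le_sum (fun _ _ => sum_nonneg fun _ _ =>
    Ups_term_nonneg hπ g _ _ _) (mem_univ z))
  refine le_trans ?_ (single_le_sum (fun _ _ => Ups_term_nonneg hπ g _ _ _) (mem_range.2 hk))
  rw [hr]

theorem Has.mono {σ : PM n} {a b a' b' : ℕ} (h : Has c σ x a b) (h1 : a ≤ a') (h2 : b' ≤ b) :
    Has c σ x a' b' := fun t ht => h t (Set.Icc_subset_Icc h1 h2 ht)

theorem Node.gpair (hn : Even n) (hβ : Bottle β o lam) (hx : Cyc x o L) (h : Node β x L i j)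
    {P Q : PM n} (hP : Has c P x (i - 1) j) (hQ : Has (c + 1) Q x (i - 1) j) :
    lam ^ 2 * (gib β P * gib β Q) ≤ gib β (FF c P x i j) * gib β (FF (c + 1) Q x i j) := by
  have hZ := ZZ_pos hn hβ.pos
  have e := div_le_div_of_nonneg_right (h.pair hβ hx hP hQ) (mul_pos hZ hZ).le
  unfold gib
  refine le_of_eq_of_le ?_ (e.trans_eq ?_) <;> field_simp

theorem Node.gtriple (hn : Even n) (hβ : Bottle β o lam) (hx : Cyc x o L) (h : Node β x L i j)
    (h1 : i ≤ s) (h2 : s < j) (hs : s % 2 = c % 2)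
    (hmin : ∀ t ∈ Set.Ico i j, β (x s) (x (s + 1)) ≤ β (x t) (x (t + 1))) {P Q Q' : PM n}
    (hP : Has c P x (i - 1) j) (hQ : Has (c + 1) Q x (i - 1) s) (hQ' : Has (c + 1) Q' x s j) :
    lam ^ 3 * (gib β P * gib β Q * gib β Q') ≤
      gib β (FF c P x i j) * gib β (FF (c + 1) Q x i s) * gib β (FF (c + 1) Q' x (s + 1) j) := by
  have hZ := ZZ_pos hn hβ.pos
  have e := div_le_div_of_nonneg_right (h.triple hβ hx h1 h2 hs hmin hP hQ hQ')
    (mul_pos (mul_pos hZ hZ) hZ).le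
  unfold gib
  refine le_of_eq_of_le ?_ (e.trans_eq ?_) <;> field_simp

/-- The exchange of a segment is a move of bounded cost. -/
theorem Node.delta (hn : Even n) (hβ : Bottle β o lam) (hx : Cyc x o L) (h : Node β x L i j)
    {P Q : PM n} (hP : Has c P x (i - 1) j) (hQ : Has (c + 1) Q x (i - 1) j) (g : PM n → ℝ) :
    lam ^ 2 * (gib β P * gib β Q) *
      (g (FF c P x i j) + g (FF (c + 1) Q x i j) - g P - g Q) ^ 2 ≤ Xi (gib β) g g (P, Q) := by
  have hπ := gib_pos hn hβ.pos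
  refine le_Xi (fun σ => (hπ σ).le) g
    (seg_move (hP.own hx h.one_le (Nat.sub_le _ _) le_rfl h.lt)
      (hQ.own hx h.one_le (Nat.sub_le _ _) le_rfl h.lt) h.le) ?_ (h.gpair hn hβ hx hP hQ)
  exact mul_le_of_le_one_left (mul_pos (hπ _) (hπ _)).le (pow_le_one₀ hβ.lam_pos.le hβ.lam_le)

theorem Cyc.ne' (hx : Cyc x o L) {a b : ℕ} (h1 : a < b) (h2 : b < L) : x b ≠ x a := by
  rcases Nat.eq_zero_or_pos a with rfl | g
  · rw [hx.zero]; exact hx.ne h1 h2
  · exact fun e => h1.ne' (hx.inj ⟨by omega, h2.le⟩ ⟨g, by omega⟩ e)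

/-- Forcing along `x i, …, x s` does not change the partners of the later vertices. -/
theorem Has.FF_later (hx : Cyc x o L) {σ : PM n} (h : Has c σ x (i - 1) s) (h0 : 1 ≤ i)
    (h1 : i ≤ s) {t : ℕ} (h2 : up c s < t) (h3 : t < L) : (FF c σ x i s).1 (x t) = σ.1 (x t) := by
  have a1 := up_spec c i
  have a2 := up_spec c s
  refine (h.own hx h0 (Nat.sub_le _ _) le_rfl (by omega)).FF_rest h1
    (fun u _ g => hx.ne' (by omega) h3) ?_
  have e := σ.2.1.eq_iff.1 (h (up c i - 1) ⟨by omega, by omega⟩ (by omega))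
  rw [show up c i - 1 + 1 = up c i by omega] at e
  rw [e]
  exact hx.ne' (by omega) h3

theorem walk_eq {X Y : PM n} (hs : s % 2 = c % 2) (hX : Has c X x (s + 1) j)
    (hY : Has (c + 1) Y x (s + 1) j) (t : ℕ) (ht : s + t ≤ j) :
    walk Y X (x (s + 1)) t = x (s + 1 + t) := by
  induction t with
  | zero => rfl
  | succ t ih =>
    rw [walk, ih (by omega)]
    split_ifs with e
    · exact hY _ ⟨by omega, by omega⟩ (by omega)
    · exact hX _ ⟨by omega, by omega⟩ (by omega)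

theorem mem_cls_iff {X Y H : PM n} (hs : s % 2 = c % 2) (h2 : s < j) (hX : Has c X x (s + 1) j)
    (hY : Has (c + 1) Y x (s + 1) j) :
    H ∈ cls X (x (s + 1)) (j - s - 1) Y ↔ ∀ t, s < t → t ≤ j → H.1 (x t) = Y.1 (x t) := by
  simp only [cls, mem_filter, mem_univ, true_and]
  constructor
  · intro h t g1 g2
    have := h (t - s - 1) (by omega)
    rwa [walk_eq hs hX hY _ (by omega), show s + 1 + (t - s - 1) = t by omega] at this
  · intro h t g
    rw [walk_eq hs hX hY _ (by omega)]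
    exact h _ (by omega) (by omega)

/-- Additivity at an edge of `P`. -/
theorem Node.err (hn : Even n) (hβ : Bottle β o lam) (hx : Cyc x o L) (hL : L ≤ n)
    (h : Node β x L i j) (h1 : i ≤ s) (h2 : s < j) (hs : s % 2 = c % 2)
    (hmin : ∀ t ∈ Set.Ico i j, β (x s) (x (s + 1)) ≤ β (x t) (x (t + 1))) {P Q : PM n}
    (hP : Has c P x (i - 1) j) (hQ : Has (c + 1) Q x (i - 1) j) (g : PM n → ℝ) :
    lam ^ 3 * (gib β P * gib β Q) *
      (g (FF c P x i j) - g (FF c P x i s) - g (FF c P x (s + 1) j) + g P) ^ 2 ≤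
      4 * Ups (gib β) g (P, Q) := by
  have hπ := gib_pos hn hβ.pos
  have hπ' : ∀ σ, 0 ≤ gib β σ := fun σ => (hπ σ).le
  have h0 := h.one_le
  have h3 := h.lt
  have hl := hβ.lam_pos
  have hl1 := hβ.lam_le
  obtain ⟨n1, n2⟩ := h.split h1 h2 hmin
  have u1 : up c s = s + 1 := if_pos hs
  have u2 : up (c + 1) s = s := if_neg (by omega)
  have hP1 : Has c P x (i - 1) s := hP.mono le_rfl h2.le
  have hQ1 : Has (c + 1) Q x (i - 1) s := hQ.mono le_rfl h2.le
  have hP2 : Has c P x (s + 1) j := hP.mono (by omega) le_rfl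
  have hQ2 : Has (c + 1) Q x (s + 1) j := hQ.mono (by omega) le_rfl
  have hX : Has c (FF c P x i s) x (s + 1) j := fun t ht e => by
    have := ht.1
    have := ht.2
    rw [hP1.FF_later hx h0 h1 (by omega) (by omega)]
    exact hP2 t ht e
  have hYQ : ∀ t, s < t → t ≤ j → (FF (c + 1) Q x i s).1 (x t) = Q.1 (x t) := fun t g1 g2 =>
    hQ1.FF_later hx h0 h1 (by omega) (by omega)
  have hY : Has (c + 1) (FF (c + 1) Q x i s) x (s + 1) j := fun t ht e => by
    rw [hYQ t ht.1 ht.2]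
    exact hQ2 t ht e
  have hC : cls (FF c P x i s) (x (s + 1)) (j - s - 1) (FF (c + 1) Q x i s) =
      cls P (x (s + 1)) (j - s - 1) Q := by
    ext H
    rw [mem_cls_iff hs h2 hX hY, mem_cls_iff hs h2 hP2 hQ2]
    exact forall₃_congr fun t g1 g2 => by rw [hYQ t g1 g2]
  have T1 := le_Ups hπ' g (s := (P, Q)) (X := P) (Y := Q) (by
    have := seg_move (hP.own (i := i) (j := i) hx h0 (Nat.sub_le _ _) h.le (by omega))
      (hQ.own (i := i) (j := i) hx h0 (Nat.sub_le _ _) h.le (by omega)) le_rfl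
    rwa [FF_self, FF_self] at this) (x (s + 1)) (k := j - s - 1) (by omega)
  have T2 := le_Ups hπ' g (seg_move (hP1.own hx h0 (Nat.sub_le _ _) le_rfl (by omega))
    (hQ1.own hx h0 (Nat.sub_le _ _) le_rfl (by omega)) h1) (x (s + 1)) (k := j - s - 1) (by omega)
  rw [hC] at T2
  have hpos : 0 < ∑ H ∈ cls P (x (s + 1)) (j - s - 1) Q, gib β H :=
    sum_pos (fun _ _ => hπ _) ⟨Q, mem_cls_self _ _ _ _⟩
  have key : ∀ H ∈ cls P (x (s + 1)) (j - s - 1) Q, lam ^ 3 * (gib β P * gib β Q) *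
      (g (FF c P x i j) - g (FF c P x i s) - g (FF c P x (s + 1) j) + g P) ^ 2 * gib β H ≤
      2 * (gib β Q * Xi (gib β) g g (P, H)) +
        2 * (gib β (FF (c + 1) Q x i s) * Xi (gib β) g g (FF c P x i s, H)) := by
    intro H hH
    rw [mem_cls_iff hs h2 hP2 hQ2] at hH
    have hH' : Has (c + 1) H x s j := fun t ht e => by
      have := ht.1
      rw [hH t (by omega) ht.2]
      exact hQ2 t ⟨by omega, ht.2⟩ e
    have d1 := n2.delta hn hβ hx (hP.mono (by omega) le_rfl) hH' g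
    have pY := hπ (FF (c + 1) Q x i s)
    have pP := hπ P
    have pQ := hπ Q
    have pH := hπ H
    have w1 := n1.gpair hn hβ hx hP1 hQ1
    have w2 := h.gtriple hn hβ hx h1 h2 hs hmin hP hQ1 hH'
    have l32 : lam ^ 3 ≤ lam ^ 2 := pow_le_pow_of_le_one hl.le hl1 (by omega)
    have d2 := le_Xi hπ' g (seg_move (hX.own hx (by omega) le_rfl le_rfl h3)
      (hH'.own hx (by omega) (Nat.le_succ _) le_rfl h3) h2)
      (a := lam ^ 3 * (gib β P * gib β Q * gib β H) / gib β (FF (c + 1) Q x i s))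
      (by
        rw [div_le_iff₀ pY]
        have := mul_le_mul_of_nonneg_right
          ((mul_le_mul_of_nonneg_right l32 (mul_pos pP pQ).le).trans w1) pH.le
        linarith)
      (by
        rw [div_le_iff₀ pY, ← FF_split P x h1 h2 hs]
        linarith)
    rw [← FF_split P x h1 h2 hs, div_mul_eq_mul_div, div_le_iff₀ pY] at d2
    have d1' := mul_le_mul_of_nonneg_left ((mul_le_mul_of_nonneg_right
      (mul_le_mul_of_nonneg_right l32 (mul_pos pP pH).le) (sq_nonneg _)).trans d1) pQ.le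
    have hw : 0 ≤ lam ^ 3 * (gib β P * gib β Q * gib β H) := by positivity
    have := mul_le_mul_of_nonneg_left (show
      (g (FF c P x i j) - g (FF c P x i s) - g (FF c P x (s + 1) j) + g P) ^ 2 ≤
      2 * (g (FF c P x (s + 1) j) + g (FF (c + 1) H x (s + 1) j) - g P - g H) ^ 2 +
      2 * (g (FF c P x i j) + g (FF (c + 1) H x (s + 1) j) - g (FF c P x i s) - g H) ^ 2 by
        nlinarith [sq_nonneg (g (FF c P x (s + 1) j) + g (FF (c + 1) H x (s + 1) j) - g P - g H +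
          (g (FF c P x i j) + g (FF (c + 1) H x (s + 1) j) - g (FF c P x i s) - g H))]) hw
    linarith
  have := sum_le_sum key
  rw [← mul_sum, sum_add_distrib, ← mul_sum, ← mul_sum, ← mul_sum, ← mul_sum,
    ← le_div_iff₀ hpos, add_div, mul_div_assoc, mul_div_assoc, mul_div_assoc, mul_div_assoc] at this
  linarith

end Crest.Agent.R304
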