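import Crest.Agent.R304.Four
import Crest.Agent.R304.Force

/-!
# Row 304: the weights of the exchanged matchings
-/

set_option autoImplicit false

namespace Crest.Agent.R304

open Finset

variable {n : ℕ}

/-- `x 0, …, x L = x 0 = o` is a cycle. -/
structure Cyc (x : ℕ → Fin n) (o : Fin n) (L : ℕ) : Prop where
  zero : x 0 = o
  last : x L = o
  even : L % 2 = 0
  inj : Set.InjOn x (Set.Icc 1 L)

/-- The inner edges of the segment `x i, …, x j` are at least as heavy as the two boundary edges,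
unless these contain the base point. -/
structure Node (β : Fin n → Fin n → ℝ) (x : ℕ → Fin n) (L i j : ℕ) : Prop where
  one_le : 1 ≤ i
  le : i ≤ j
  lt : j < L
  left : 2 ≤ i → ∀ t ∈ Set.Ico i j, β (x (i - 1)) (x i) ≤ β (x t) (x (t + 1))
  right : j + 1 < L → ∀ t ∈ Set.Ico i j, β (x j) (x (j + 1)) ≤ β (x t) (x (t + 1))

/-- `σ` contains the edges `x t x (t+1)` with `a ≤ t ≤ b` and `t` of the parity of `c`. -/
def Has (c : ℕ) (σ : PM n) (x : ℕ → Fin n) (a b : ℕ) : Prop :=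
  ∀ t ∈ Set.Icc a b, t % 2 = c % 2 → σ.1 (x t) = x (t + 1)

variable {β : Fin n → Fin n → ℝ} {o : Fin n} {lam : ℝ} {x : ℕ → Fin n} {L c i s j : ℕ}

theorem Node.split (h : Node β x L i j) (h1 : i ≤ s) (h2 : s < j)
    (hmin : ∀ t ∈ Set.Ico i j, β (x s) (x (s + 1)) ≤ β (x t) (x (t + 1))) :
    Node β x L i s ∧ Node β x L (s + 1) j := by
  have := h.one_le
  have := h.lt
  exact ⟨⟨h.one_le, h1, by omega, fun g t ht => h.left g t ⟨ht.1, ht.2.trans h2⟩,
    fun _ t ht => hmin t ⟨ht.1, ht.2.trans h2⟩⟩,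
    ⟨by omega, h2, h.lt, fun _ t ht => hmin t ⟨by have := ht.1; omega, ht.2⟩,
    fun g t ht => h.right g t ⟨by have := ht.1; omega, ht.2⟩⟩⟩

theorem Has.own (hx : Cyc x o L) {σ : PM n} {a b : ℕ} (h : Has c σ x a b) (h0 : 1 ≤ i)
    (h1 : a ≤ i) (h2 : j ≤ b) (h3 : j < L) : Own c σ x i j :=
  ⟨hx.inj.mono (Set.Icc_subset_Icc h0 h3), fun t ht => h t (Set.Icc_subset_Icc h1 h2 ht)⟩

theorem Cyc.ne (hx : Cyc x o L) {t : ℕ} (h1 : 1 ≤ t) (h2 : t < L) : x t ≠ o := fun e =>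
  h2.ne (hx.inj ⟨h1, h2.le⟩ ⟨by omega, le_rfl⟩ (e.trans hx.last.symm))

theorem Cyc.path (hβ : Bottle β o lam) (hx : Cyc x o L) {a b : ℕ} {m : ℝ} (h1 : 1 ≤ a)
    (h2 : a < b) (h3 : b < L) (hm : ∀ t, a ≤ t → t < b → m ≤ β (x t) (x (t + 1))) :
    lam * m ≤ β (x a) (x b) :=
  hβ.path x a b m h2 (hx.inj.mono (Set.Icc_subset_Icc h1 h3.le))
    (fun _ ht => hx.ne (h1.trans ht.1) (ht.2.trans_lt h3)) fun t ht => hm t ht.1 ht.2

theorem Cyc.base_left (hβ : Bottle β o lam) (hx : Cyc x o L) {a b : ℕ} (h1 : 1 ≤ a) (h2 : a < L)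
    (h3 : 1 ≤ b) (h4 : b < L) : lam * β (x 0) (x a) ≤ β (x 0) (x b) := by
  rw [hx.zero]
  exact hβ.base _ _ (hx.ne h1 h2) (hx.ne h3 h4)

theorem Cyc.base_right (hβ : Bottle β o lam) (hx : Cyc x o L) {a b : ℕ} (h1 : 1 ≤ a) (h2 : a < L)
    (h3 : 1 ≤ b) (h4 : b < L) : lam * β (x a) (x L) ≤ β (x b) (x L) := by
  rw [hx.last, hβ.pos.1 _ o, hβ.pos.1 _ o]
  exact hβ.base _ _ (hx.ne h1 h2) (hx.ne h3 h4)

theorem Node.bL (hβ : Bottle β o lam) (hx : Cyc x o L) (h : Node β x L i j) {t : ℕ} (h1 : i ≤ t)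
    (h2 : t ≤ j) : lam * β (x (i - 1)) (x i) ≤ β (x (i - 1)) (x t) := by
  have := h.lt
  rcases h.one_le.eq_or_lt with rfl | g
  · exact hx.base_left hβ le_rfl (by omega) h1 (by omega)
  · refine hx.path hβ (by omega) (by omega) (by omega) fun k k1 k2 => ?_
    rcases k1.eq_or_lt with rfl | k1
    · rw [Nat.sub_add_cancel g.le]
    · exact h.left g k ⟨by omega, by omega⟩

theorem Node.bR (hβ : Bottle β o lam) (hx : Cyc x o L) (h : Node β x L i j) {t : ℕ} (h1 : i ≤ t)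
    (h2 : t ≤ j) : lam * β (x j) (x (j + 1)) ≤ β (x t) (x (j + 1)) := by
  have := h.one_le
  rcases (Nat.succ_le_of_lt h.lt).eq_or_lt with rfl | g
  · exact hx.base_right hβ (by omega) (by omega) (by omega) (by omega)
  · refine hx.path hβ (by omega) (by omega) g fun k k1 k2 => ?_
    rcases (Nat.lt_succ_iff.1 k2).eq_or_lt with rfl | k2
    · exact le_rfl
    · exact h.right g k ⟨by omega, k2⟩

theorem Node.bIn (hβ : Bottle β o lam) (hx : Cyc x o L) (h : Node β x L i j) {a b : ℕ} {m : ℝ}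
    (h1 : i ≤ a) (h2 : a < b) (h3 : b ≤ j) (hm : ∀ t ∈ Set.Ico i j, m ≤ β (x t) (x (t + 1))) :
    lam * m ≤ β (x a) (x b) :=
  hx.path hβ (h.one_le.trans h1) h2 (h3.trans_lt h.lt) fun t g1 g2 =>
    hm t ⟨h1.trans g1, g2.trans_le h3⟩

theorem Node.bOut (hβ : Bottle β o lam) (hx : Cyc x o L) (h : Node β x L i j)
    (hp : i % 2 ≠ j % 2) : ∃ m m', 0 < m ∧ 0 < m' ∧
      m * m' = β (x (i - 1)) (x i) * β (x j) (x (j + 1)) ∧ lam * m ≤ β (x (i - 1)) (x (j + 1)) ∧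
      ∀ t ∈ Set.Ico i j, m' ≤ β (x t) (x (t + 1)) := by
  have := h.lt
  have := h.le
  have := hx.even
  rcases h.one_le.eq_or_lt with rfl | g
  · exact ⟨_, _, hβ.pos.2 _ _, hβ.pos.2 _ _, rfl,
      hx.base_left hβ le_rfl (by omega) (by omega) (by omega), h.right (by omega)⟩
  rcases (Nat.succ_le_of_lt h.lt).eq_or_lt with rfl | g'
  · exact ⟨_, _, hβ.pos.2 _ _, hβ.pos.2 _ _, mul_comm _ _,
      hx.base_right hβ (by omega) (by omega) (by omega) (by omega), h.left g⟩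
  refine ⟨_, _, lt_min (hβ.pos.2 _ _) (hβ.pos.2 _ _), lt_max_of_lt_left (hβ.pos.2 _ _),
    min_mul_max _ _, hx.path hβ (by omega) (by omega) g' fun k k1 k2 => ?_,
    fun t ht => max_le (h.left g t ht) (h.right g' t ht)⟩
  rcases k1.eq_or_lt with rfl | k1
  · rw [Nat.sub_add_cancel g.le]; exact min_le_left _ _
  rcases (Nat.lt_succ_iff.1 k2).eq_or_lt with rfl | k2
  · exact min_le_right _ _
  · exact (min_le_left _ _).trans (h.left g k ⟨by omega, k2⟩)

/-- The alternating product of the weights along `x`. -/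
noncomputable def chiW (β : Fin n → Fin n → ℝ) (x : ℕ → Fin n) (c : ℕ) : ℕ → ℝ
  | 0 => 1
  | t + 1 => if t % 2 = c % 2 then chiW β x c t / β (x t) (x (t + 1))
      else chiW β x c t * β (x t) (x (t + 1))

theorem chiW_pos (hβ : PosW β) (x : ℕ → Fin n) (c t : ℕ) : 0 < chiW β x c t := by
  induction t with
  | zero => exact one_pos
  | succ t ih =>
    unfold chiW
    split_ifs
    · exact div_pos ih (hβ.2 _ _)
    · exact mul_pos ih (hβ.2 _ _)

theorem chiW_eq (hβ : PosW β) (x : ℕ → Fin n) {c t : ℕ} (h : t % 2 = c % 2) :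
    chiW β x c (t + 1) * β (x t) (x (t + 1)) = chiW β x c t := by
  rw [chiW, if_pos h, div_mul_cancel₀ _ (hβ.2 _ _).ne']

theorem chiW_ne (β : Fin n → Fin n → ℝ) (x : ℕ → Fin n) {c t : ℕ} (h : t % 2 ≠ c % 2) :
    chiW β x c (t + 1) = chiW β x c t * β (x t) (x (t + 1)) := by
  rw [chiW, if_neg h]

theorem Has.ratio (hβ : PosW β) (hx : Cyc x o L) {σ : PM n} (h : Has c σ x (i - 1) j)
    (h0 : 1 ≤ i) (h1 : i ≤ j) (h2 : j < L) {χ : ℕ → ℝ}
    (hχ1 : ∀ t, t % 2 = c % 2 → χ (t + 1) * β (x t) (x (t + 1)) = χ t)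
    (hχ2 : ∀ t, t % 2 ≠ c % 2 → χ (t + 1) = χ t * β (x t) (x (t + 1))) :
    wt β (FF c σ x i j).1 * χ (up c i - 1) =
      wt β σ.1 * (β (x (up c i - 1)) (x (up c j)) * χ (up c j)) := by
  have a1 := up_spec c i
  have e := (h.own hx h0 (Nat.sub_le _ _) le_rfl h2).wt_FF h1 hβ hχ1 hχ2
  have e1 : up c i - 1 + 1 = up c i := by omega
  have e2 := σ.2.1.eq_iff.1 (h (up c i - 1) ⟨by omega, by omega⟩ (by omega))
  have e3 := hχ1 (up c i - 1) (by omega)
  rw [e1] at e2 e3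
  rwa [e2, mul_comm (β _ _), e3] at e

theorem Has.ratio₀ (hβ : PosW β) (hx : Cyc x o L) {σ : PM n} (h : Has c σ x (i - 1) j)
    (h0 : 1 ≤ i) (h1 : i ≤ j) (h2 : j < L) :
    wt β (FF c σ x i j).1 =
      wt β σ.1 * β (x (up c i - 1)) (x (up c j)) * chiW β x c (up c j) / chiW β x c (up c i - 1) := by
  rw [eq_div_iff (chiW_pos hβ _ _ _).ne', mul_assoc]
  exact h.ratio hβ hx h0 h1 h2 (fun _ => chiW_eq hβ x) fun _ => chiW_ne β x

theorem Has.ratio₁ (hβ : PosW β) (hx : Cyc x o L) {σ : PM n} (h : Has (c + 1) σ x (i - 1) j)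
    (h0 : 1 ≤ i) (h1 : i ≤ j) (h2 : j < L) :
    wt β (FF (c + 1) σ x i j).1 = wt β σ.1 * β (x (up (c + 1) i - 1)) (x (up (c + 1) j)) *
      chiW β x c (up (c + 1) i - 1) / chiW β x c (up (c + 1) j) := by
  have e := h.ratio hβ hx h0 h1 h2 (χ := fun t => (chiW β x c t)⁻¹)
    (fun t ht => by
      have := (hβ.2 (x t) (x (t + 1))).ne'
      rw [chiW_ne β x (by omega), mul_inv, inv_mul_cancel_right₀ this])
    (fun t ht => by
      have := (hβ.2 (x t) (x (t + 1))).ne'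
      rw [← chiW_eq hβ x (t := t) (by omega), mul_inv, inv_mul_cancel_right₀ this])
  have p1 := (chiW_pos hβ x c (up (c + 1) i - 1)).ne'
  have p2 := (chiW_pos hβ x c (up (c + 1) j)).ne'
  rw [mul_inv_eq_iff_eq_mul₀ p1] at e
  rw [e]
  field_simp

theorem chiW_left (hβ : PosW β) (x : ℕ → Fin n) (c : ℕ) (h0 : 1 ≤ i) :
    chiW β x c (up c i - 1) = chiW β x c (up (c + 1) i - 1) * β (x (i - 1)) (x i) := by
  obtain ⟨i, rfl⟩ : ∃ k, i = k + 1 := ⟨i - 1, by omega⟩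
  unfold up
  by_cases hi : (i + 1) % 2 = c % 2
  · rw [if_pos hi, if_neg (by omega)]
    exact chiW_ne β x (by omega)
  · rw [if_neg hi, if_pos (by omega)]
    exact (chiW_eq hβ x (by omega)).symm

theorem chiW_right (hβ : PosW β) (x : ℕ → Fin n) (c j : ℕ) :
    chiW β x c (up (c + 1) j) = chiW β x c (up c j) * β (x j) (x (j + 1)) := by
  unfold up
  by_cases hj : j % 2 = c % 2
  · rw [if_pos hj, if_neg (by omega)]
    exact (chiW_eq hβ x hj).symm
  · rw [if_neg hj, if_pos (by omega)]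
    exact chiW_ne β x hj

theorem mul_le_two {lam a b p q : ℝ} (hl : 0 < lam) (ha : 0 < a) (hb : 0 < b) (h1 : lam * a ≤ p)
    (h2 : lam * b ≤ q) : lam ^ 2 * (a * b) ≤ p * q :=
  calc lam ^ 2 * (a * b) = lam * a * (lam * b) := by ring
    _ ≤ p * q := mul_le_mul h1 h2 (by positivity) (le_trans (by positivity) h1)

theorem mul_le_three {lam a b c p q r : ℝ} (hl : 0 < lam) (ha : 0 < a) (hb : 0 < b) (hc : 0 < c)
    (h1 : lam * a ≤ p) (h2 : lam * b ≤ q) (h3 : lam * c ≤ r) :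
    lam ^ 3 * (a * b * c) ≤ p * q * r :=
  calc lam ^ 3 * (a * b * c) = lam ^ 2 * (a * b) * (lam * c) := by ring
    _ ≤ p * q * r := mul_le_mul (mul_le_two hl ha hb h1 h2) h3 (by positivity)
      (le_trans (by positivity) (mul_le_two hl ha hb h1 h2))

theorem Node.pair_aux (hβ : Bottle β o lam) (hx : Cyc x o L) (h : Node β x L i j) (c : ℕ) :
    lam ^ 2 * (β (x (i - 1)) (x i) * β (x j) (x (j + 1))) ≤
      β (x (up c i - 1)) (x (up c j)) * β (x (up (c + 1) i - 1)) (x (up (c + 1) j)) := by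
  have hl := hβ.lam_pos
  have hp := hβ.pos.2
  have hij := h.le
  have e1 := mul_le_two hl (hp _ _) (hp _ _) (h.bL hβ hx hij le_rfl) (h.bR hβ hx le_rfl hij)
  have e2 : i % 2 ≠ j % 2 → lam ^ 2 * (β (x (i - 1)) (x i) * β (x j) (x (j + 1))) ≤
      β (x (i - 1)) (x (j + 1)) * β (x i) (x j) := fun g => by
    obtain ⟨m, m', p1, p2, e, g1, g2⟩ := h.bOut hβ hx g
    rw [← e]
    exact mul_le_two hl p1 p2 g1 (h.bIn hβ hx le_rfl (by omega) le_rfl g2)
  unfold up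
  by_cases hi : i % 2 = c % 2 <;> by_cases hj : j % 2 = c % 2
  · rw [if_pos hi, if_pos hj, if_neg (by omega), if_neg (by omega), mul_comm (β _ (x (j + 1)))]
    exact e1
  · rw [if_pos hi, if_neg hj, if_neg (by omega), if_pos (by omega), mul_comm (β _ (x j))]
    exact e2 (by omega)
  · rw [if_neg hi, if_pos hj, if_pos (by omega), if_neg (by omega)]
    exact e2 (by omega)
  · rw [if_neg hi, if_neg hj, if_pos (by omega), if_pos (by omega)]
    exact e1

theorem Node.triple_aux (hβ : Bottle β o lam) (hx : Cyc x o L) (h : Node β x L i j) (h1 : i ≤ s)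
    (h2 : s < j) (hs : s % 2 = c % 2)
    (hmin : ∀ t ∈ Set.Ico i j, β (x s) (x (s + 1)) ≤ β (x t) (x (t + 1))) :
    lam ^ 3 * (β (x (i - 1)) (x i) * β (x s) (x (s + 1)) * β (x j) (x (j + 1))) ≤
      β (x (up c i - 1)) (x (up c j)) * β (x (up (c + 1) i - 1)) (x s) *
        β (x (s + 1)) (x (up (c + 1) j)) := by
  have hl := hβ.lam_pos
  have hp := hβ.pos.2
  have hij := h.le
  unfold up
  by_cases hi : i % 2 = c % 2 <;> by_cases hj : j % 2 = c % 2
  · rw [if_pos hi, if_pos hj, if_neg (by omega), if_neg (by omega)]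
    refine le_of_eq_of_le (by ring) (mul_le_three hl (hp _ _) (hp _ _) (hp _ _)
      (h.bR hβ hx le_rfl hij) (h.bL hβ hx h1 h2.le)
      (h.bIn hβ hx (by omega) (by omega) le_rfl hmin))
  · rw [if_pos hi, if_neg hj, if_neg (by omega), if_pos (by omega)]
    refine le_of_eq_of_le (by ring) (mul_le_three hl (hp _ _) (hp _ _) (hp _ _)
      (h.bIn hβ hx le_rfl (by omega) le_rfl hmin) (h.bL hβ hx h1 h2.le)
      (h.bR hβ hx (by omega) h2))
  · rw [if_neg hi, if_pos hj, if_pos (by omega), if_neg (by omega)]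
    obtain ⟨m, m', p1, p2, e, g1, g2⟩ := h.bOut hβ hx (by omega)
    refine le_of_eq_of_le ?_ (mul_le_three hl p1 (hp _ _) p2 g1
      (h.bIn hβ hx le_rfl (by omega) h2.le hmin) (h.bIn hβ hx (by omega) (by omega) le_rfl g2))
    rw [mul_right_comm, ← e]
    ring
  · rw [if_neg hi, if_neg hj, if_pos (by omega), if_pos (by omega)]
    exact mul_le_three hl (hp _ _) (hp _ _) (hp _ _) (h.bL hβ hx hij le_rfl)
      (h.bIn hβ hx le_rfl (by omega) h2.le hmin) (h.bR hβ hx (by omega) h2)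

/-- Exchanging a segment between two matchings costs a bounded factor. -/
theorem Node.pair (hβ : Bottle β o lam) (hx : Cyc x o L) (h : Node β x L i j) {P Q : PM n}
    (hP : Has c P x (i - 1) j) (hQ : Has (c + 1) Q x (i - 1) j) :
    lam ^ 2 * (wt β P.1 * wt β Q.1) ≤ wt β (FF c P x i j).1 * wt β (FF (c + 1) Q x i j).1 := by
  have hp := hβ.pos.2
  have p1 := chiW_pos hβ.pos x c (up (c + 1) i - 1)
  have p2 := chiW_pos hβ.pos x c (up c j)
  have p3 := hp (x (i - 1)) (x i)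
  have p4 := hp (x j) (x (j + 1))
  have p5 := mul_pos (wt_pos hp P.1) (wt_pos hp Q.1)
  have e := mul_le_mul_of_nonneg_left (h.pair_aux hβ hx c) (div_pos p5 (mul_pos p3 p4)).le
  rw [hP.ratio₀ hβ.pos hx h.one_le h.le h.lt, hQ.ratio₁ hβ.pos hx h.one_le h.le h.lt,
    chiW_left hβ.pos x c h.one_le, chiW_right hβ.pos x c j]
  refine le_of_eq_of_le ?_ (e.trans_eq ?_) <;> field_simp

/-- The same for three matchings, the segment being split at its lightest edge. -/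
theorem Node.triple (hβ : Bottle β o lam) (hx : Cyc x o L) (h : Node β x L i j) (h1 : i ≤ s)
    (h2 : s < j) (hs : s % 2 = c % 2)
    (hmin : ∀ t ∈ Set.Ico i j, β (x s) (x (s + 1)) ≤ β (x t) (x (t + 1))) {P Q Q' : PM n}
    (hP : Has c P x (i - 1) j) (hQ : Has (c + 1) Q x (i - 1) s) (hQ' : Has (c + 1) Q' x s j) :
    lam ^ 3 * (wt β P.1 * wt β Q.1 * wt β Q'.1) ≤
      wt β (FF c P x i j).1 * wt β (FF (c + 1) Q x i s).1 *
        wt β (FF (c + 1) Q' x (s + 1) j).1 := by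
  have hp := hβ.pos.2
  have p1 := chiW_pos hβ.pos x c (up (c + 1) i - 1)
  have p2 := chiW_pos hβ.pos x c (up c j)
  have p3 := hp (x (i - 1)) (x i)
  have p4 := hp (x j) (x (j + 1))
  have p5 := mul_pos (mul_pos (wt_pos hp P.1) (wt_pos hp Q.1)) (wt_pos hp Q'.1)
  have p6 := hp (x s) (x (s + 1))
  have p7 := chiW_pos hβ.pos x c (s + 1)
  have e := mul_le_mul_of_nonneg_left (h.triple_aux hβ hx h1 h2 hs hmin)
    (div_pos p5 (mul_pos (mul_pos p3 p6) p4)).le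
  have u1 : up (c + 1) s = s := if_neg (by omega)
  have u2 : up (c + 1) (s + 1) - 1 = s + 1 := by
    rw [up, if_pos (by omega)]; rfl
  rw [hP.ratio₀ hβ.pos hx h.one_le h.le h.lt, hQ.ratio₁ hβ.pos hx h.one_le h1 (h2.trans h.lt),
    Has.ratio₁ (i := s + 1) hβ.pos hx hQ' (by omega) h2 h.lt,
    chiW_left hβ.pos x c h.one_le, chiW_right hβ.pos x c j, u1, u2, ← chiW_eq hβ.pos x hs]
  refine le_of_eq_of_le ?_ (e.trans_eq ?_) <;> field_simp

end Crest.Agent.R304
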