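import Crest.Agent.R304.Kern
import Crest.Agent.R304.Gap
import Crest.Agent.R304.Init

/-!
# Row 304: the sampled population is nearly independent with the Gibbs law
-/

set_option autoImplicit false

namespace Crest.Agent.R304

open Finset Crest.Agent.R309

variable {n : ℕ} [NeZero n] {ℓ : ℕ}

namespace SampAux

omit [NeZero n] in
theorem rr_pow (hn : 0 < n) (ℓ : ℕ) : (rr n ℓ : ℝ) ^ n ≤ 1 + 1 / (2 * (JJ ℓ : ℝ)) := by
  have hJ : (1 : ℝ) ≤ JJ ℓ := by exact_mod_cast Nat.one_le_two_pow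
  have hn' : (0 : ℝ) < n := by exact_mod_cast hn
  have h1 : (rr n ℓ : ℝ) ≤ Real.exp (1 / (4 * n * JJ ℓ)) := by
    rw [rr]
    push_cast
    linarith [Real.add_one_le_exp (1 / (4 * n * JJ ℓ : ℝ))]
  have h2 : (0 : ℝ) ≤ rr n ℓ := by exact_mod_cast (zero_lt_one.trans (one_lt_rr hn ℓ)).le
  refine (pow_le_pow_left₀ h2 h1 n).trans ?_
  rw [← Real.exp_nat_mul, show (n : ℝ) * (1 / (4 * n * JJ ℓ)) = 1 / (4 * JJ ℓ) by field_simp]
  refine (Real.exp_bound_div_one_sub_of_interval (by positivity) ?_).trans ?_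
  · rw [div_lt_one (by positivity)]
    linarith
  · rw [one_sub_div (by positivity), one_div_div, one_add_div (by positivity),
      div_le_div_iff₀ (by linarith) (by positivity)]
    nlinarith

theorem wt_add (k d : Mat n) (σ : PM n) :
    wt (Wr ℓ (k + d)) σ.1 = wt (Wr ℓ k) σ.1 * (rr n ℓ : ℝ) ^ cost d σ.1 := by
  have h : (rr n ℓ : ℝ) ≠ 0 := by
    exact_mod_cast (zero_lt_one.trans (one_lt_rr (NeZero.pos n) ℓ)).ne'
  rw [← wt_zpow h, ← wt_mul]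
  congr 1
  funext u v
  exact zpow_add₀ h _ _

theorem zpow_cost_le {d : Mat n} (hd : IsDir d) (σ τ : PM n) :
    (rr n ℓ : ℝ) ^ cost d τ.1 ≤ (1 + 1 / (2 * (JJ ℓ : ℝ))) * (rr n ℓ : ℝ) ^ cost d σ.1 := by
  have h : (1 : ℝ) < rr n ℓ := by exact_mod_cast one_lt_rr (NeZero.pos n) ℓ
  have h1 := abs_cost_le hd.2 σ
  have h2 := abs_cost_le hd.2 τ
  calc (rr n ℓ : ℝ) ^ cost d τ.1 ≤ (rr n ℓ : ℝ) ^ ((n : ℤ) + cost d σ.1) :=
        zpow_le_zpow_right₀ h.le (by linarith [le_abs_self (cost d τ.1), neg_abs_le (cost d σ.1)])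
    _ = (rr n ℓ : ℝ) ^ n * (rr n ℓ : ℝ) ^ cost d σ.1 := by
        rw [zpow_add₀ (by positivity), zpow_natCast]
    _ ≤ _ := mul_le_mul_of_nonneg_right (rr_pow (NeZero.pos n) ℓ) (by positivity)

omit [NeZero n] in
theorem symm_add {k d : Mat n} (hk : Symm k) (hd : Symm d) : Symm (k + d) := fun u v => by
  simp only [Pi.add_apply, hk u v, hd u v]

theorem prodE_sub {A : Type} [Fintype A] [DecidableEq A] {N : ℕ} {π : A → ℝ} (h0 : ∀ a, 0 ≤ π a)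
    (h1 : ∑ a, π a = 1) {F G : (Fin N → A) → ℝ} {c : ℝ} (h : ∀ x, |F x - G x| ≤ c) :
    |prodE N π F - prodE N π G| ≤ c := by
  have h2 : ∑ x : Fin N → A, ∏ i, π (x i) = 1 := by
    rw [← Fintype.piFinset_univ, ← prod_univ_sum (fun _ => univ) fun _ a => π a]
    simp [h1]
  rw [prodE, prodE, ← sum_sub_distrib]
  refine (abs_sum_le_sum_abs _ _).trans ?_
  calc _ ≤ ∑ x : Fin N → A, (∏ i, π (x i)) * c := sum_le_sum fun x _ => by
        have : 0 ≤ ∏ i, π (x i) := prod_nonneg fun i _ => h0 _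
        rw [← mul_sub, abs_mul, abs_of_nonneg this]
        exact mul_le_mul_of_nonneg_left (h x) this
    _ = c := by rw [← sum_mul, h2, one_mul]

theorem big (hℓ : Big n ℓ) : (2 : ℝ) ^ 36 ≤ 2 ^ ℓ ∧ (n : ℝ) ≤ 2 ^ ℓ := by
  have h1 : n ≤ n ^ 35 := Nat.le_self_pow (by norm_num) n
  have h2 := NeZero.pos n
  unfold Big at hℓ
  constructor
  · exact_mod_cast (by omega : 2 ^ 36 ≤ 2 ^ ℓ)
  · exact_mod_cast (by omega : n ≤ 2 ^ ℓ)

theorem num {M : ℝ} (hM : 2 ^ 36 ≤ M) {T : ℕ} (hT : (T : ℝ) = 4 * M ^ 18) :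
    T / M ^ 56 + (((1 - 1 / (4 * M * M ^ 16)) ^ T + 24 * (T : ℝ) ^ 2 / (M ^ 16) ^ 3) *
      (√(M ^ 16) * (1 / (2 * M ^ 35))) + (M ^ 16 * (1 / (2 * M ^ 35))) ^ 2) ≤ 5 / M ^ 38 := by
  have h0 : 0 < M := by linarith [show (0 : ℝ) < 2 ^ 36 by positivity]
  have h1 : 1 ≤ M := le_trans (by norm_num) hM
  have h2 : (1 - 1 / (4 * M * M ^ 16)) ^ T ≤ 1 / M ^ 12 := by
    have k1 : 1 / (4 * M * M ^ 16) ≤ 1 := by
      rw [div_le_one (by positivity)]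
      nlinarith [one_le_pow₀ (n := 16) h1]
    have k2 := Real.pow_div_factorial_le_exp M h0.le 13
    have k3 : M ^ 12 ≤ Real.exp M := by
      refine le_trans ?_ k2
      rw [le_div_iff₀ (by positivity), pow_succ M 12]
      gcongr
      exact le_trans (by norm_num [Nat.factorial]) hM
    calc _ ≤ Real.exp (-(1 / (4 * M * M ^ 16))) ^ T :=
          pow_le_pow_left₀ (by linarith) (Real.one_sub_le_exp_neg _) T
      _ = 1 / Real.exp M := by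
          rw [← Real.exp_nat_mul, hT, one_div (Real.exp M), ← Real.exp_neg]
          congr 1
          field_simp
      _ ≤ _ := by gcongr
  have h3 : √(M ^ 16) = M ^ 8 := by
    rw [show M ^ 16 = (M ^ 8) ^ 2 by ring, Real.sqrt_sq (by positivity)]
  rw [h3]
  calc _ ≤ T / M ^ 56 + ((1 / M ^ 12 + 24 * (T : ℝ) ^ 2 / (M ^ 16) ^ 3) *
      (M ^ 8 * (1 / (2 * M ^ 35))) + (M ^ 16 * (1 / (2 * M ^ 35))) ^ 2) := by gcongr
    _ = (17 / 4 + 385 / 2 / M) / M ^ 38 := by rw [hT]; field_simp; ring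
    _ ≤ _ := by
      gcongr
      have : 385 / 2 / M ≤ 3 / 4 := by
        rw [div_le_iff₀ h0]
        linarith
      linarith

end SampAux

open SampAux

/-- A unit change of the exponents changes the law very little. -/
theorem gib_near (hn : Even n) {k d : Mat n} (hk : Symm k) (hd : IsDir d) (σ : PM n) :
    |gib (Wr ℓ k) σ - gib (Wr ℓ (k + d)) σ| ≤ 1 / (2 * (JJ ℓ : ℝ)) * gib (Wr ℓ (k + d)) σ := by
  have hW := posW_Wr (ℓ := ℓ) hk
  have hZ := ZZ_pos hn hW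
  have hZ' := ZZ_pos hn (posW_Wr (ℓ := ℓ) (symm_add hk hd.1))
  have hw := fun τ : PM n => wt_pos hW.2 τ.1
  have hr : (1 : ℝ) < rr n ℓ := by exact_mod_cast one_lt_rr (NeZero.pos n) ℓ
  have h1 : ZZ (Wr ℓ (k + d)) ≤
      ZZ (Wr ℓ k) * ((1 + 1 / (2 * (JJ ℓ : ℝ))) * (rr n ℓ : ℝ) ^ cost d σ.1) := by
    rw [ZZ, ZZ, sum_mul]
    exact sum_le_sum fun τ _ => by
      rw [wt_add]
      exact mul_le_mul_of_nonneg_left (zpow_cost_le hd σ τ) (hw τ).le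
  have h2 : ZZ (Wr ℓ k) * (rr n ℓ : ℝ) ^ cost d σ.1 ≤
      (1 + 1 / (2 * (JJ ℓ : ℝ))) * ZZ (Wr ℓ (k + d)) := by
    rw [ZZ, ZZ, sum_mul, mul_sum]
    exact sum_le_sum fun τ _ => by
      rw [wt_add, mul_left_comm]
      exact mul_le_mul_of_nonneg_left (zpow_cost_le hd τ σ) (hw τ).le
  rw [gib, gib, wt_add]
  have hδ : 0 ≤ 1 / (2 * (JJ ℓ : ℝ)) := by positivity
  have hρ : 0 < (rr n ℓ : ℝ) ^ cost d σ.1 := by positivity
  have hw' := hw σ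
  generalize 1 / (2 * (JJ ℓ : ℝ)) = δ at *
  generalize (rr n ℓ : ℝ) ^ cost d σ.1 = ρ at *
  generalize wt (Wr ℓ k) σ.1 = w at *
  generalize ZZ (Wr ℓ k) = Z at *
  generalize ZZ (Wr ℓ (k + d)) = Z' at *
  have k1 : w / Z ≤ (1 + δ) * (w * ρ / Z') := by
    rw [← mul_div_assoc, div_le_div_iff₀ hZ hZ']
    nlinarith [mul_le_mul_of_nonneg_left h1 hw'.le]
  have k2 : w * ρ / Z' ≤ (1 + δ) * (w / Z) := by
    rw [← mul_div_assoc, div_le_div_iff₀ hZ' hZ]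
    nlinarith [mul_le_mul_of_nonneg_left h2 hw'.le]
  have k3 : 0 < w / Z := by positivity
  rw [abs_le]
  constructor
  · rcases le_total (w / Z) (w * ρ / Z') with h | h
    · nlinarith [mul_le_mul_of_nonneg_left h hδ]
    · nlinarith [mul_nonneg hδ (show 0 ≤ w * ρ / Z' by positivity)]
  · linarith

/-- One small stage. -/
theorem micro_close (hn : Even n) (hℓ : Big n ℓ) {k d : Mat n} (hk : Symm k) (hd : IsDir d)
    (hB : Bal (eta n / 4) (Wr ℓ (k + d))) {F : Pop n ℓ → ℝ} (hF : ∀ x, 0 ≤ F x ∧ F x ≤ 1) :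
    |prodE (NN ℓ) (gib (Wr ℓ k)) ((Kop (popStep ℓ (k + d)) (Bs ℓ))^[TT ℓ] F) -
      prodE (NN ℓ) (gib (Wr ℓ (k + d))) F| ≤ 5 / 2 ^ (38 * ℓ) := by
  have hk' := symm_add hk hd.1
  have hJ := jhyp hn hℓ (posW_Wr hk') hB
  have hM := (big hℓ).1
  have hM1 : (1 : ℝ) ≤ 2 ^ ℓ := le_trans (by norm_num) hM
  have e : ∀ a : ℕ, (2 : ℝ) ^ (a * ℓ) = (2 ^ ℓ) ^ a := fun a => pow_mul' _ _ _
  have eN : (NN ℓ : ℝ) = (2 ^ ℓ) ^ 16 := by rw [← e, NN]; push_cast; rfl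
  have eJ : (JJ ℓ : ℝ) = (2 ^ ℓ) ^ 35 := by rw [← e, JJ]; push_cast; rfl
  have eT : (TT ℓ : ℝ) = 4 * (2 ^ ℓ) ^ 18 := by rw [← e, TT]; push_cast; rfl
  have h1 := prodE_sub (fun a => (gib_pos hn (posW_Wr (ℓ := ℓ) hk) a).le)
    (sum_gib hn (posW_Wr hk)) (Kop_iter_popStep hn hk' hJ hF (TT ℓ))
  have h2 := hJ.pop_mix (N := NN ℓ) hM1 (by
      rw [eN, pow_succ' _ 15, mul_comm]
      gcongr
      exact le_trans (le_trans (by norm_num) hM) (le_self_pow₀ hM1 (by norm_num)))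
    (sum_gib hn (posW_Wr hk)) (gib_near hn hk hd) (by
      rw [eN, eJ, mul_one_div, div_le_one (by positivity)]
      linarith [pow_le_pow_right₀ hM1 (show 16 ≤ 35 by norm_num), pow_pos (zero_lt_one.trans_le hM1) 35])
    hF (TT ℓ)
  refine (abs_sub_le _ _ _).trans ((add_le_add h1 h2).trans ?_)
  rw [eN, eJ, e, e]
  exact num hM eT

namespace SampAux

/-- The exponents after `q` small stages. -/
def kq (ℓ : ℕ) (ds : List (Mat n)) : ℕ → Mat n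
  | 0 => 0
  | q + 1 => kq ℓ ds q + ds.getD (q / JJ ℓ) 0

omit [NeZero n] in
theorem kq_eq (ds : List (Mat n)) (t : ℕ) : ∀ j ≤ JJ ℓ,
    kq ℓ ds (t * JJ ℓ + j) = (JJ ℓ : ℤ) • (ds.take t).sum + (j : ℤ) • ds.getD t 0 := by
  have key : ∀ t, kq ℓ ds (t * JJ ℓ) = (JJ ℓ : ℤ) • (ds.take t).sum → ∀ j ≤ JJ ℓ,
      kq ℓ ds (t * JJ ℓ + j) = (JJ ℓ : ℤ) • (ds.take t).sum + (j : ℤ) • ds.getD t 0 := by
    intro t ht j hj
    induction j with
    | zero => simpa using ht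
    | succ j ih =>
      rw [← add_assoc, kq, ih (by omega), Nat.div_eq_of_lt_le (k := t) (by omega)
        (by rw [Nat.succ_mul]; omega), add_assoc]
      push_cast
      rw [add_smul, one_smul]
  induction t with
  | zero => exact key 0 (by simp [kq])
  | succ t ih =>
    refine key _ ?_
    rw [Nat.succ_mul, ih _ le_rfl, ← smul_add, List.take_add_one, List.sum_append,
      List.getD_eq_getElem?_getD]
    cases ds[t]? <;> simp

omit [NeZero n] in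
theorem isDir_getD {ds : List (Mat n)} (h : ∀ d ∈ ds, IsDir d) (t : ℕ) : IsDir (ds.getD t 0) := by
  rw [List.getD_eq_getElem?_getD]
  cases e : ds[t]? with
  | none => exact ⟨fun _ _ => rfl, fun _ _ => by simp⟩
  | some d => exact h d (List.mem_of_getElem? e)

omit [NeZero n] in
theorem symm_kq {ds : List (Mat n)} (h : ∀ d ∈ ds, IsDir d) (q : ℕ) : Symm (kq ℓ ds q) := by
  induction q with
  | zero => exact fun _ _ => rfl
  | succ q ih => exact symm_add ih (isDir_getD h _).1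

/-- The population after `q` small stages. -/
def st (ds : List (Mat n)) (q : ℕ) (x : Pop n ℓ) (v : List Bool) : ℕ × Mat n × Pop n ℓ :=
  foldT (micro ℓ ds) (TT ℓ * Bs ℓ) q (0, 0, x) v

theorem Ex_st (ds : List (Mat n)) {q B : ℕ} (hB : (q + 1) * (TT ℓ * Bs ℓ) ≤ B) (x : Pop n ℓ)
    (F : Pop n ℓ → ℝ) : Ex B (fun v => F (st ds (q + 1) x v).2.2) = Ex B fun v =>
      (Kop (popStep ℓ (kq ℓ ds (q + 1))) (Bs ℓ))^[TT ℓ] F (st ds q x v).2.2 := by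
  refine (Ex_foldT_succ _ hB _ fun s : ℕ × Mat n × Pop n ℓ => F s.2.2).trans
    (Ex_congr fun v _ => ?_)
  obtain ⟨h1, h2⟩ : (st ds q x v).1 = q ∧ (st ds q x v).2.1 = kq ℓ ds q :=
    foldT_inv (fun i (s : ℕ × Mat n × Pop n ℓ) => s.1 = i ∧ s.2.1 = kq ℓ ds i) ⟨rfl, rfl⟩
      (fun i s u hs => ⟨congrArg (· + 1) hs.1, by simp only [micro, hs.1, hs.2, kq]⟩) q v
  refine Eq.trans ?_ (Ex_foldT _ le_rfl _ F)
  change Ex _ (fun u => F (foldT (popStep ℓ ((st ds q x v).2.1 +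
    ds.getD ((st ds q x v).1 / JJ ℓ) 0)) _ _ _ u)) = _
  rw [h1, h2]
  rfl

theorem close (hn : Even n) (hℓ : Big n ℓ) (σ0 : PM n) {ds : List (Mat n)} (hds : Adm ℓ ds) {B : ℕ}
    (q : ℕ) (hq : q ≤ ds.length * JJ ℓ) (hB : q * (TT ℓ * Bs ℓ) ≤ B) (F : Pop n ℓ → ℝ)
    (hF : ∀ x, 0 ≤ F x ∧ F x ≤ 1) :
    |Ex (Bi n ℓ) (fun u => Ex B fun v => F (st ds q (initPop ℓ σ0 u) v).2.2) -
        prodE (NN ℓ) (gib (Wr ℓ (kq ℓ ds q))) F| ≤
      NN ℓ * ((n : ℝ) ^ 2 / 2 ^ (20 * ℓ)) + q * (5 / 2 ^ (38 * ℓ)) := by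
  induction q generalizing F with
  | zero =>
    have : Wr ℓ (kq ℓ ds 0) = fun _ _ => 1 := by
      funext u v
      simp [Wr, kq]
    simpa only [st, foldT_zero, Ex_const, this, Nat.cast_zero, zero_mul, add_zero] using
      initPop_close σ0 hF
  | succ q ih =>
    have hJ : 0 < JJ ℓ := Nat.two_pow_pos _
    have h1 := ih (by omega) (le_trans (Nat.mul_le_mul_right _ (by omega)) hB) _
      (Kop_iter_mem (popStep ℓ (kq ℓ ds (q + 1))) (Bs ℓ) (TT ℓ) hF)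
    have h3 := hds.2 (q / JJ ℓ) ((Nat.div_lt_iff_lt_mul hJ).2 hq) (q % JJ ℓ + 1) (Nat.mod_lt _ hJ)
    rw [← kq_eq ds _ _ (Nat.mod_lt _ hJ), Nat.add_succ, Nat.div_add_mod'] at h3
    have h2 := micro_close hn hℓ (symm_kq hds.1 q) (isDir_getD hds.1 _) h3 hF
    simp only [Ex_st ds hB]
    refine (abs_sub_le _ _ _).trans ((add_le_add h1 h2).trans_eq ?_)
    push_cast
    ring

end SampAux

theorem samp_close (hℓ : Big n ℓ) (σ0 : PM n) {ds : List (Mat n)} (hds : Adm ℓ ds)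
    (hlen : ds.length ≤ RR ℓ) {F : Pop n ℓ → ℝ} (hF : ∀ x, 0 ≤ F x ∧ F x ≤ 1) :
    |Ex (Bsamp n ℓ) (fun u => F (samp ℓ σ0 ds u)) - prodE (NN ℓ) (gib (Wm ℓ ds.sum)) F| ≤
      6 / 2 ^ (2 * ℓ) := by
  have e := Ex_split (a := Bi n ℓ) (n := Bsamp n ℓ) (Nat.le_add_right _ _)
    fun u v => F (st ds (ds.length * JJ ℓ) (initPop ℓ σ0 u) v).2.2
  refine (congrArg (fun a => |a - _|) e).trans_le ?_
  have h1 := close σ0.2.even hℓ σ0 hds (B := Bsamp n ℓ - Bi n ℓ) _ le_rfl (by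
    rw [Bsamp, Nat.add_sub_cancel_left]
    gcongr) F hF
  have h2 := kq_eq (ℓ := ℓ) ds ds.length 0 (Nat.zero_le _)
  rw [add_zero, List.take_length, Nat.cast_zero, zero_smul, add_zero] at h2
  rw [h2] at h1
  refine h1.trans ?_
  obtain ⟨hM, hn⟩ := big hℓ
  have e : ∀ a : ℕ, (2 : ℝ) ^ (a * ℓ) = (2 ^ ℓ) ^ a := fun a => pow_mul' _ _ _
  have hl : (ds.length : ℝ) ≤ 2 ^ ℓ := by exact_mod_cast hlen
  rw [NN, JJ]
  push_cast
  simp only [e]
  calc _ ≤ ((2 : ℝ) ^ ℓ) ^ 16 * ((2 ^ ℓ) ^ 2 / (2 ^ ℓ) ^ 20) +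
      2 ^ ℓ * (2 ^ ℓ) ^ 35 * (5 / (2 ^ ℓ) ^ 38) := by gcongr
    _ = _ := by field_simp; ring

end Crest.Agent.R304
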