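import Crest.Agent.R304.Samp
import Crest.Agent.R304.Learn

/-!
# Row 304: one stage of the learning succeeds with high probability
-/

set_option autoImplicit false

namespace Crest.Agent.R304

open Finset Crest.Agent.R309

variable {n : ℕ} [NeZero n] {ℓ : ℕ}

namespace StageH

section prod
variable {A : Type} [Fintype A] {N : ℕ} {π : A → ℝ}

theorem prodE_mono (h0 : ∀ a, 0 ≤ π a) {F G : (Fin N → A) → ℝ} (h : ∀ x, F x ≤ G x) :
    prodE N π F ≤ prodE N π G :=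
  sum_le_sum fun x _ => mul_le_mul_of_nonneg_left (h x) (prod_nonneg fun _ _ => h0 _)

theorem prodE_add (F G : (Fin N → A) → ℝ) :
    prodE N π (fun x => F x + G x) = prodE N π F + prodE N π G := by
  simp only [prodE, mul_add, sum_add_distrib]

theorem prodE_sum {ι : Type} (s : Finset ι) (F : ι → (Fin N → A) → ℝ) :
    prodE N π (fun x => ∑ i ∈ s, F i x) = ∑ i ∈ s, prodE N π (F i) := by
  simp only [prodE, mul_sum]
  rw [sum_comm]

end prod

omit [NeZero n] in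
theorem symm_sum {ds : List (Mat n)} (h : ∀ d ∈ ds, IsDir d) : Symm ds.sum := by
  induction ds with
  | nil => intro u v; rfl
  | cons d ds ih =>
    intro u v
    rw [List.sum_cons]
    change d u v + ds.sum u v = d v u + ds.sum v u
    rw [(h d (by simp)).1 u v, ih (fun e he => h e (by simp [he])) u v]

theorem posW_Wm {κ : Mat n} (h : Symm κ) : PosW (Wm ℓ κ) :=
  posW_Wr fun u v => by
    change (JJ ℓ : ℤ) • κ u v = (JJ ℓ : ℤ) • κ v u
    rw [h u v]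

omit [NeZero n] in
theorem isDir_zero : IsDir (0 : Mat n) := ⟨fun _ _ => rfl, fun _ _ => by simp⟩

omit [NeZero n] in
theorem sum_eq (ds : List (Mat n)) : ds.dropLast.sum + ds.getLastD 0 = ds.sum := by
  rcases List.eq_nil_or_concat ds with rfl | ⟨l, d, rfl⟩
  · simp
  · simp

omit [NeZero n] in
theorem isDir_last {ds : List (Mat n)} (h : ∀ d ∈ ds, IsDir d) : IsDir (ds.getLastD 0) := by
  rcases List.eq_nil_or_concat ds with rfl | ⟨l, d, rfl⟩
  · exact isDir_zero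
  · simpa using h d (by simp)

theorem big_le (hℓ : Big n ℓ) : (2 : ℝ) ^ 36 ≤ 2 ^ ℓ ∧ (n : ℝ) ^ 6 ≤ 2 ^ ℓ := by
  have h1 : (2 : ℝ) ^ 36 * (n : ℝ) ^ 35 ≤ 2 ^ ℓ := by exact_mod_cast hℓ
  have hn : (1 : ℝ) ≤ n := by exact_mod_cast NeZero.one_le
  have h2 : (1 : ℝ) ≤ (n : ℝ) ^ 35 := one_le_pow₀ hn
  have h3 : (n : ℝ) ^ 6 ≤ (n : ℝ) ^ 35 := pow_le_pow_right₀ hn (by norm_num)
  constructor <;> nlinarith

omit [NeZero n] in
theorem mean_cast (f : PM n → ℚ) (x : Pop n ℓ) :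
    (mean f x : ℝ) = (∑ i, (f (x i) : ℝ)) / (NN ℓ : ℝ) := by
  unfold mean; push_cast; rfl

omit [NeZero n] in
theorem cnt_cast (x : Pop n ℓ) (u v : Fin n) :
    (cnt x u v : ℝ) = ∑ i, if (x i).1 u = v then (1 : ℝ) else 0 := by
  unfold cnt; rw [card_filter]; push_cast; rfl

omit [NeZero n] in
theorem mg_eq' (W : Fin n → Fin n → ℝ) (u v : Fin n) :
    mg W u v = ∑ σ : PM n, gib W σ * if σ.1 u = v then (1 : ℝ) else 0 := by
  unfold mg
  exact sum_congr rfl fun σ _ => by split_ifs <;> simp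

theorem ratio {z Z μ m θ i : ℝ} (hZ : 0 < Z) (hμ : 1 / 2 ≤ μ) (hθ : 0 < θ) (hi : 0 ≤ i)
    (hiθ : 8 * (i + 1) * θ ≤ 3) (hz : |z - Z * μ| ≤ 8 * i * θ * (Z * μ)) (hm : |m - μ| ≤ θ) :
    |z / m - Z| ≤ 8 * (i + 1) * θ * Z := by
  have hm' := abs_le.1 hm
  have hθ1 : 8 * θ ≤ 3 := by nlinarith
  have hm0 : 0 < m := by linarith
  have e : z / m - Z = (z - Z * m) / m := by field_simp
  rw [e, abs_div, abs_of_pos hm0, div_le_iff₀ hm0]
  have h1 : |z - Z * m| ≤ |z - Z * μ| + Z * |m - μ| := by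
    have : z - Z * m = (z - Z * μ) - Z * (m - μ) := by ring
    rw [this]
    refine (abs_sub _ _).trans ?_
    rw [abs_mul, abs_of_pos hZ]
  have h2 : Z * |m - μ| ≤ Z * θ := mul_le_mul_of_nonneg_left hm hZ.le
  have h3 : 8 * (i + 1) * θ * Z * (μ - θ) ≤ 8 * (i + 1) * θ * Z * m :=
    mul_le_mul_of_nonneg_left (by linarith) (by positivity)
  have h4 : θ * Z * 1 ≤ θ * Z * (8 * μ - 8 * (i + 1) * θ) :=
    mul_le_mul_of_nonneg_left (by linarith) (by positivity)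
  nlinarith

theorem final {y Z ν m θ a δ : ℝ} (hZ : 0 < Z) (hν : 1 / 2 ≤ ν) (hθ : 0 < θ) (hθ1 : θ ≤ 1 / 2)
    (ha : 0 ≤ a) (hδ : 2 * a + 2 * θ ≤ δ) (hy : |y - Z| ≤ a * Z) (hm : |m - ν| ≤ θ) :
    |y * m - Z * ν| ≤ Z * ν * δ := by
  have hm' := abs_le.1 hm
  have h0 : |m| ≤ 2 * ν := by rw [abs_le]; constructor <;> linarith
  have h1 : |y * m - Z * ν| ≤ |y - Z| * |m| + Z * |m - ν| := by
    have : y * m - Z * ν = (y - Z) * m + Z * (m - ν) := by ring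
    rw [this]
    refine (abs_add_le _ _).trans ?_
    rw [abs_mul, abs_mul, abs_of_pos hZ]
  have h2 : |y - Z| * |m| ≤ a * Z * (2 * ν) := mul_le_mul hy h0 (abs_nonneg _) (by positivity)
  have h3 : Z * |m - ν| ≤ Z * (θ * (2 * ν)) :=
    mul_le_mul_of_nonneg_left (hm.trans (by nlinarith)) hZ.le
  have h4 : Z * ν * (2 * a + 2 * θ) ≤ Z * ν * δ :=
    mul_le_mul_of_nonneg_left hδ (by positivity)
  nlinarith

end StageH

open StageH

/-- The population estimates the marginals and two further expectations. -/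
def Nice (ℓ : ℕ) (W : Fin n → Fin n → ℝ) (f g : PM n → ℚ) (θ : ℝ) (x : Pop n ℓ) : Prop :=
  Acc ℓ W x ∧ |(mean f x : ℝ) - ∑ σ, gib W σ * f σ| ≤ θ ∧ |(mean g x : ℝ) - ∑ σ, gib W σ * g σ| ≤ θ

theorem samp_nice (hℓ : Big n ℓ) (σ0 : PM n) {ds : List (Mat n)} (hds : Adm ℓ ds)
    (hlen : ds.length ≤ RR ℓ) {f g : PM n → ℚ} (hf : ∀ σ, 0 ≤ (f σ : ℝ) ∧ (f σ : ℝ) ≤ 2)
    (hg : ∀ σ, 0 ≤ (g σ : ℝ) ∧ (g σ : ℝ) ≤ 2) :
    Pr (Bsamp n ℓ) (fun u => ¬ Nice ℓ (Wm ℓ ds.sum) f g (1 / 2 ^ (3 * ℓ)) (samp ℓ σ0 ds u)) ≤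
      1 / (16 * 2 ^ ℓ) := by
  classical
  have hn : Even n := σ0.2.even
  have hW : PosW (Wm ℓ ds.sum) := posW_Wm (symm_sum hds.1)
  set W := Wm ℓ ds.sum with hWdef
  have h0 : ∀ σ, 0 ≤ gib W σ := fun σ => (gib_pos hn hW σ).le
  have h1 := sum_gib hn hW
  have hN : 0 < NN ℓ := NeZero.pos _
  obtain ⟨hM, hnM⟩ := big_le hℓ
  have hn0 : (0 : ℝ) < n := by exact_mod_cast NeZero.pos n
  have hη : 0 < eta n / 8 := by unfold eta; positivity
  set θ : ℝ := 1 / 2 ^ (3 * ℓ) with hθdef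
  have hθ : 0 < θ := by positivity
  have hc := samp_close hℓ σ0 hds hlen (F := fun x => ind (¬ Nice ℓ W f g θ x))
    fun x => ⟨ind_nonneg _, ind_le_one _⟩
  have hc' := (abs_le.1 hc).2
  have hpt : ∀ x : Pop n ℓ, ind (¬ Nice ℓ W f g θ x) ≤
      (∑ p : Fin n × Fin n, if eta n / 8 <
        |(∑ i, if (x i).1 p.1 = p.2 then (1 : ℝ) else 0) / (NN ℓ : ℝ) -
          ∑ σ : PM n, gib W σ * if σ.1 p.1 = p.2 then (1 : ℝ) else 0| then (1 : ℝ) else 0) +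
      ((if θ < |(∑ i, (f (x i) : ℝ)) / (NN ℓ : ℝ) - ∑ σ, gib W σ * f σ| then (1 : ℝ) else 0) +
       (if θ < |(∑ i, (g (x i) : ℝ)) / (NN ℓ : ℝ) - ∑ σ, gib W σ * g σ| then (1 : ℝ) else 0)) := by
    intro x
    simp only [← mean_cast, ← cnt_cast, ← mg_eq']
    have a1 : 0 ≤ ∑ p : Fin n × Fin n, if eta n / 8 <
        |(cnt x p.1 p.2 : ℝ) / (NN ℓ : ℝ) - mg W p.1 p.2| then (1 : ℝ) else 0 :=
      sum_nonneg fun _ _ => by split_ifs <;> norm_num
    by_cases hx : Nice ℓ W f g θ x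
    · rw [ind_false (not_not.2 hx)]
      refine add_nonneg a1 (add_nonneg ?_ ?_) <;> split_ifs <;> norm_num
    · rw [ind_true hx]
      by_cases b1 : θ < |(mean f x : ℝ) - ∑ σ, gib W σ * f σ|
      · rw [if_pos b1]; split_ifs <;> linarith
      by_cases b2 : θ < |(mean g x : ℝ) - ∑ σ, gib W σ * g σ|
      · rw [if_pos b2]; split_ifs <;> linarith
      have b3 : ¬ Acc ℓ W x := fun h => hx ⟨h, not_lt.1 b1, not_lt.1 b2⟩
      unfold Acc at b3
      push Not at b3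
      obtain ⟨u, v, -, huv⟩ := b3
      rw [if_neg b1, if_neg b2, add_zero, add_zero]
      have := single_le_sum (f := fun p : Fin n × Fin n => if eta n / 8 <
        |(cnt x p.1 p.2 : ℝ) / (NN ℓ : ℝ) - mg W p.1 p.2| then (1 : ℝ) else 0)
        (fun _ _ => by split_ifs <;> norm_num) (mem_univ (u, v))
      rwa [if_pos huv] at this
  have h2 := prodE_mono (N := NN ℓ) h0 hpt
  rw [prodE_add, prodE_add, prodE_sum] at h2
  have c1 := prodE_cheb h0 h1 hN (f := fun σ => (f σ : ℝ)) hf hθ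
  have c2 := prodE_cheb h0 h1 hN (f := fun σ => (g σ : ℝ)) hg hθ
  have c3 : ∑ p : Fin n × Fin n, prodE (NN ℓ) (gib W) (fun x => if eta n / 8 <
        |(∑ i, if (x i).1 p.1 = p.2 then (1 : ℝ) else 0) / (NN ℓ : ℝ) -
          ∑ σ : PM n, gib W σ * if σ.1 p.1 = p.2 then (1 : ℝ) else 0| then (1 : ℝ) else 0) ≤
      ∑ _p : Fin n × Fin n, (1 : ℝ) ^ 2 / (NN ℓ * (eta n / 8) ^ 2) :=
    sum_le_sum fun p _ => prodE_cheb h0 h1 hN
      (f := fun σ : PM n => if σ.1 p.1 = p.2 then (1 : ℝ) else 0)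
      (fun σ => by split_ifs <;> norm_num) hη
  rw [sum_const, card_univ, Fintype.card_prod, Fintype.card_fin, nsmul_eq_mul] at c3
  set M : ℝ := 2 ^ ℓ with hMdef
  have hM1 : (1 : ℝ) ≤ M := le_trans (by norm_num) hM
  have hM0 : (0 : ℝ) < M := by linarith
  have eN : (NN ℓ : ℝ) = M ^ 16 := by
    unfold NN; push_cast; rw [hMdef, ← pow_mul, mul_comm]
  have eθ : θ = 1 / M ^ 3 := by rw [hθdef, hMdef, ← pow_mul, mul_comm]
  have e2 : (2 : ℝ) ^ (2 * ℓ) = M ^ 2 := by rw [hMdef, ← pow_mul, mul_comm]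
  have d1 : (2 : ℝ) ^ 2 / (NN ℓ * θ ^ 2) ≤ 4 / M ^ 2 := by
    have : (2 : ℝ) ^ 2 / (NN ℓ * θ ^ 2) = 4 / M ^ 10 := by
      rw [eN, eθ]; field_simp; norm_num
    rw [this]
    exact div_le_div_of_nonneg_left (by norm_num) (by positivity)
      (pow_le_pow_right₀ hM1 (by norm_num))
  have d2 : ((n * n : ℕ) : ℝ) * ((1 : ℝ) ^ 2 / (NN ℓ * (eta n / 8) ^ 2)) ≤ 1024 / M ^ 2 := by
    have : ((n * n : ℕ) : ℝ) * ((1 : ℝ) ^ 2 / (NN ℓ * (eta n / 8) ^ 2)) =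
        1024 * ((n : ℝ) ^ 6 / M) / M ^ 15 := by
      rw [eN]; unfold eta; push_cast; field_simp; norm_num
    rw [this]
    have h3 : (n : ℝ) ^ 6 / M ≤ 1 := (div_le_one hM0).2 hnM
    exact div_le_div₀ (by norm_num) (by linarith) (by positivity)
      (pow_le_pow_right₀ hM1 (by norm_num))
  have d3 : 1038 / M ^ 2 ≤ 1 / (16 * M) := by
    rw [div_le_div_iff₀ (by positivity) (by positivity)]
    nlinarith
  have d4 : 1038 / M ^ 2 = 1024 / M ^ 2 + 4 / M ^ 2 + 4 / M ^ 2 + 6 / M ^ 2 := by ring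
  rw [e2] at hc'
  unfold Pr
  linarith

/-- The invariant of the learning after `i` stages. -/
def Good (ℓ : ℕ) (adj : Gr n) (i : ℕ) (s : List (Mat n) × ℚ × Option ℚ) : Prop :=
  (∀ z ∈ s.2.2, |(z : ℝ) - numPM adj| ≤ numPM adj / 2 ^ ℓ) ∧
  (s.2.2 = none → s.1.length = i ∧ Adm ℓ s.1 ∧ Bal (eta n / 4) (Wm ℓ s.1.sum) ∧
    (∀ u v, adj u v = true → 0 ≤ s.1.sum u v) ∧
    Psi ℓ s.1.sum ≤ (n : ℝ) ^ 2 - i / (128 * (n : ℝ) ^ 3) ∧
    |(s.2.1 : ℝ) - ZZ (Wm ℓ s.1.dropLast.sum)| ≤ 8 * i / 2 ^ (3 * ℓ) * ZZ (Wm ℓ s.1.dropLast.sum))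

theorem good_zero (hn : Even n) (adj : Gr n) : Good ℓ adj 0 ([], (z0 n : ℚ), none) := by
  refine ⟨fun z hz => by simp at hz, fun _ => ⟨rfl, ⟨by simp, by simp⟩, bal_zero hn,
    fun _ _ _ => le_rfl, by simpa using psi_zero hn, ?_⟩⟩
  have : ZZ (Wm ℓ (0 : Mat n)) = z0 n := by
    rw [Wm_zero, ← card_PM hn]
    simp [ZZ, wt]
  simp [this]

theorem good_upd (hn : Even n) (hℓ : Big n ℓ) {adj : Gr n} (ha : Symm adj) {i : ℕ}
    (hi : i < RR ℓ) {s : List (Mat n) × ℚ × Option ℚ} (hs : Good ℓ adj i s) (h0 : s.2.2 = none)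
    {x : Pop n ℓ} (hx : Nice ℓ (Wm ℓ s.1.sum) (back ℓ (s.1.getLastD 0)) (fin ℓ adj s.1.sum)
      (1 / 2 ^ (3 * ℓ)) x) : Good ℓ adj (i + 1) (upd ℓ adj s x) := by
  obtain ⟨ds, z, o⟩ := s
  obtain ⟨hlen, hadm, hB, hpos, hΨ, hz⟩ := hs.2 h0
  obtain ⟨hacc, hm1, hm2⟩ := hx
  dsimp only at hlen hadm hB hpos hΨ hz hacc hm1 hm2
  have hκ : Symm ds.sum := symm_sum hadm.1
  have hκ' : Symm ds.dropLast.sum := symm_sum fun d hd => hadm.1 d (List.mem_of_mem_dropLast hd)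
  have hd0 := isDir_last hadm.1
  have hW : PosW (Wm ℓ ds.sum) := posW_Wm hκ
  have hZ := ZZ_pos hn hW
  have hsb := sum_back (ℓ := ℓ) hn hκ' hd0.1
  rw [sum_eq] at hsb
  have hμ : 1 / 2 ≤ ∑ σ, gib (Wm ℓ ds.sum) σ * (back ℓ (ds.getLastD 0) σ : ℝ) := by
    calc (1 / 2 : ℝ) = ∑ σ, gib (Wm ℓ ds.sum) σ * (1 / 2) := by
          rw [← sum_mul, sum_gib hn hW, one_mul]
      _ ≤ _ := sum_le_sum fun σ _ =>
          mul_le_mul_of_nonneg_left (back_mem hd0 σ).1 (gib_pos hn hW σ).le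
  obtain ⟨hM, -⟩ := big_le hℓ
  set M : ℝ := 2 ^ ℓ with hMdef
  have hM1 : (18 : ℝ) ≤ M := le_trans (by norm_num) hM
  have hM0 : (0 : ℝ) < M := by linarith
  have e3 : (2 : ℝ) ^ (3 * ℓ) = M ^ 3 := by rw [hMdef, ← pow_mul, mul_comm]
  have hiM : (i : ℝ) + 1 ≤ M := by
    have : i + 1 ≤ 2 ^ ℓ := hi
    rw [hMdef]; exact_mod_cast this
  have hi0 : (0 : ℝ) ≤ i := Nat.cast_nonneg _
  have hθ : (0 : ℝ) < 1 / 2 ^ (3 * ℓ) := by positivity
  have hθM : (1 : ℝ) / 2 ^ (3 * ℓ) ≤ 1 / M ^ 2 := by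
    rw [e3]
    exact one_div_le_one_div_of_le (by positivity) (pow_le_pow_right₀ (by linarith) (by norm_num))
  have haM : 8 * ((i : ℝ) + 1) * (1 / 2 ^ (3 * ℓ)) ≤ 8 * (1 / M ^ 2) := by
    rw [e3]
    calc 8 * ((i : ℝ) + 1) * (1 / M ^ 3) ≤ 8 * M * (1 / M ^ 3) := by gcongr
      _ = _ := by field_simp
  have hMM : 18 * (1 / M ^ 2) ≤ 1 / M := by
    rw [mul_one_div, div_le_div_iff₀ (by positivity) hM0]
    nlinarith
  have hM2 : 1 / M ≤ 1 / 18 := one_div_le_one_div_of_le (by norm_num) hM1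
  have hM3 : 0 < 1 / M ^ 2 := by positivity
  have hr := ratio (z := z) hZ hμ hθ hi0 (by linarith) (by
    rw [hsb]; convert hz using 2; ring) hm1
  unfold upd
  dsimp only
  cases hd : dir adj ds.sum x with
  | none =>
    refine ⟨fun y hy => ?_, fun h => by simp at h⟩
    simp only [Option.elim_none, Option.mem_def, Option.some.injEq] at hy
    subst hy
    have hν := dir_none hn hκ hpos hacc hd
    have := final (δ := 1 / M) hZ hν hθ (by linarith) (by positivity) (by linarith) hr hm2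
    rw [sum_fin hn hκ] at this
    push_cast
    rwa [mul_one_div] at this
  | some d =>
    obtain ⟨k1, k2, k3⟩ := dir_some hn ha hκ hpos hB hacc hd
    refine ⟨fun y hy => by simp at hy, fun _ => ?_⟩
    simp only [Option.elim_some, List.sum_append, List.sum_singleton, List.length_append,
      List.length_singleton, List.dropLast_concat]
    refine ⟨by rw [hlen], ⟨fun e he => ?_, fun t ht j hj => ?_⟩, ?_, k2, ?_, ?_⟩
    · rcases List.mem_append.1 he with h | h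
      · exact hadm.1 e h
      · rw [List.mem_singleton.1 h]; exact dir_isDir hd
    · rw [List.length_append, List.length_singleton] at ht
      rcases Nat.lt_succ_iff_lt_or_eq.1 ht with h | h
      · rw [List.take_append_of_le_length h.le, List.getD_append _ _ _ _ h]
        exact hadm.2 t h j hj
      · rw [h, List.take_left', List.getD_append_right _ _ _ _ le_rfl]
        · simpa using k1 j hj
        · rfl
    · have := k1 (JJ ℓ) le_rfl
      rwa [← smul_add] at this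
    · have e : ((i + 1 : ℕ) : ℝ) / (128 * (n : ℝ) ^ 3) =
          i / (128 * (n : ℝ) ^ 3) + 1 / (128 * (n : ℝ) ^ 3) := by push_cast; ring
      rw [e]; linarith
    · push_cast
      convert hr using 2
      ring

end Crest.Agent.R304
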