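import Crest.Agent.R304.Edmonds

/-!
# Row 304: the tight odd cuts span a space of dimension at most `3 m - 2`
-/

set_option autoImplicit false

namespace Crest.Agent.R304

open Finset

/-- A laminar family of odd subsets of a nonempty set `X` has at most `(3 |X| - 1) / 2` members. -/
theorem card_laminar {V : Type} [DecidableEq V] {X : Finset V} (hX : X.Nonempty)
    {L : Finset (Finset V)} (hsub : ∀ S ∈ L, S ⊆ X) (hodd : ∀ S ∈ L, Odd S.card)
    (hlam : ∀ S ∈ L, ∀ T ∈ L, S ⊆ T ∨ T ⊆ S ∨ Disjoint S T) : 2 * L.card + 1 ≤ 3 * X.card := by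
  induction hc : X.card using Nat.strong_induction_on generalizing X L with
  | _ m ih =>
  subst hc
  by_cases hall : ∀ S ∈ L, S.card = 1
  · have h1 : L ⊆ X.image (fun v => ({v} : Finset V)) := by
      intro S hS
      obtain ⟨v, rfl⟩ := card_eq_one.1 (hall S hS)
      exact mem_image.2 ⟨v, hsub _ hS (mem_singleton_self v), rfl⟩
    have h2 := (card_le_card h1).trans card_image_le
    have h3 := hX.card_pos
    omega
  · push Not at hall
    obtain ⟨S1, hS1, hS1'⟩ := hall
    obtain ⟨S0, hS0, hmin⟩ := exists_min_image (L.filter (fun S => S.card ≠ 1)) card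
      ⟨S1, mem_filter.2 ⟨hS1, hS1'⟩⟩
    obtain ⟨hS0L, hS0c⟩ := mem_filter.1 hS0
    have h3 : 2 < S0.card := by
      obtain ⟨j, hj⟩ := hodd S0 hS0L
      omega
    obtain ⟨a, b, c, ha, hb, hc, hab, hac, hbc⟩ := two_lt_card_iff.1 h3
    have hsmall : ∀ S ∈ L, S ⊆ S0 → S ≠ S0 → S.card = 1 := by
      intro S hS hle hne
      by_contra h
      exact hne (eq_of_subset_of_card_le hle (hmin S (mem_filter.2 ⟨hS, h⟩)))
    set L' := L \ {{a}, {b}, S0} with hL'
    have hmem : ∀ S ∈ L', S ∈ L ∧ S ≠ {a} ∧ S ≠ {b} ∧ S ≠ S0 := by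
      intro S hS
      simpa [hL', not_or] using hS
    have hcase : ∀ S ∈ L', S0 ⊆ S ∨ S \ {a, b} = S := by
      intro S hS
      obtain ⟨hSL, h1, h2, h4⟩ := hmem S hS
      rcases hlam S hSL S0 hS0L with h | h | h
      · right
        obtain ⟨v, rfl⟩ := card_eq_one.1 (hsmall S hSL h h4)
        rw [Finset.sdiff_eq_self_iff_disjoint, disjoint_singleton_left]
        simp only [mem_insert, mem_singleton, not_or]
        exact ⟨fun e => h1 (by rw [e]), fun e => h2 (by rw [e])⟩
      · exact Or.inl h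
      · right
        rw [Finset.sdiff_eq_self_iff_disjoint]
        refine disjoint_of_subset_right ?_ h
        intro v hv
        simp only [mem_insert, mem_singleton] at hv
        rcases hv with rfl | rfl
        · exact ha
        · exact hb
    have hpair : ∀ S : Finset V, S0 ⊆ S → {a, b} ⊆ S := by
      intro S hS v hv
      simp only [mem_insert, mem_singleton] at hv
      rcases hv with rfl | rfl
      · exact hS ha
      · exact hS hb
    have hcard : ∀ S : Finset V, S0 ⊆ S → (S \ {a, b}).card + 2 = S.card := by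
      intro S hS
      rw [← card_pair hab, card_sdiff_add_card_eq_card (hpair S hS)]
    have hmix : ∀ S ∈ L', ∀ T ∈ L', S0 ⊆ S → T \ {a, b} = T → S \ {a, b} ≠ T \ {a, b} := by
      intro S hS T hT h1 h2 e
      rw [h2] at e
      obtain ⟨hSL, -, -, hS4⟩ := hmem S hS
      obtain ⟨hTL, -, -, hT4⟩ := hmem T hT
      rcases hlam T hTL S0 hS0L with h | h | h
      · have h5 := hsmall T hTL h hT4
        have h6 := hcard S h1
        rw [e, h5] at h6
        exact hS4 (eq_of_subset_of_card_le h1 (by omega)).symm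
      · have h5 := h ha
        rw [← e] at h5
        simp at h5
      · refine disjoint_left.1 h ?_ hc
        rw [← e]
        simp [h1 hc, hac.symm, hbc.symm]
    have hinj : Set.InjOn (fun S : Finset V => S \ {a, b}) (L' : Set (Finset V)) := by
      intro S hS T hT e
      dsimp only at e
      rcases hcase S hS with h1 | h1 <;> rcases hcase T hT with h2 | h2
      · rw [← sdiff_union_of_subset (hpair S h1), ← sdiff_union_of_subset (hpair T h2), e]
      · exact absurd e (hmix S hS T hT h1 h2)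
      · exact absurd e.symm (hmix T hT S hS h2 h1)
      · rw [← h1, ← h2, e]
    have hX0 : S0 ⊆ X := hsub S0 hS0L
    have hXc := hcard X hX0
    have key := ih (X \ {a, b}).card (by omega) (X := X \ {a, b})
      (L := L'.image (fun S : Finset V => S \ {a, b}))
      ⟨c, by simp [hX0 hc, hac.symm, hbc.symm]⟩ (fun T hT => ?_) (fun T hT => ?_)
      (fun T hT T' hT' => ?_) rfl
    · rw [card_image_of_injOn hinj] at key
      have h5 : L.card ≤ L'.card + ({{a}, {b}, S0} : Finset (Finset V)).card :=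
        card_le_card_sdiff_add_card
      have h6 : ({{a}, {b}, S0} : Finset (Finset V)).card ≤ 3 := card_le_three
      omega
    · obtain ⟨S, hS, rfl⟩ := mem_image.1 hT
      exact sdiff_subset_sdiff (hsub S (hmem S hS).1) subset_rfl
    · obtain ⟨S, hS, rfl⟩ := mem_image.1 hT
      have h5 := hodd S (hmem S hS).1
      rcases hcase S hS with h | h
      · have h6 := hcard S h
        rw [Nat.odd_iff] at h5 ⊢
        omega
      · rwa [h]
    · obtain ⟨S, hS, rfl⟩ := mem_image.1 hT
      obtain ⟨S', hS', rfl⟩ := mem_image.1 hT'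
      rcases hlam S (hmem S hS).1 S' (hmem S' hS').1 with h | h | h
      · exact Or.inl (sdiff_subset_sdiff h subset_rfl)
      · exact Or.inr (Or.inl (sdiff_subset_sdiff h subset_rfl))
      · exact Or.inr (Or.inr (h.mono sdiff_subset sdiff_subset))

variable {n k : ℕ}

/-- The indicator vector of the edges of `E` leaving `S`. -/
def chi (ends : Fin k → Fin n × Fin n) (E : Finset (Fin k)) (S : Finset (Fin n)) : Fin k → ℝ :=
  fun e => if e ∈ E ∧ Cross ends S e then 1 else 0

namespace Unc

/-- Two sets are nested or disjoint. -/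
def Lam {V : Type} (S T : Finset V) : Prop := S ⊆ T ∨ T ⊆ S ∨ Disjoint S T

theorem Lam.symm {V : Type} {S T : Finset V} (h : Lam S T) : Lam T S := by
  rcases h with h | h | h
  · exact Or.inr (Or.inl h)
  · exact Or.inl h
  · exact Or.inr (Or.inr h.symm)

theorem lam_inter {V : Type} [DecidableEq V] {S T R : Finset V} (h1 : Lam S R) (h2 : Lam T R) :
    Lam (T ∩ S) R := by
  rcases h1 with h1 | h1 | h1
  · exact Or.inl (inter_subset_right.trans h1)
  · rcases h2 with h2 | h2 | h2
    · exact Or.inl (inter_subset_left.trans h2)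
    · exact Or.inr (Or.inl (subset_inter h2 h1))
    · exact Or.inr (Or.inr (h2.mono_left inter_subset_left))
  · exact Or.inr (Or.inr (h1.mono_left inter_subset_right))

theorem lam_union {V : Type} [DecidableEq V] {S T R : Finset V} (h : ¬ Lam T S) (h1 : Lam S R)
    (h2 : Lam T R) : Lam (T ∪ S) R := by
  rcases h1 with h1 | h1 | h1
  · rcases h2 with h2 | h2 | h2
    · exact Or.inl (union_subset h2 h1)
    · exact Or.inr (Or.inl (h2.trans subset_union_left))
    · exact absurd (Or.inr (Or.inr (h2.mono_right h1))) h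
  · exact Or.inr (Or.inl (h1.trans subset_union_right))
  · rcases h2 with h2 | h2 | h2
    · exact absurd (Or.inr (Or.inr (h1.symm.mono_left h2))) h
    · exact Or.inr (Or.inl (h2.trans subset_union_left))
    · exact Or.inr (Or.inr (disjoint_union_left.2 ⟨h2, h1⟩))

theorem lam_sdiff {V : Type} [DecidableEq V] {S T R : Finset V} (h : ¬ Lam T S) (h1 : Lam S R)
    (h2 : Lam T R) : Lam (T \ S) R := by
  rcases h2 with h2 | h2 | h2
  · exact Or.inl (sdiff_subset.trans h2)
  · rcases h1 with h1 | h1 | h1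
    · exact absurd (Or.inr (Or.inl (h1.trans h2))) h
    · exact Or.inr (Or.inr (sdiff_disjoint.mono_right h1))
    · exact Or.inr (Or.inl (subset_sdiff.2 ⟨h2, h1.symm⟩))
  · exact Or.inr (Or.inr (h2.mono_left sdiff_subset))

variable {ends : Fin k → Fin n × Fin n} {x : Fin k → ℝ} {E : Finset (Fin k)}

theorem w_eq (S : Finset (Fin n)) :
    ∑ e ∈ E with Cross ends S e, x e = ∑ e ∈ E, chi ends E S e * x e := by
  rw [sum_filter]
  refine sum_congr rfl fun e he => ?_
  by_cases h : Cross ends S e <;> simp [chi, he, h]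

theorem chi_submod (T S : Finset (Fin n)) (e : Fin k) :
    chi ends E (T ∩ S) e + chi ends E (T ∪ S) e ≤ chi ends E T e + chi ends E S e := by
  by_cases he : e ∈ E
  · by_cases h1 : (ends e).1 ∈ T <;> by_cases h2 : (ends e).2 ∈ T <;>
      by_cases h3 : (ends e).1 ∈ S <;> by_cases h4 : (ends e).2 ∈ S <;>
      simp [chi, Cross, he, h1, h2, h3, h4]
  · simp [chi, he]

theorem chi_posimod (T S : Finset (Fin n)) (e : Fin k) :
    chi ends E (T \ S) e + chi ends E (S \ T) e ≤ chi ends E T e + chi ends E S e := by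
  by_cases he : e ∈ E
  · by_cases h1 : (ends e).1 ∈ T <;> by_cases h2 : (ends e).2 ∈ T <;>
      by_cases h3 : (ends e).1 ∈ S <;> by_cases h4 : (ends e).2 ∈ S <;>
      simp [chi, Cross, he, h1, h2, h3, h4]
  · simp [chi, he]

theorem chi_compl {U : Finset (Fin n)} (hin : ∀ e ∈ E, (ends e).1 ∈ U ∧ (ends e).2 ∈ U)
    (S : Finset (Fin n)) : chi ends E (U \ S) = chi ends E S := by
  funext e
  by_cases he : e ∈ E
  · obtain ⟨h1, h2⟩ := hin e he
    by_cases h3 : (ends e).1 ∈ S <;> by_cases h4 : (ends e).2 ∈ S <;>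
      simp [chi, Cross, he, h1, h2, h3, h4]
  · simp [chi, he]

theorem uncross (hpos : ∀ e ∈ E, 0 < x e) {T S T₁ T₂ : Finset (Fin n)}
    (hle : ∀ e, chi ends E T₁ e + chi ends E T₂ e ≤ chi ends E T e + chi ends E S e)
    (hT : ∑ e ∈ E with Cross ends T e, x e = 1) (hS : ∑ e ∈ E with Cross ends S e, x e = 1)
    (h1 : 1 ≤ ∑ e ∈ E with Cross ends T₁ e, x e) (h2 : 1 ≤ ∑ e ∈ E with Cross ends T₂ e, x e) :
    ∑ e ∈ E with Cross ends T₁ e, x e = 1 ∧ ∑ e ∈ E with Cross ends T₂ e, x e = 1 ∧
      chi ends E T = chi ends E T₁ + chi ends E T₂ - chi ends E S := by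
  rw [w_eq] at hT hS h1 h2
  rw [w_eq, w_eq]
  have hnn : ∀ e ∈ E, 0 ≤ (chi ends E T e + chi ends E S e -
      (chi ends E T₁ e + chi ends E T₂ e)) * x e :=
    fun e he => mul_nonneg (sub_nonneg.2 (hle e)) (hpos e he).le
  have hsum : ∑ e ∈ E, (chi ends E T e + chi ends E S e -
      (chi ends E T₁ e + chi ends E T₂ e)) * x e =
      2 - (∑ e ∈ E, chi ends E T₁ e * x e + ∑ e ∈ E, chi ends E T₂ e * x e) := by
    simp only [sub_mul, add_mul, sum_sub_distrib, sum_add_distrib, hT, hS]
    ring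
  have h0 := sum_nonneg hnn
  refine ⟨by linarith, by linarith, ?_⟩
  have h3 := (sum_eq_zero_iff_of_nonneg hnn).1 (by linarith)
  funext e
  simp only [Pi.sub_apply, Pi.add_apply]
  by_cases he : e ∈ E
  · rcases mul_eq_zero.1 (h3 e he) with h | h
    · linarith
    · exact absurd h (hpos e he).ne'
  · simp [chi, he]

end Unc

/-- Uncrossing.  The edges of `E` have positive weight and both ends in `U`, and satisfy Edmonds'
constraints inside `U`. -/
theorem finrank_tight_le {ends : Fin k → Fin n × Fin n} {x : Fin k → ℝ} {E : Finset (Fin k)}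
    {U : Finset (Fin n)} (hU : U.Nonempty) (hUe : Even U.card) (hpos : ∀ e ∈ E, 0 < x e)
    (hin : ∀ e ∈ E, (ends e).1 ∈ U ∧ (ends e).2 ∈ U)
    (hodd : ∀ S ⊆ U, Odd S.card → 1 ≤ ∑ e ∈ E with Cross ends S e, x e) :
    2 * Module.finrank ℝ (Submodule.span ℝ (chi ends E ''
      {S | S ⊆ U ∧ Odd S.card ∧ ∑ e ∈ E with Cross ends S e, x e = 1})) + 4 ≤ 3 * U.card := by
  classical
  obtain ⟨r, hr⟩ := hU
  set X := U.erase r with hX
  have hXc : X.card + 1 = U.card := card_erase_add_one hr
  have hXne : X.Nonempty := by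
    rw [← card_pos]
    obtain ⟨j, hj⟩ := hUe
    omega
  have hXU : X ⊆ U := erase_subset r U
  set TT : Finset (Finset (Fin n)) := X.powerset.filter
    (fun S => Odd S.card ∧ ∑ e ∈ E with Cross ends S e, x e = 1) with hTT
  have hmem : ∀ S, S ∈ TT ↔ S ⊆ X ∧ Odd S.card ∧ ∑ e ∈ E with Cross ends S e, x e = 1 := by
    intro S
    simp only [hTT, mem_filter, mem_powerset]
  obtain ⟨L, hL, hmax⟩ := exists_max_image
    (TT.powerset.filter (fun L => ∀ S ∈ L, ∀ T ∈ L, Unc.Lam S T)) card ⟨∅, by simp⟩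
  obtain ⟨hLT, hlam⟩ := mem_filter.1 hL
  rw [mem_powerset] at hLT
  set W := Submodule.span ℝ ((L.image (chi ends E) : Finset (Fin k → ℝ)) : Set (Fin k → ℝ))
    with hW
  have hLW : ∀ S ∈ L, chi ends E S ∈ W := fun S hS =>
    Submodule.subset_span (mem_coe.2 (mem_image_of_mem _ hS))
  have hspan : ∀ m, ∀ T ∈ TT, (L.filter (fun S => ¬ Unc.Lam T S)).card = m → chi ends E T ∈ W := by
    intro m
    induction m using Nat.strong_induction_on with
    | _ m ih =>
    intro T hT hm
    by_cases hall : ∀ S ∈ L, Unc.Lam T S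
    · refine hLW T ?_
      by_contra hTL
      have h1 := hmax (insert T L) (mem_filter.2 ⟨mem_powerset.2 (insert_subset hT hLT), ?_⟩)
      · rw [card_insert_of_notMem hTL] at h1
        omega
      · intro S hS S' hS'
        rcases mem_insert.1 hS with a1 | a1 <;> rcases mem_insert.1 hS' with a2 | a2
        · rw [a1, a2]; exact Or.inl subset_rfl
        · rw [a1]; exact hall _ a2
        · rw [a2]; exact (hall _ a1).symm
        · exact hlam _ a1 _ a2
    · push Not at hall
      obtain ⟨S, hS, hcr⟩ := hall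
      obtain ⟨hTX, hTo, hTw⟩ := (hmem T).1 hT
      obtain ⟨hSX, hSo, hSw⟩ := (hmem S).1 (hLT hS)
      have hdec : ∀ R ∈ TT, Unc.Lam R S → (∀ S' ∈ L, Unc.Lam T S' → Unc.Lam R S') →
          chi ends E R ∈ W := by
        intro R hR h1 h2
        refine ih _ ?_ R hR rfl
        rw [← hm]
        refine card_lt_card ((ssubset_iff_of_subset fun S' hS' => ?_).2
          ⟨S, mem_filter.2 ⟨hS, hcr⟩, fun h => (mem_filter.1 h).2 h1⟩)
        obtain ⟨h3, h4⟩ := mem_filter.1 hS'
        exact mem_filter.2 ⟨h3, fun h => h4 (h2 S' h3 h)⟩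
      have hfin : ∀ T₁ T₂ : Finset (Fin n), T₁ ⊆ X → T₂ ⊆ X → Odd T₁.card → Odd T₂.card →
          (∀ e, chi ends E T₁ e + chi ends E T₂ e ≤ chi ends E T e + chi ends E S e) →
          Unc.Lam T₁ S → Unc.Lam T₂ S → (∀ S' ∈ L, Unc.Lam T S' → Unc.Lam T₁ S') →
          (∀ S' ∈ L, Unc.Lam T S' → Unc.Lam T₂ S') → chi ends E T ∈ W := by
        intro T₁ T₂ a1 a2 b1 b2 hle c1 c2 d1 d2
        obtain ⟨e1, e2, e3⟩ := Unc.uncross hpos hle hTw hSw (hodd T₁ (a1.trans hXU) b1)
          (hodd T₂ (a2.trans hXU) b2)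
        rw [e3]
        exact W.sub_mem (W.add_mem (hdec T₁ ((hmem _).2 ⟨a1, b1, e1⟩) c1 d1)
          (hdec T₂ ((hmem _).2 ⟨a2, b2, e2⟩) c2 d2)) (hLW S hS)
      by_cases hpar : Odd (T ∩ S).card
      · refine hfin (T ∩ S) (T ∪ S) (inter_subset_left.trans hTX) (union_subset hTX hSX) hpar ?_
          (Unc.chi_submod T S) (Or.inl inter_subset_right) (Or.inr (Or.inl subset_union_right))
          (fun S' hS' h => Unc.lam_inter (hlam S hS S' hS') h)
          (fun S' hS' h => Unc.lam_union hcr (hlam S hS S' hS') h)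
        have := card_union_add_card_inter T S
        rw [Nat.odd_iff] at hpar hTo hSo ⊢
        omega
      · refine hfin (T \ S) (S \ T) (sdiff_subset.trans hTX) (sdiff_subset.trans hSX) ?_ ?_
          (Unc.chi_posimod T S) (Or.inr (Or.inr sdiff_disjoint)) (Or.inl sdiff_subset)
          (fun S' hS' h => Unc.lam_sdiff hcr (hlam S hS S' hS') h)
          (fun S' hS' h => Unc.lam_sdiff (fun h' => hcr h'.symm) h (hlam S hS S' hS'))
        · have := card_sdiff_add_card_inter T S
          rw [Nat.odd_iff] at hpar hTo ⊢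
          omega
        · have := card_sdiff_add_card_inter S T
          rw [inter_comm] at this
          rw [Nat.odd_iff] at hpar hSo ⊢
          omega
  have hle : Submodule.span ℝ (chi ends E ''
      {S | S ⊆ U ∧ Odd S.card ∧ ∑ e ∈ E with Cross ends S e, x e = 1}) ≤ W := by
    rw [Submodule.span_le]
    rintro _ ⟨S, ⟨hSU, hSo, hSw⟩, rfl⟩
    by_cases hrS : r ∈ S
    · rw [← Unc.chi_compl hin S]
      refine hspan _ _ ((hmem _).2 ⟨fun v hv => ?_, ?_, ?_⟩) rfl
      · obtain ⟨h1, h2⟩ := mem_sdiff.1 hv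
        exact mem_erase.2 ⟨fun e => h2 (e ▸ hrS), h1⟩
      · have := card_sdiff_add_card_eq_card hSU
        rw [Nat.even_iff] at hUe
        rw [Nat.odd_iff] at hSo ⊢
        omega
      · rw [Unc.w_eq, Unc.chi_compl hin S, ← Unc.w_eq]
        exact hSw
    · exact hspan _ _ ((hmem _).2 ⟨fun v hv => mem_erase.2 ⟨fun e => hrS (e ▸ hv), hSU hv⟩,
        hSo, hSw⟩) rfl
  have h1 := Submodule.finrank_mono hle
  have h2 : Module.finrank ℝ W ≤ L.card :=
    (finrank_span_finset_le_card (L.image (chi ends E))).trans card_image_le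
  have h3 := card_laminar hXne (fun S hS => ((hmem S).1 (hLT hS)).1)
    (fun S hS => ((hmem S).1 (hLT hS)).2.1) hlam
  omega

end Crest.Agent.R304
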