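import Crest.Agent.R304.Inv

/-!
# Row 304: weights of matchings and partition functions
-/

set_option autoImplicit false

namespace Crest.Agent.R304

open Finset

variable {n : ℕ}

section monoid
variable {R : Type} [CommMonoid R] {W : Fin n → Fin n → R}

@[to_additive wtA_cost_def]
theorem wtA_def (W : Fin n → Fin n → R) (σ : Fn n) :
    wt W σ = ∏ v, if v < σ v then W v (σ v) else 1 := rfl

@[to_additive wtA_sum_comp]
theorem wtA_prod_comp {σ : Fn n} (h : IsInv σ) (f : Fin n → R) : ∏ v, f (σ v) = ∏ v, f v :=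
  Equiv.prod_comp (Function.Involutive.toPerm σ h) f

@[to_additive cost_id]
theorem wt_id (W : Fin n → Fin n → R) : wt W id = 1 := by
  rw [wtA_def]
  exact Finset.prod_eq_one fun v _ => if_neg (lt_irrefl v)

@[to_additive cost_congr]
theorem wt_congr {W W' : Fin n → Fin n → R} {σ : Fn n}
    (h : ∀ v, σ v ≠ v → W v (σ v) = W' v (σ v)) : wt W σ = wt W' σ := by
  rw [wtA_def, wtA_def]
  refine Finset.prod_congr rfl fun v _ => ?_
  by_cases hv : v < σ v
  · rw [if_pos hv, if_pos hv]; exact h v (ne_of_gt hv)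
  · rw [if_neg hv, if_neg hv]

@[to_additive cost_add]
theorem wt_mul (W W' : Fin n → Fin n → R) (σ : Fn n) :
    wt (fun u v => W u v * W' u v) σ = wt W σ * wt W' σ := by
  rw [wtA_def, wtA_def, wtA_def, ← Finset.prod_mul_distrib]
  refine Finset.prod_congr rfl fun v _ => ?_
  by_cases hv : v < σ v
  · rw [if_pos hv, if_pos hv, if_pos hv]
  · rw [if_neg hv, if_neg hv, if_neg hv, mul_one]

/-- Counting every edge from both ends. -/
@[to_additive cost_two]
theorem wt_sq (hW : Symm W) {σ : Fn n} (h : IsInv σ) :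
    wt W σ * wt W σ = ∏ v, if σ v = v then 1 else W v (σ v) := by
  have e : wt W σ = ∏ v, if σ v < v then W v (σ v) else 1 := by
    rw [wtA_def, ← wtA_prod_comp h]
    refine Finset.prod_congr rfl fun v _ => ?_
    rw [h v, hW (σ v) v]
  calc wt W σ * wt W σ
      = (∏ v, if v < σ v then W v (σ v) else 1) * ∏ v, if σ v < v then W v (σ v) else 1 := by
        rw [← e, ← wtA_def]
    _ = _ := by
        rw [← Finset.prod_mul_distrib]
        refine Finset.prod_congr rfl fun v _ => ?_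
        rcases lt_trichotomy v (σ v) with hv | hv | hv
        · rw [if_pos hv, if_neg (not_lt_of_gt hv), if_neg (ne_of_gt hv), mul_one]
        · rw [if_neg (not_lt_of_ge hv.ge), if_neg (not_lt_of_ge hv.le), if_pos hv.symm, mul_one]
        · rw [if_neg (not_lt_of_gt hv), if_pos hv, if_neg (ne_of_lt hv), one_mul]

@[to_additive cost_ins]
theorem wt_ins (hW : Symm W) {σ : Fn n} (h : IsInv σ) {u w : Fin n} (hu : σ u = u) (hw : σ w = w)
    (huw : u ≠ w) : wt W (ins σ u w) = wt W σ * W u w := by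
  have e1 : ins σ u w u = w := if_pos rfl
  have e2 : ins σ u w w = u := by
    show (if w = u then w else if w = w then u else σ w) = u
    rw [if_neg huw.symm, if_pos rfl]
  have e3 : ∀ v, v ≠ u → v ≠ w → ins σ u w v = σ v := fun v h1 h2 => by
    show (if v = u then w else if v = w then u else σ v) = σ v
    rw [if_neg h1, if_neg h2]
  have key : wt W (ins σ u w) = ∏ v, ((if v < σ v then W v (σ v) else 1) *
      ((if v = u then (if u < w then W u w else 1) else 1) *
        (if v = w then (if w < u then W w u else 1) else 1))) := by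
    rw [wtA_def]
    refine Finset.prod_congr rfl fun v _ => ?_
    by_cases h1 : v = u
    · subst h1
      rw [e1, hu, if_neg (lt_irrefl v), if_pos rfl, if_neg huw, mul_one, one_mul]
    · by_cases h2 : v = w
      · subst h2
        rw [e2, hw, if_neg (lt_irrefl v), if_neg h1, if_pos rfl, one_mul, one_mul]
      · rw [e3 v h1 h2, if_neg h1, if_neg h2, mul_one, mul_one]
  rw [key, Finset.prod_mul_distrib, Finset.prod_mul_distrib, ← wtA_def,
    Finset.prod_ite_eq', Finset.prod_ite_eq', if_pos (Finset.mem_univ _),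
    if_pos (Finset.mem_univ _)]
  congr 1
  rcases lt_or_gt_of_ne huw with hv | hv
  · rw [if_pos hv, if_neg (not_lt_of_gt hv), mul_one]
  · rw [if_neg (not_lt_of_gt hv), if_pos hv, one_mul, hW w u]

@[to_additive cost_rem]
theorem wt_rem (hW : Symm W) {σ : Fn n} (h : IsInv σ) {u : Fin n} (hu : σ u ≠ u) :
    wt W σ = wt W (rem σ u) * W u (σ u) := by
  have e1 : rem σ u u = u := if_pos (Or.inl rfl)
  have e2 : rem σ u (σ u) = σ u := if_pos (Or.inr rfl)
  rw [← wt_ins hW (rem_inv h u) e1 e2 hu.symm, ins_rem h u]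

@[to_additive cost_mix]
theorem wt_mix (W : Fin n → Fin n → R) (K : Fin n → Bool) (σ τ : Fn n) :
    wt W (mix K σ τ) * wt W (mix K τ σ) = wt W σ * wt W τ := by
  rw [wtA_def, wtA_def, wtA_def, wtA_def, ← Finset.prod_mul_distrib, ← Finset.prod_mul_distrib]
  refine Finset.prod_congr rfl fun v _ => ?_
  by_cases hv : K v = true
  · have e1 : mix K σ τ v = τ v := if_pos hv
    have e2 : mix K τ σ v = σ v := if_pos hv
    rw [e1, e2, mul_comm]
  · have e1 : mix K σ τ v = σ v := if_neg hv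
    have e2 : mix K τ σ v = τ v := if_neg hv
    rw [e1, e2]

theorem wtA_rem_apply (σ : Fn n) {u v : Fin n} (h1 : v ≠ u) (h2 : v ≠ σ u) : rem σ u v = σ v :=
  if_neg (not_or.2 ⟨h1, h2⟩)

theorem wtA_force_base (σ : PM n) {u v : Fin n} (huv : u ≠ v) (h : σ.1 u ≠ v) :
    rem (rem (force σ u v).1 u) (σ.1 u) = rem (rem σ.1 u) v := by
  have hi := σ.2.1
  have hf := σ.2.2
  have t1 : (force σ u v).1 u = v := force_apply σ huv
  have t2 : (force σ u v).1 (σ.1 u) = σ.1 v := force_apply_other σ huv h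
  have r1 : rem (force σ u v).1 u (σ.1 u) = σ.1 v := by
    rw [wtA_rem_apply _ (hf u) (by rw [t1]; exact h), t2]
  have r2 : rem σ.1 u v = σ.1 v := wtA_rem_apply _ huv.symm h.symm
  funext x
  show (if x = σ.1 u ∨ x = rem (force σ u v).1 u (σ.1 u) then x
      else if x = u ∨ x = (force σ u v).1 u then x else (force σ u v).1 x) =
    (if x = v ∨ x = rem σ.1 u v then x else if x = u ∨ x = σ.1 u then x else σ.1 x)
  rw [r1, r2, t1]
  by_cases h1 : x = u
  · simp [h1]
  by_cases h2 : x = v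
  · simp [h2]
  by_cases h3 : x = σ.1 u
  · simp [h3]
  by_cases h4 : x = σ.1 v
  · simp [h4]
  simp only [h1, h2, h3, h4, or_self, if_false]
  exact force_apply_rest σ h1 h2 h3 h4

@[to_additive cost_force]
theorem wt_force (hW : Symm W) (σ : PM n) {u v : Fin n} (huv : u ≠ v) (h : σ.1 u ≠ v) :
    wt W (force σ u v).1 * (W u (σ.1 u) * W v (σ.1 v)) =
      wt W σ.1 * (W u v * W (σ.1 u) (σ.1 v)) := by
  have hi := σ.2.1
  have hf := σ.2.2
  have t1 : (force σ u v).1 u = v := force_apply σ huv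
  have t2 : (force σ u v).1 (σ.1 u) = σ.1 v := force_apply_other σ huv h
  have r1 : rem (force σ u v).1 u (σ.1 u) = σ.1 v := by
    rw [wtA_rem_apply _ (hf u) (by rw [t1]; exact h), t2]
  have r2 : rem σ.1 u v = σ.1 v := wtA_rem_apply _ huv.symm h.symm
  have hab : σ.1 v ≠ σ.1 u := fun e => huv (hi.inj e).symm
  have a1 := wt_rem hW (force σ u v).2.1 ((force σ u v).2.2 u)
  have a2 := wt_rem hW (rem_inv (force σ u v).2.1 u) (u := σ.1 u) (by rw [r1]; exact hab)
  have b1 := wt_rem hW hi (hf u)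
  have b2 := wt_rem hW (rem_inv hi u) (u := v) (by rw [r2]; exact hf v)
  rw [r1, wtA_force_base σ huv h] at a2
  rw [r2] at b2
  rw [t1] at a1
  rw [a1, a2, b1, b2]
  simp only [mul_assoc, mul_comm, mul_left_comm]

/-- A vertex rescaling multiplies all weights of perfect matchings by the same factor. -/
@[to_additive cost_vertex]
theorem wt_vertex (W : Fin n → Fin n → R) (φ : Fin n → R) (σ : PM n) :
    wt (fun u v => W u v * (φ u * φ v)) σ.1 = wt W σ.1 * ∏ v, φ v := by
  rw [wt_mul W (fun u v => φ u * φ v)]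
  congr 1
  have e : (∏ v, if v < σ.1 v then φ (σ.1 v) else 1) = ∏ v, if σ.1 v < v then φ v else 1 := by
    rw [← wtA_prod_comp σ.2.1]
    refine Finset.prod_congr rfl fun v _ => ?_
    rw [σ.2.1 v]
  rw [wt_mul (fun u _ => φ u) (fun _ v => φ v), wtA_def, wtA_def, e, ← Finset.prod_mul_distrib]
  refine Finset.prod_congr rfl fun v _ => ?_
  rcases lt_or_gt_of_ne (σ.2.2 v) with hv | hv
  · rw [if_neg (not_lt_of_gt hv), if_pos hv, one_mul]
  · rw [if_pos hv, if_neg (not_lt_of_gt hv), mul_one]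

theorem wtA_card (σ : PM n) : (univ.filter fun v => v < σ.1 v).card = n / 2 := by
  have h := cost_two (R := ℕ) (W := fun _ _ : Fin n => 1) (fun _ _ => rfl) σ.2.1
  have e1 : cost (fun _ _ : Fin n => (1 : ℕ)) σ.1 = (univ.filter fun v => v < σ.1 v).card := by
    rw [wtA_cost_def, Finset.card_filter]
  have e2 : (∑ v : Fin n, if σ.1 v = v then 0 else 1 : ℕ) = n := by
    rw [Finset.sum_congr rfl fun v _ => if_neg (σ.2.2 v)]
    simp
  rw [e1, e2] at h
  omega

@[to_additive cost_const]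
theorem wt_const (a : R) (σ : PM n) : wt (fun _ _ => a) σ.1 = a ^ (n / 2) := by
  rw [wtA_def, ← Finset.prod_filter, Finset.prod_const, wtA_card]

end monoid

theorem wt_zpow {K : Type} [Field K] {r : K} (hr : r ≠ 0) (k : Mat n) (σ : Fn n) :
    wt (fun u v => r ^ k u v) σ = r ^ cost k σ := by
  have key : ∀ (s : Finset (Fin n)) (f : Fin n → ℤ), ∏ i ∈ s, r ^ f i = r ^ ∑ i ∈ s, f i := by
    intro s f
    induction s using Finset.induction_on with
    | empty => simp
    | insert a s ha ih => rw [Finset.prod_insert ha, Finset.sum_insert ha, ih, zpow_add₀ hr]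
  rw [wtA_def, wtA_cost_def, ← key]
  refine Finset.prod_congr rfl fun v _ => ?_
  split_ifs <;> simp

theorem wt_nonneg {W : Fin n → Fin n → ℝ} (hW : ∀ u v, 0 ≤ W u v) (σ : Fn n) : 0 ≤ wt W σ := by
  rw [wtA_def]
  refine Finset.prod_nonneg fun v _ => ?_
  split_ifs
  · exact hW _ _
  · exact zero_le_one

theorem wt_pos {W : Fin n → Fin n → ℝ} (hW : ∀ u v, 0 < W u v) (σ : Fn n) : 0 < wt W σ := by
  rw [wtA_def]
  refine Finset.prod_pos fun v _ => ?_
  split_ifs
  · exact hW _ _
  · exact zero_lt_one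

theorem cost_le_of_le {R : Type} [AddCommMonoid R] [PartialOrder R] [IsOrderedAddMonoid R]
    {c c' : Fin n → Fin n → R} {σ : Fn n} (h : ∀ v, σ v ≠ v → c v (σ v) ≤ c' v (σ v)) :
    cost c σ ≤ cost c' σ := by
  rw [wtA_cost_def, wtA_cost_def]
  refine Finset.sum_le_sum fun v _ => ?_
  split_ifs with hv
  · exact h v (ne_of_gt hv)
  · exact le_rfl

theorem cast_cost (c : Fin n → Fin n → ℕ) (σ : Fn n) :
    ((cost c σ : ℕ) : ℤ) = cost (fun u v => (c u v : ℤ)) σ := by
  rw [wtA_cost_def, wtA_cost_def, Nat.cast_sum]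
  refine Finset.sum_congr rfl fun v _ => ?_
  split_ifs <;> simp

theorem abs_cost_le {k : Mat n} {a : ℤ} (h : ∀ u v, |k u v| ≤ a) (σ : PM n) :
    2 * |cost k σ.1| ≤ a * n := by
  have h1 : cost k σ.1 ≤ cost (fun _ _ => a) σ.1 :=
    cost_le_of_le fun v _ => (abs_le.1 (h _ _)).2
  have h2 : cost (fun _ _ => -a) σ.1 ≤ cost k σ.1 :=
    cost_le_of_le fun v _ => (abs_le.1 (h _ _)).1
  rw [cost_const] at h1 h2
  obtain ⟨m, hm⟩ := σ.2.even
  have e : n / 2 = m := by omega
  rw [e, nsmul_eq_mul] at h1 h2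
  have e2 : (n : ℤ) = m + m := by exact_mod_cast hm
  have h3 : |cost k σ.1| ≤ m * a := abs_le.2 ⟨by linarith, h1⟩
  rw [e2]
  linarith

/-- The cost as a sum over pairs. -/
theorem cost_eq_sum {R : Type} [AddCommMonoid R] (c : Fin n → Fin n → R) (σ : Fn n) :
    cost c σ = ∑ u, ∑ v, if u < v ∧ σ u = v then c u v else 0 := by
  rw [wtA_cost_def]
  refine Finset.sum_congr rfl fun u _ => ?_
  rw [Finset.sum_eq_single (σ u)]
  · simp
  · intro v _ hv
    exact if_neg fun e => hv e.2.symm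
  · intro hv
    exact absurd (Finset.mem_univ _) hv

section semiring
variable {R : Type} [CommSemiring R] {W : Fin n → Fin n → R}

theorem Zs_empty (W : Fin n → Fin n → R) : Zs W ∅ = ZZ W := by
  unfold Zs ZZ
  refine Finset.sum_subtype _ (fun σ => ?_) (fun σ => wt W σ)
  rw [isPM_iff]
  simp

theorem Zs_univ (W : Fin n → Fin n → R) : Zs W univ = 1 := by
  have e : (univ.filter fun σ : Fn n => IsInv σ ∧ fixs σ = univ) = {id} := by
    ext σ
    simp only [Finset.mem_filter, Finset.mem_univ, true_and, Finset.mem_singleton]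
    constructor
    · rintro ⟨_, h2⟩
      funext v
      exact mem_fixs.1 (h2 ▸ Finset.mem_univ v)
    · rintro rfl
      exact ⟨fun _ => rfl, Finset.eq_univ_of_forall fun v => mem_fixs.2 rfl⟩
  unfold Zs
  rw [e, Finset.sum_singleton, wt_id]

/-- Matchings containing the edge `u v`. -/
theorem sum_edge (hW : Symm W) {S : Finset (Fin n)} {u v : Fin n} (hu : u ∉ S) (hv : v ∉ S)
    (huv : u ≠ v) :
    ∑ σ : Fn n with (IsInv σ ∧ fixs σ = S) ∧ σ u = v, wt W σ =
      W u v * Zs W (insert u (insert v S)) := by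
  unfold Zs
  rw [Finset.mul_sum]
  refine Finset.sum_nbij' (fun σ => rem σ u) (fun τ => ins τ u v) ?_ ?_ ?_ ?_ ?_
  · intro σ hσ
    obtain ⟨⟨h1, h2⟩, h3⟩ := (Finset.mem_filter.1 hσ).2
    refine Finset.mem_filter.2 ⟨Finset.mem_univ _, rem_inv h1 u, ?_⟩
    rw [fixs_rem h1, h2, h3]
  · intro τ hτ
    obtain ⟨h1, h2⟩ := (Finset.mem_filter.1 hτ).2
    have f1 : τ u = u := mem_fixs.1 (by rw [h2]; simp)
    have f2 : τ v = v := mem_fixs.1 (by rw [h2]; simp)
    refine Finset.mem_filter.2 ⟨Finset.mem_univ _, ⟨ins_inv h1 f1 f2, ?_⟩, if_pos rfl⟩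
    rw [fixs_ins huv, h2, Finset.erase_insert, Finset.erase_insert hv]
    simp [hu, huv]
  · intro σ hσ
    obtain ⟨⟨h1, _⟩, h3⟩ := (Finset.mem_filter.1 hσ).2
    show ins (rem σ u) u v = σ
    rw [← h3, ins_rem h1]
  · intro τ hτ
    obtain ⟨_, h2⟩ := (Finset.mem_filter.1 hτ).2
    have f1 : τ u = u := mem_fixs.1 (by rw [h2]; simp)
    have f2 : τ v = v := mem_fixs.1 (by rw [h2]; simp)
    exact rem_ins f1 f2
  · intro σ hσ
    obtain ⟨⟨h1, _⟩, h3⟩ := (Finset.mem_filter.1 hσ).2
    rw [wt_rem hW h1 (u := u) (by rw [h3]; exact huv.symm), h3, mul_comm]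

/-- Expansion along a vertex. -/
theorem Zs_expand (hW : Symm W) {S : Finset (Fin n)} {u : Fin n} (hu : u ∉ S) :
    Zs W S = ∑ v with v ∉ S ∧ v ≠ u, W u v * Zs W (insert u (insert v S)) := by
  have hmap : ∀ σ ∈ univ.filter (fun σ : Fn n => IsInv σ ∧ fixs σ = S),
      σ u ∈ univ.filter fun v => v ∉ S ∧ v ≠ u := by
    intro σ hσ
    obtain ⟨h1, h2⟩ := (Finset.mem_filter.1 hσ).2
    have f1 : σ u ≠ u := fun e => hu (h2 ▸ mem_fixs.2 e)
    refine Finset.mem_filter.2 ⟨Finset.mem_univ _, fun e => ?_, f1⟩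
    have := mem_fixs.1 (h2 ▸ e)
    exact f1 (h1.inj this)
  conv_lhs => unfold Zs
  rw [← Finset.sum_fiberwise_of_maps_to hmap]
  refine Finset.sum_congr rfl fun v hv => ?_
  obtain ⟨h1, h2⟩ := (Finset.mem_filter.1 hv).2
  rw [Finset.filter_filter, sum_edge hW hu h1 h2.symm]

theorem sum_edge_pm (hW : Symm W) {u v : Fin n} (huv : u ≠ v) :
    ∑ σ : PM n, (if σ.1 u = v then wt W σ.1 else 0) = W u v * Zs W {u, v} := by
  have h := sum_edge hW (S := ∅) (Finset.notMem_empty u) (Finset.notMem_empty v) huv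
  rw [Finset.insert_empty] at h
  rw [← h, ← Finset.filter_filter, Finset.sum_filter]
  symm
  refine Finset.sum_subtype _ (fun σ => ?_) (fun σ : Fn n => if σ u = v then wt W σ else 0)
  rw [isPM_iff]
  simp

end semiring

theorem wtA_card_compl {S : Finset (Fin n)} {u v : Fin n} (hu : u ∉ S) (hv : v ∉ S) (huv : v ≠ u) :
    (insert u (insert v S))ᶜ.card + 2 = Sᶜ.card := by
  have h1 : u ∉ insert v S := by simp [hu, huv.symm]
  have h2 := Finset.card_insert_of_notMem h1
  have h3 := Finset.card_insert_of_notMem hv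
  have h4 := Finset.card_add_card_compl S
  have h5 := Finset.card_add_card_compl (insert u (insert v S))
  omega

theorem wtA_Zs_le {W : Fin n → Fin n → ℝ} (hW : Symm W) (h0 : ∀ u v, 0 ≤ W u v) {D : ℝ}
    (hD0 : 0 ≤ D) (hD : ∀ u, ∑ v with v ≠ u, W u v ≤ D) (k : ℕ) :
    ∀ S : Finset (Fin n), Sᶜ.card = k → Zs W S ≤ D ^ (k / 2) := by
  induction k using Nat.strong_induction_on with
  | _ k ih =>
    intro S hS
    by_cases hU : S = univ
    · subst hU
      rw [Zs_univ]
      simp at hS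
      subst hS
      simp
    obtain ⟨u, hu⟩ : ∃ u, u ∉ S := by
      by_contra hc
      push Not at hc
      exact hU (Finset.eq_univ_of_forall hc)
    rw [Zs_expand hW hu]
    by_cases hk : 2 ≤ k
    · obtain ⟨j, rfl⟩ : ∃ j, k = j + 2 := ⟨k - 2, by omega⟩
      have e : (j + 2) / 2 = j / 2 + 1 := by omega
      calc ∑ v with v ∉ S ∧ v ≠ u, W u v * Zs W (insert u (insert v S))
          ≤ ∑ v with v ∉ S ∧ v ≠ u, W u v * D ^ (j / 2) := by
            refine Finset.sum_le_sum fun v hv => ?_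
            obtain ⟨h1, h2⟩ := (Finset.mem_filter.1 hv).2
            have := wtA_card_compl hu h1 h2
            exact mul_le_mul_of_nonneg_left (ih j (by omega) _ (by omega)) (h0 _ _)
        _ ≤ ∑ v with v ≠ u, W u v * D ^ (j / 2) := by
            refine Finset.sum_le_sum_of_subset_of_nonneg (fun v hv => ?_) fun v _ _ =>
              mul_nonneg (h0 _ _) (pow_nonneg hD0 _)
            exact Finset.mem_filter.2 ⟨Finset.mem_univ _, (Finset.mem_filter.1 hv).2.2⟩
        _ ≤ D * D ^ (j / 2) := by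
            rw [← Finset.sum_mul]
            exact mul_le_mul_of_nonneg_right (hD u) (pow_nonneg hD0 _)
        _ = D ^ ((j + 2) / 2) := by rw [e, pow_succ, mul_comm]
    · rw [Finset.sum_eq_zero]
      · exact pow_nonneg hD0 _
      · intro v hv
        obtain ⟨h1, h2⟩ := (Finset.mem_filter.1 hv).2
        have := wtA_card_compl hu h1 h2
        omega

/-- The total weight is at most `D ^ (n / 2)` when all weighted degrees are at most `D`. -/
theorem ZZ_le_pow {W : Fin n → Fin n → ℝ} (hW : Symm W) (h0 : ∀ u v, 0 ≤ W u v) {D : ℝ}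
    (hD0 : 0 ≤ D) (hD : ∀ u, ∑ v with v ≠ u, W u v ≤ D) : ZZ W ≤ D ^ (n / 2) := by
  rw [← Zs_empty]
  exact wtA_Zs_le hW h0 hD0 hD n ∅ (by simp)

theorem wtA_z0_succ (m : ℕ) : z0 (2 * (m + 1)) = z0 (2 * m) * (2 * m + 1) := by
  have e1 : 2 * (m + 1) / 2 = m + 1 := by omega
  have e2 : 2 * m / 2 = m := by omega
  unfold z0
  rw [e1, e2, List.range_succ]
  simp

theorem wtA_Zs_one {R : Type} [CommSemiring R] (m : ℕ) :
    ∀ S : Finset (Fin n), Sᶜ.card = 2 * m → Zs (fun _ _ => (1 : R)) S = (z0 (2 * m) : R) := by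
  induction m with
  | zero =>
    intro S hS
    have hU : S = univ := by simpa using hS
    rw [hU, Zs_univ]
    simp [z0]
  | succ m ih =>
    intro S hS
    obtain ⟨u, hu⟩ : Sᶜ.Nonempty := Finset.card_pos.1 (by omega)
    have hu' : u ∉ S := Finset.mem_compl.1 hu
    rw [Zs_expand (fun _ _ => rfl) hu']
    have e : (univ.filter fun v => v ∉ S ∧ v ≠ u) = Sᶜ.erase u := by
      ext v
      simp [and_comm]
    have hc : (univ.filter fun v => v ∉ S ∧ v ≠ u).card = 2 * m + 1 := by
      rw [e, Finset.card_erase_of_mem hu]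
      omega
    rw [Finset.sum_congr rfl (g := fun _ => (z0 (2 * m) : R))]
    · rw [Finset.sum_const, hc, wtA_z0_succ, nsmul_eq_mul, Nat.cast_mul, mul_comm]
    · intro v hv
      obtain ⟨h1, h2⟩ := (Finset.mem_filter.1 hv).2
      have := wtA_card_compl hu' h1 h2
      rw [one_mul, ih _ (by omega)]

theorem wtA_ZZ_one {R : Type} [CommSemiring R] (h : Even n) :
    ZZ (fun _ _ : Fin n => (1 : R)) = (z0 n : R) := by
  obtain ⟨m, hm⟩ := h
  have e : n = 2 * m := by omega
  rw [← Zs_empty, wtA_Zs_one m ∅ (by simpa using e), ← e]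

theorem card_PM (h : Even n) : Fintype.card (PM n) = z0 n := by
  have h1 := wtA_ZZ_one (R := ℕ) h
  unfold ZZ at h1
  simp only [wt_const, one_pow, Finset.sum_const, Finset.card_univ, smul_eq_mul, mul_one,
    Nat.cast_id] at h1
  exact h1

theorem z0_pos (n : ℕ) : 0 < z0 n := by
  unfold z0
  refine List.prod_pos fun a ha => ?_
  obtain ⟨i, _, rfl⟩ := List.mem_map.1 ha
  omega

theorem z0_le (n : ℕ) : z0 n ≤ 2 ^ (n ^ 2) := by
  have key : ∀ m : ℕ, z0 (2 * m) ≤ 2 ^ ((2 * m) ^ 2) := by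
    intro m
    induction m with
    | zero => simp [z0]
    | succ m ih =>
      rw [wtA_z0_succ]
      calc z0 (2 * m) * (2 * m + 1) ≤ 2 ^ ((2 * m) ^ 2) * 2 ^ (2 * m + 1) :=
            Nat.mul_le_mul ih Nat.lt_two_pow_self.le
        _ ≤ 2 ^ ((2 * (m + 1)) ^ 2) := by
            rw [← pow_add]
            exact Nat.pow_le_pow_right (by norm_num) (by nlinarith)
  have e : z0 n = z0 (2 * (n / 2)) := by
    unfold z0
    rw [Nat.mul_div_cancel_left _ (by norm_num : 0 < 2)]
  rw [e]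
  refine (key _).trans (Nat.pow_le_pow_right (by norm_num) ?_)
  exact Nat.pow_le_pow_left (Nat.mul_div_le n 2) 2

section gibbs
variable {W : Fin n → Fin n → ℝ}

theorem ZZ_pos (hn : Even n) (hW : PosW W) : 0 < ZZ W := by
  unfold ZZ
  exact Finset.sum_pos (fun σ _ => wt_pos hW.2 _) ⟨⟨sig0 hn, isPM_sig0 hn⟩, Finset.mem_univ _⟩

theorem gib_pos (hn : Even n) (hW : PosW W) (σ : PM n) : 0 < gib W σ := by
  exact div_pos (wt_pos hW.2 _) (ZZ_pos hn hW)

theorem sum_gib (hn : Even n) (hW : PosW W) : ∑ σ, gib W σ = 1 := by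
  unfold gib
  rw [← Finset.sum_div]
  exact div_self (ZZ_pos hn hW).ne'

theorem mg_eq (hW : PosW W) {u v : Fin n} (huv : u ≠ v) :
    mg W u v = W u v * Zs W {u, v} / ZZ W := by
  rw [← sum_edge_pm hW.1 huv, Finset.sum_div]
  unfold mg gib
  refine Finset.sum_congr rfl fun σ _ => ?_
  split_ifs <;> simp

theorem mg_symm (W : Fin n → Fin n → ℝ) (u v : Fin n) : mg W u v = mg W v u := by
  unfold mg
  exact Finset.sum_congr rfl fun σ _ => if_congr σ.2.1.eq_iff rfl rfl

theorem wtA_gib_nonneg (hW : PosW W) (σ : PM n) : 0 ≤ gib W σ :=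
  div_nonneg (wt_pos hW.2 _).le (Finset.sum_nonneg fun _ _ => (wt_pos hW.2 _).le)

theorem mg_nonneg (hW : PosW W) (u v : Fin n) : 0 ≤ mg W u v := by
  unfold mg
  refine Finset.sum_nonneg fun σ _ => ?_
  split_ifs
  · exact wtA_gib_nonneg hW σ
  · exact le_rfl

theorem mg_le_one (hW : PosW W) (u v : Fin n) : mg W u v ≤ 1 := by
  calc mg W u v ≤ ∑ σ, gib W σ := by
        unfold mg
        refine Finset.sum_le_sum fun σ _ => ?_
        split_ifs
        · exact le_rfl
        · exact wtA_gib_nonneg hW σ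
    _ = ZZ W / ZZ W := by
        unfold gib
        rw [← Finset.sum_div]
        rfl
    _ ≤ 1 := div_self_le_one _

/-- The expectation of an additive function. -/
theorem sum_gib_cost (W c : Fin n → Fin n → ℝ) :
    ∑ σ : PM n, gib W σ * cost c σ.1 = ∑ u, ∑ v, if u < v then c u v * mg W u v else 0 := by
  simp only [cost_eq_sum, Finset.mul_sum]
  rw [Finset.sum_comm]
  refine Finset.sum_congr rfl fun u _ => ?_
  rw [Finset.sum_comm]
  refine Finset.sum_congr rfl fun v _ => ?_
  by_cases huv : u < v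
  · rw [if_pos huv]
    unfold mg
    rw [Finset.mul_sum]
    refine Finset.sum_congr rfl fun σ _ => ?_
    by_cases h : σ.1 u = v
    · rw [if_pos ⟨huv, h⟩, if_pos h, mul_comm]
    · rw [if_neg fun e => h e.2, if_neg h, mul_zero, mul_zero]
  · rw [if_neg huv]
    exact Finset.sum_eq_zero fun σ _ => by rw [if_neg fun e => huv e.1, mul_zero]

theorem gib_kem (W : Fin n → Fin n → ℝ) (v : Fin n) (s : PM n × PM n) :
    gib W (kem v s).1 * gib W (kem v s).2 = gib W s.1 * gib W s.2 := by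
  unfold gib
  rw [div_mul_div_comm, div_mul_div_comm]
  congr 1
  exact wt_mix W _ _ _

end gibbs

theorem mg_one (h : Even n) {u v : Fin n} (huv : u ≠ v) :
    mg (fun _ _ : Fin n => (1 : ℝ)) u v = 1 / ((n : ℝ) - 1) := by
  have hP : PosW (fun _ _ : Fin n => (1 : ℝ)) := ⟨fun _ _ => rfl, fun _ _ => one_pos⟩
  have hc := wtA_card_compl (Finset.notMem_empty u) (Finset.notMem_empty v) huv.symm
  rw [Finset.insert_empty, Finset.compl_empty, Finset.card_univ, Fintype.card_fin] at hc
  obtain ⟨m, hm⟩ := h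
  obtain ⟨j, rfl⟩ : ∃ j, m = j + 1 := ⟨m - 1, by omega⟩
  have e : n = 2 * (j + 1) := by omega
  have hz : z0 n = z0 (2 * j) * (2 * j + 1) := by rw [e, wtA_z0_succ]
  have hn : (n : ℝ) - 1 = 2 * j + 1 := by
    have : (n : ℝ) = 2 * (j + 1) := by exact_mod_cast e
    linarith
  have hp : (0 : ℝ) < z0 (2 * j) := by exact_mod_cast z0_pos _
  rw [mg_eq hP huv, wtA_ZZ_one ⟨_, hm⟩, wtA_Zs_one j _ (by omega), hz, hn]
  push_cast
  field_simp

end Crest.Agent.R304
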